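import Mathlib

/-! P308: decay of low-degree functions under an average of pair operators. -/

namespace Vale.Agent.P308
open Finset
open scoped RealInnerProductSpace

variable {H : Type} [SeminormedAddCommGroup H] [InnerProductSpace ℝ H]
  {ι : Type} [Fintype ι] [DecidableEq ι]

structure AN (E : ι → H →ₗ[ℝ] H) (P : ι → ι → H →ₗ[ℝ] H) (K : ℝ) : Prop where
  comm : ∀ i j x, E i (E j x) = E j (E i x)
  idem : ∀ i x, E i (E i x) = E i x
  esym : ∀ i x y, ⟪E i x, y⟫ = ⟪x, E i y⟫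
  psym : ∀ i j x y, ⟪P i j x, y⟫ = ⟪x, P i j y⟫
  pnrm : ∀ i j x, ‖P i j x‖ ^ 2 ≤ ⟪x, P i j x⟫
  pcom : ∀ i j k x, k ≠ i → k ≠ j → E k (P i j x) = P i j (E k x)
  pfix : ∀ i j x, E i x = x → E j x = x → P i j x = x
  gap : ∀ i j x, i ≠ j → x - E i x - E j x + E i (E j x) = 0 →
    ‖x - E i x‖ ^ 2 ≤ K * (‖x‖ ^ 2 - ⟪x, P i j x⟫)

def In (E : ι → H →ₗ[ℝ] H) (S : Finset ι) (x : H) : Prop := ∀ i, E i x = if i ∈ S then 0 else x

noncomputable def Pav (P : ι → ι → H →ₗ[ℝ] H) : H →ₗ[ℝ] H :=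
  (1 / (Fintype.card ι : ℝ) ^ 2) • ∑ q : ι × ι, P q.1 q.2

theorem contr_of {T : H →ₗ[ℝ] H} {x : H} (h : ‖T x‖ ^ 2 ≤ ⟪x, T x⟫) : ‖T x‖ ≤ ‖x‖ := by
  have := real_inner_le_norm x (T x)
  by_contra hc
  nlinarith [norm_nonneg x]

namespace AN
variable {E : ι → H →ₗ[ℝ] H} {P : ι → ι → H →ₗ[ℝ] H} {K : ℝ} (h : AN E P K)
include h

theorem dec (x : H) : ∃ c : Finset ι → H, (∀ S, In E S (c S)) ∧ ∑ S, c S = x := by
  have : ∀ A : Finset ι, ∃ c : Finset ι → H,
      (∀ S, ∀ i ∈ A, E i (c S) = if i ∈ S then 0 else c S) ∧ ∑ S ∈ A.powerset, c S = x := by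
    intro A
    induction A using Finset.induction_on with
    | empty => exact ⟨fun _ => x, by simp, by simp⟩
    | insert j A hj ih =>
      obtain ⟨c, h1, h2⟩ := ih
      refine ⟨fun S => if j ∈ S then c (S.erase j) - E j (c (S.erase j)) else E j (c S),
        fun S i hi => ?_, ?_⟩
      · rcases mem_insert.1 hi with rfl | hi
        · by_cases a : i ∈ S <;> simp [a, h.idem]
        · have ne : i ≠ j := fun e => hj (e ▸ hi)
          by_cases a : j ∈ S <;> by_cases b : i ∈ S <;> simp [a, b, h.comm i j, h1 _ i hi, ne]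
      · rw [sum_powerset_insert hj, ← sum_add_distrib, ← h2]
        refine sum_congr rfl fun S hS => ?_
        have : j ∉ S := fun e => hj (mem_powerset.1 hS e)
        simp [this, erase_insert this]
  obtain ⟨c, h1, h2⟩ := this univ
  exact ⟨c, fun S i => h1 S i (mem_univ i), by rw [← h2, powerset_univ]⟩

theorem ortP {S T : Finset ι} {x y : H} (hx : In E S x) (hy : In E T y) {i j k : ι} (hi : k ≠ i)
    (hj : k ≠ j) (hk : ¬ (k ∈ T ↔ k ∈ S)) : ⟪y, P i j x⟫ = 0 := by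
  have a := hx k
  have b := hy k
  by_cases e : k ∈ S
  · rw [if_pos e] at a
    rw [if_neg (by tauto)] at b
    rw [← b, h.esym, h.pcom _ _ _ _ hi hj, a, map_zero, inner_zero_right]
  · rw [if_neg e] at a
    rw [if_pos (by tauto)] at b
    rw [← a, ← h.pcom _ _ _ _ hi hj, ← h.esym, b, inner_zero_left]

theorem ort {S T : Finset ι} {x y : H} (hx : In E S x) (hy : In E T y) (hne : T ≠ S) :
    ⟪y, x⟫ = 0 := by
  obtain ⟨k, hk⟩ : ∃ k, ¬ (k ∈ T ↔ k ∈ S) := by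
    by_contra hc; push Not at hc; exact hne (Finset.ext hc)
  have a := hx k
  have b := hy k
  by_cases e : k ∈ S
  · rw [if_pos e] at a
    rw [if_neg (by tauto)] at b
    rw [← b, h.esym, a, inner_zero_right]
  · rw [if_neg e] at a
    rw [if_pos (by tauto)] at b
    rw [← a, ← h.esym, b, inner_zero_left]

theorem inn {c : Finset ι → H} (hc : ∀ S, In E S (c S)) (F G : Finset (Finset ι)) (hF : F ⊆ G) :
    ⟪∑ S ∈ F, c S, ∑ S ∈ G, c S⟫ = ∑ S ∈ F, ‖c S‖ ^ 2 := by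
  rw [sum_inner]
  refine sum_congr rfl fun S hS => ?_
  rw [inner_sum, sum_eq_single_of_mem S (hF hS) fun T _ e => h.ort (hc T) (hc S) e.symm,
    real_inner_self_eq_norm_sq]

theorem nrm {c : Finset ι → H} (hc : ∀ S, In E S (c S)) (F : Finset (Finset ι)) :
    ‖∑ S ∈ F, c S‖ ^ 2 = ∑ S ∈ F, ‖c S‖ ^ 2 := by
  rw [← real_inner_self_eq_norm_sq, h.inn hc F F subset_rfl]

theorem nrm_le {c : Finset ι → H} (hc : ∀ S, In E S (c S)) {F G : Finset (Finset ι)} (hF : F ⊆ G) :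
    ‖∑ S ∈ F, c S‖ ≤ ‖∑ S ∈ G, c S‖ := by
  refine (pow_le_pow_iff_left₀ (norm_nonneg _) (norm_nonneg _) two_ne_zero).1 ?_
  rw [h.nrm hc, h.nrm hc]
  exact sum_le_sum_of_subset_of_nonneg hF fun _ _ _ => sq_nonneg _

omit h in
theorem av_inner (x y : H) :
    ⟪y, Pav P x⟫ = 1 / (Fintype.card ι : ℝ) ^ 2 * ∑ q : ι × ι, ⟪y, P q.1 q.2 x⟫ := by
  simp only [Pav, LinearMap.smul_apply, LinearMap.sum_apply, inner_smul_right, inner_sum]

theorem av_nrm [Nonempty ι] (x : H) : ‖Pav P x‖ ^ 2 ≤ ⟪x, Pav P x⟫ := by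
  have N0 : (0 : ℝ) < Fintype.card ι := by exact_mod_cast Fintype.card_pos
  rw [av_inner]
  simp only [Pav, LinearMap.smul_apply, LinearMap.sum_apply, norm_smul, mul_pow]
  have a1 := pow_le_pow_left₀ (norm_nonneg _) (norm_sum_le univ fun q : ι × ι => P q.1 q.2 x) 2
  have a2 := sq_sum_le_card_mul_sum_sq (s := univ) (f := fun q : ι × ι => ‖P q.1 q.2 x‖)
  have a3 := sum_le_sum (s := univ) fun (q : ι × ι) _ => h.pnrm q.1 q.2 x
  simp only [card_univ, Fintype.card_prod, Nat.cast_mul] at a2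
  have a4 := a1.trans (a2.trans (mul_le_mul_of_nonneg_left a3 (by positivity)))
  rw [Real.norm_of_nonneg (by positivity)]
  refine (mul_le_mul_of_nonneg_left a4 (by positivity)).trans (le_of_eq ?_)
  field_simp

theorem pair {c : Finset ι → H} (hc : ∀ S, In E S (c S)) (hK : 0 ≤ K) (F : Finset (Finset ι))
    (i j : ι) : ∑ S ∈ F, (if i ∈ S ∧ j ∉ S then ‖c S‖ ^ 2 else 0) ≤
      2 * K * (‖∑ S ∈ F, c S‖ ^ 2 - ⟪∑ S ∈ F, c S, P i j (∑ S ∈ F, c S)⟫)
        + 2 * K * ∑ S ∈ F, (if i ∈ S ∧ j ∈ S then ‖c S‖ ^ 2 else 0) := by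
  have e0 : ∀ x, 0 ≤ ‖x‖ ^ 2 - ⟪x, P i j x⟫ := fun x => by
    have := real_inner_le_norm x (P i j x)
    have := contr_of (h.pnrm i j x)
    nlinarith [norm_nonneg x]
  rw [← sum_filter, ← sum_filter, ← h.nrm hc, ← h.nrm hc]
  by_cases hij : i = j
  · subst hij
    simp only [and_not_self, filter_false, sum_empty, norm_zero]
    have := mul_nonneg hK (e0 (∑ S ∈ F, c S))
    have := mul_nonneg hK (sq_nonneg ‖∑ S ∈ F.filter (fun S => i ∈ S ∧ i ∈ S), c S‖)
    linarith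
  have e1 := sum_filter_add_sum_filter_not F (fun S => i ∈ S ∧ j ∈ S) c
  have e2 := h.gap i j (∑ S ∈ F.filter (fun S => ¬ (i ∈ S ∧ j ∈ S)), c S) hij (by
    simp only [map_sum, sum_filter, ← sum_sub_distrib, ← sum_add_distrib]
    refine sum_eq_zero fun S _ => ?_
    by_cases a : i ∈ S <;> by_cases b : j ∈ S <;> simp [a, b, hc S i, hc S j])
  have e3 : ∑ S ∈ F.filter (fun S => ¬ (i ∈ S ∧ j ∈ S)), c S
      - E i (∑ S ∈ F.filter (fun S => ¬ (i ∈ S ∧ j ∈ S)), c S)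
      = ∑ S ∈ F.filter (fun S => i ∈ S ∧ j ∉ S), c S := by
    simp only [map_sum, sum_filter, ← sum_sub_distrib]
    refine sum_congr rfl fun S _ => ?_
    by_cases a : i ∈ S <;> by_cases b : j ∈ S <;> simp [a, b, hc S i]
  rw [e3, ← sub_eq_of_eq_add' e1.symm] at e2
  generalize ∑ S ∈ F.filter (fun S => i ∈ S ∧ j ∈ S), c S = g at *
  generalize ∑ S ∈ F, c S = x at *
  have a1 := e0 (x + g)
  have a2 := h.pnrm i j g
  have a3 := parallelogram_law_with_norm ℝ x g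
  simp only [map_add, map_sub, inner_add_left, inner_add_right, inner_sub_left, inner_sub_right] at a1 e2
  have a4 : ‖x - g‖ ^ 2 - (⟪x, P i j x⟫ - ⟪g, P i j x⟫ - (⟪x, P i j g⟫ - ⟪g, P i j g⟫))
      ≤ 2 * (‖x‖ ^ 2 - ⟪x, P i j x⟫) + 2 * ‖g‖ ^ 2 := by nlinarith [sq_nonneg ‖P i j g‖]
  have := mul_le_mul_of_nonneg_left a4 hK
  linarith

omit h in
theorem cnt (F : Finset (Finset ι)) (w : Finset ι → ℝ) (p : Finset ι → ι → Prop) (q : Finset ι → ι → Prop)
    [∀ S i, Decidable (p S i)] [∀ S i, Decidable (q S i)] :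
    ∑ z : ι × ι, ∑ S ∈ F, (if p S z.1 ∧ q S z.2 then w S else 0)
      = ∑ S ∈ F, (univ.filter (p S)).card * (univ.filter (q S)).card * w S := by
  rw [sum_comm]
  refine sum_congr rfl fun S _ => ?_
  rw [← sum_filter, sum_const, nsmul_eq_mul, ← univ_product_univ, filter_product, card_product]
  push_cast; ring

theorem low [Nonempty ι] {c : Finset ι → H} (hc : ∀ S, In E S (c S)) (hK : 1 ≤ K) (k : ℕ)
    (hk : 2 * (1 + 2 * K) * k ≤ Fintype.card ι) (F : Finset (Finset ι))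
    (hF : ∀ S ∈ F, S.card ≤ k) (h0 : ‖c ∅‖ = 0) :
    ‖Pav P (∑ S ∈ F, c S)‖ ≤ (1 - 1 / (8 * K * Fintype.card ι)) * ‖∑ S ∈ F, c S‖ := by
  have N1 : (1 : ℝ) ≤ Fintype.card ι := by exact_mod_cast Fintype.card_pos
  have a1 := sum_le_sum (s := univ) fun (z : ι × ι) _ => h.pair hc (by linarith) F z.1 z.2
  rw [sum_add_distrib, ← mul_sum, ← mul_sum, cnt F _ (fun S i => i ∈ S) (fun S i => i ∉ S),
    cnt F _ (fun S i => i ∈ S) (fun S i => i ∈ S), sum_sub_distrib] at a1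
  have a2 := h.av_nrm (∑ S ∈ F, c S)
  rw [av_inner] at a2
  have a3 : Fintype.card ι / 2 * ‖∑ S ∈ F, c S‖ ^ 2 + 2 * K * ∑ S ∈ F, ((univ.filter (· ∈ S)).card *
      (univ.filter (· ∈ S)).card * ‖c S‖ ^ 2) ≤
      ∑ S ∈ F, (univ.filter (· ∈ S)).card * (univ.filter (· ∉ S)).card * ‖c S‖ ^ 2 := by
    rw [h.nrm hc, mul_sum, mul_sum, ← sum_add_distrib]
    refine sum_le_sum fun S hS => ?_
    rcases S.eq_empty_or_nonempty with rfl | hne
    · simp [h0]
    have b1 : (1 : ℝ) ≤ S.card := by exact_mod_cast hne.card_pos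
    have b2 : (S.card : ℝ) ≤ k := by exact_mod_cast hF S hS
    have b3 : ((univ.filter (· ∉ S)).card : ℝ) = Fintype.card ι - S.card := by
      rw [filter_not, filter_univ_mem, card_univ_diff, Nat.cast_sub (card_le_univ S)]
    rw [b3, filter_univ_mem, ← mul_assoc, ← add_mul]
    refine mul_le_mul_of_nonneg_right ?_ (sq_nonneg _)
    have b4 := mul_le_mul_of_nonneg_left b2 (by linarith : 0 ≤ 2 * (1 + 2 * K))
    nlinarith
  simp only [sum_const, card_univ, Fintype.card_prod, nsmul_eq_mul, Nat.cast_mul] at a1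
  generalize ∑ z : ι × ι, ⟪∑ S ∈ F, c S, P z.1 z.2 (∑ S ∈ F, c S)⟫ = I at *
  generalize (Fintype.card ι : ℝ) = N at *
  generalize ∑ S ∈ F, c S = x at *
  have a4 : 1 / N ^ 2 * I ≤ (1 - 1 / (4 * K * N)) * ‖x‖ ^ 2 := by
    have : I ≤ N ^ 2 * ((1 - 1 / (4 * K * N)) * ‖x‖ ^ 2) := by
      refine le_of_mul_le_mul_left ?_ (by linarith : 0 < 2 * K)
      have : 2 * K * (N ^ 2 * ((1 - 1 / (4 * K * N)) * ‖x‖ ^ 2))
          = 2 * K * (N * N * ‖x‖ ^ 2) - N / 2 * ‖x‖ ^ 2 := by field_simp; ring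
      linarith
    rw [one_div, inv_mul_le_iff₀ (by positivity)]
    exact this
  have a5 : 1 / (8 * K * N) ≤ 1 := by rw [div_le_one (by positivity)]; nlinarith
  refine (pow_le_pow_iff_left₀ (norm_nonneg _) (mul_nonneg (by linarith) (norm_nonneg _))
    two_ne_zero).1 (a2.trans (a4.trans ?_))
  rw [mul_pow]
  refine mul_le_mul_of_nonneg_right ?_ (sq_nonneg _)
  have : 1 / (4 * K * N) = 2 * (1 / (8 * K * N)) := by field_simp; ring
  rw [this]
  nlinarith [sq_nonneg (1 / (8 * K * N))]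

theorem up [Nonempty ι] {c d : Finset ι → H} (hc : ∀ S, In E S (c S)) (hd : ∀ S, In E S (d S))
    (e : ∑ S, d S = Pav P (∑ S, c S)) (k : ℕ) (γ : ℝ) (γ0 : 0 ≤ γ)
    (hγ : 2 * ((k : ℝ) + 1) ^ 3 ≤ γ ^ 2 * Fintype.card ι ^ 3) :
    ‖∑ S ∈ univ.filter (k + 1 ≤ card ·), d S‖ ≤ ‖∑ S ∈ univ.filter (k + 1 ≤ card ·), c S‖
      + γ * ‖∑ S ∈ univ.filter (k ≤ card ·), c S‖ := by
  have N1 : (1 : ℝ) ≤ Fintype.card ι := by exact_mod_cast Fintype.card_pos
  set y := ∑ S ∈ univ.filter (k + 1 ≤ card ·), d S with hy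
  have a1 : ‖y‖ ^ 2 = ⟪y, Pav P (∑ S, c S)⟫ := by rw [← e, h.inn hd _ _ (subset_univ _), h.nrm hd]
  rw [← sum_filter_add_sum_filter_not univ (k + 1 ≤ card ·) c, map_add, inner_add_right] at a1
  have a2 := (real_inner_le_norm y _).trans (mul_le_mul_of_nonneg_left
    (contr_of (h.av_nrm (∑ S ∈ univ.filter (k + 1 ≤ card ·), c S))) (norm_nonneg y))
  let A : ι × ι → Finset (Finset ι) := fun z => univ.filter fun T => T.card = k + 1 ∧ z.1 ∈ T ∧ z.2 ∈ T
  let B : ι × ι → Finset (Finset ι) := fun z => univ.filter fun T => T.card = k ∧ (z.1 ∈ T ∨ z.2 ∈ T)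
  have a3 : ∀ z : ι × ι, ⟪y, P z.1 z.2 (∑ S ∈ univ.filter (fun S => ¬ k + 1 ≤ card S), c S)⟫
      ≤ ‖∑ S ∈ A z, d S‖ * ‖∑ S ∈ B z, c S‖ := by
    rintro ⟨i, j⟩
    refine le_trans (le_of_eq ?_) ((real_inner_le_norm _ _).trans
      (mul_le_mul_of_nonneg_left (contr_of (h.pnrm i j _)) (norm_nonneg _)))
    simp only [hy, map_sum, sum_inner, inner_sum]
    rw [← sum_product', ← sum_product']
    refine (sum_subset (fun z hz => ?_) fun ⟨S, T⟩ hz hn => ?_).symm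
    · simp only [A, B, mem_product, mem_filter, mem_univ, true_and] at hz ⊢; omega
    simp only [A, B, mem_product, mem_filter, mem_univ, true_and] at hz hn
    by_contra hne
    have b1 : ∀ x, x ≠ i → x ≠ j → (x ∈ T ↔ x ∈ S) := fun x h1 h2 => by
      by_contra hx; exact hne (h.ortP (hc S) (hd T) h1 h2 hx)
    have b2 : i ∈ S ∨ j ∈ S := by
      by_contra hx
      push Not at hx
      refine hne ?_
      rw [h.pfix i j _ (by rw [hc S i, if_neg hx.1]) (by rw [hc S j, if_neg hx.2])]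
      exact h.ort (hc S) (hd T) (by rintro rfl; omega)
    have b3 : ∀ x, (∀ y ∈ T, y ≠ x → y ∈ S) → x ∈ T ∧ S.card = k ∧ T.card = k + 1 := by
      intro x hx
      have c1 : T.erase x ⊆ S := fun y hy => hx y (mem_erase.1 hy).2 (mem_erase.1 hy).1
      have c2 := card_le_card c1
      by_cases hxT : x ∈ T
      · rw [card_erase_of_mem hxT] at c2; exact ⟨hxT, by omega, by omega⟩
      · rw [erase_eq_of_notMem hxT] at c2; omega
    have b4 : ∀ x x', x ∈ S → (∀ y, y ≠ x → y ≠ x' → (y ∈ T ↔ y ∈ S)) →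
        x ∈ T ∧ x' ∈ T ∧ S.card = k ∧ T.card = k + 1 := by
      intro x x' hx hy
      obtain ⟨c1, c2, c3⟩ := b3 x' fun y h1 h2 => by
        by_cases e : y = x
        exacts [e ▸ hx, (hy y e h2).1 h1]
      refine ⟨?_, c1, c2, c3⟩
      by_contra hxT
      have c4 : T.erase x' ⊆ S.erase x := fun y h1 => by
        have e : y ≠ x := fun e => hxT (e ▸ (mem_erase.1 h1).2)
        exact mem_erase.2 ⟨e, (hy y e (mem_erase.1 h1).1).1 (mem_erase.1 h1).2⟩
      have c5 := card_le_card c4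
      have := card_pos.2 ⟨x, hx⟩
      rw [card_erase_of_mem c1, card_erase_of_mem hx] at c5
      omega
    rcases b2 with b2 | b2
    · obtain ⟨c1, c2, c3, c4⟩ := b4 i j b2 b1
      exact hn ⟨⟨c3, Or.inl b2⟩, c4, c1, c2⟩
    · obtain ⟨c1, c2, c3, c4⟩ := b4 j i b2 fun y h1 h2 => b1 y h2 h1
      exact hn ⟨⟨c3, Or.inr b2⟩, c4, c2, c1⟩
  have a4 : ∑ z : ι × ι, ‖∑ S ∈ A z, d S‖ ^ 2 ≤ ((k : ℝ) + 1) ^ 2 * ‖y‖ ^ 2 := by
    have : ∀ z, ‖∑ S ∈ A z, d S‖ ^ 2 = ∑ S ∈ univ.filter (card · = k + 1),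
        if z.1 ∈ S ∧ z.2 ∈ S then ‖d S‖ ^ 2 else 0 := fun z => by
      rw [h.nrm hd, ← sum_filter, filter_filter]
    rw [sum_congr rfl fun z _ => this z, cnt _ _ (fun S i => i ∈ S) (fun S i => i ∈ S), hy, h.nrm hd,
      mul_sum]
    refine le_trans (le_of_eq (sum_congr rfl fun S hS => ?_)) (sum_le_sum_of_subset_of_nonneg
      (fun S hS => by simp only [mem_filter, mem_univ, true_and] at hS ⊢; omega)
      fun _ _ _ => by positivity)
    rw [filter_univ_mem, (mem_filter.1 hS).2]; push_cast; ring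
  set x := ∑ S ∈ univ.filter (k ≤ card ·), c S with hx
  have a5 : ∑ z : ι × ι, ‖∑ S ∈ B z, c S‖ ^ 2 ≤ 2 * (k + 1) * Fintype.card ι * ‖x‖ ^ 2 := by
    have : ∀ z, ‖∑ S ∈ B z, c S‖ ^ 2 ≤ ∑ S ∈ univ.filter (card · = k),
        (if z.1 ∈ S ∧ True then ‖c S‖ ^ 2 else 0) + ∑ S ∈ univ.filter (card · = k),
        (if True ∧ z.2 ∈ S then ‖c S‖ ^ 2 else 0) := fun z => by
      simp only [B]
      rw [h.nrm hc, ← sum_add_distrib, ← filter_filter, sum_filter]
      refine sum_le_sum fun S _ => ?_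
      by_cases a : z.1 ∈ S <;> by_cases b : z.2 ∈ S <;> simp [a, b]
    refine (sum_le_sum fun z _ => this z).trans ?_
    rw [sum_add_distrib, cnt _ _ (fun S i => i ∈ S) (fun _ _ => True),
      cnt _ _ (fun _ _ => True) (fun S i => i ∈ S), hx, h.nrm hc, mul_sum, ← sum_add_distrib]
    refine le_trans (sum_le_sum fun S hS => ?_) (sum_le_sum_of_subset_of_nonneg
      (fun S hS => by simp only [mem_filter, mem_univ, true_and] at hS ⊢; omega)
      fun _ _ _ => by positivity)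
    rw [filter_univ_mem, (mem_filter.1 hS).2, filter_true, card_univ]
    nlinarith [sq_nonneg ‖c S‖]
  have a6 := sum_mul_sq_le_sq_mul_sq univ (fun z => ‖∑ S ∈ A z, d S‖) (fun z => ‖∑ S ∈ B z, c S‖)
  have a7 := a6.trans (mul_le_mul a4 a5 (by positivity) (by positivity))
  have a8 : ∑ z, ‖∑ S ∈ A z, d S‖ * ‖∑ S ∈ B z, c S‖ ≤ Fintype.card ι ^ 2 * (γ * ‖x‖ * ‖y‖) := by
    refine (pow_le_pow_iff_left₀ (by positivity) (by positivity) two_ne_zero).1 (a7.trans ?_)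
    have := mul_le_mul_of_nonneg_right hγ (by positivity : 0 ≤ Fintype.card ι * (‖x‖ * ‖y‖) ^ 2)
    nlinarith
  have a9 := (sum_le_sum fun z _ => a3 z).trans a8
  rw [av_inner (P := P) (∑ S ∈ univ.filter (fun S => ¬ k + 1 ≤ card S), c S)] at a1
  have b1 := mul_le_mul_of_nonneg_left a9 (by positivity : 0 ≤ 1 / (Fintype.card ι : ℝ) ^ 2)
  rw [← mul_assoc, one_div_mul_cancel (by positivity), one_mul] at b1
  rcases (norm_nonneg y).eq_or_lt with b2 | b2
  · rw [← b2]; positivity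
  · refine le_of_mul_le_mul_left ?_ b2
    nlinarith

theorem decay [Nonempty ι] (hK : 1 ≤ K) (k : ℕ) (hk : 2 * (1 + 2 * K) * k ≤ Fintype.card ι)
    (γ : ℝ) (γ0 : 0 ≤ γ) (hγ : 2 * ((k : ℝ) + 1) ^ 3 ≤ γ ^ 2 * Fintype.card ι ^ 3)
    {i0 : ι} {f : H} (hf : In E {i0} f) (t : ℕ) (ht : t * γ ≤ 1 / 2) :
    ‖(Pav P)^[t] f‖ ≤ ((1 - 1 / (8 * K * Fintype.card ι)) ^ t + t / 2 ^ k) * ‖f‖ := by
  have N1 : (1 : ℝ) ≤ Fintype.card ι := by exact_mod_cast Fintype.card_pos
  choose c hc es using fun s : ℕ => h.dec ((Pav P)^[s] f)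
  have n1 : ∀ s, ‖(Pav P)^[s] f‖ ≤ ‖f‖ := fun s => by
    induction s with
    | zero => exact le_rfl
    | succ s ih => rw [Function.iterate_succ_apply']; exact (contr_of (h.av_nrm _)).trans ih
  have hi : ∀ s j, j ≤ k → ‖∑ S ∈ univ.filter (j + 1 ≤ card ·), c s S‖ ≤ (s * γ) ^ j * ‖f‖ := by
    intro s
    induction s with
    | zero =>
      intro j _
      rcases Nat.eq_zero_or_pos j with rfl | hj
      · rw [pow_zero, one_mul]; exact (h.nrm_le (hc 0) (subset_univ _)).trans (es 0 ▸ n1 0)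
      · have := h.inn (hc 0) (univ.filter (j + 1 ≤ card ·)) univ (subset_univ _)
        rw [es 0, ← h.nrm (hc 0), sum_inner, Function.iterate_zero_apply,
          sum_eq_zero fun S hS => h.ort hf (hc 0 S) (by
            rintro rfl; rw [mem_filter, card_singleton] at hS; omega)] at this
        rw [pow_eq_zero_iff two_ne_zero |>.1 this.symm]; positivity
    | succ s ih =>
      intro j hj
      rcases j with _ | j
      · rw [pow_zero, one_mul]; exact (h.nrm_le (hc _) (subset_univ _)).trans (es _ ▸ n1 _)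
      have b1 : ((j + 1 : ℕ) : ℝ) ≤ k := by exact_mod_cast hj
      refine (h.up (hc s) (hc (s + 1)) (by rw [es, es, Function.iterate_succ_apply']) (j + 1) γ γ0
        (le_trans (by gcongr) hγ)).trans ?_
      have b2 := ih (j + 1) hj
      have b3 := mul_le_mul_of_nonneg_left (ih j (by omega)) γ0
      have b4 : (s * γ) ^ j ≤ ((s + 1 : ℕ) * γ) ^ j := by gcongr; omega
      have b5 := mul_le_mul_of_nonneg_right b4 (by positivity : 0 ≤ (s + 1 : ℕ) * γ * ‖f‖)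
      rw [pow_succ] at b2 ⊢
      push_cast at b5 ⊢
      nlinarith
  have z0 : ∀ s, ‖c s ∅‖ = 0 := by
    have : ∀ y, In E ∅ y → ∀ s, ⟪y, (Pav P)^[s] f⟫ = 0 := by
      intro y hy s
      induction s with
      | zero => exact h.ort hf hy (by simp [eq_comm])
      | succ s ih =>
        rw [Function.iterate_succ_apply', av_inner, sum_eq_zero fun q _ => by
          rw [← h.psym, h.pfix _ _ y (by simpa using hy q.1) (by simpa using hy q.2), ih], mul_zero]
    intro s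
    have a := h.inn (hc s) {∅} univ (subset_univ _)
    rw [sum_singleton, sum_singleton, es, this _ (hc s ∅)] at a
    exact pow_eq_zero_iff two_ne_zero |>.1 a.symm
  have ρ0 : 0 ≤ 1 / (8 * K * Fintype.card ι) := by positivity
  have ρ1 : 1 / (8 * K * Fintype.card ι) ≤ 1 := by rw [div_le_one (by positivity)]; nlinarith
  generalize hρ : 1 / (8 * K * Fintype.card ι) = ρ at *
  induction t with
  | zero => simp
  | succ t ih =>
    push_cast at ht ⊢
    have b0 : t * γ ≤ 1 / 2 := by nlinarith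
    have b1 := ih b0
    have b2 := h.low (hc t) hK k hk (univ.filter fun S => ¬ k + 1 ≤ card S)
      (fun S hS => by simp only [mem_filter] at hS; omega) (z0 t)
    have b3 := (contr_of (h.av_nrm _)).trans (hi t k le_rfl)
    have b4 := (h.nrm_le (hc t) (subset_univ (univ.filter fun S => ¬ k + 1 ≤ card S))).trans
      (es t ▸ b1)
    have b5 : (t * γ) ^ k ≤ 1 / 2 ^ k := by
      rw [← one_div_pow]; exact pow_le_pow_left₀ (by positivity) b0 k
    rw [Function.iterate_succ_apply', ← es t, ← sum_filter_add_sum_filter_not univ (k + 1 ≤ card ·),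
      map_add]
    refine (norm_add_le _ _).trans ?_
    rw [hρ] at b2
    have b6 := mul_le_mul_of_nonneg_left b4 (sub_nonneg.2 ρ1)
    have b7 := mul_le_mul_of_nonneg_right b5 (norm_nonneg f)
    have b8 : 0 ≤ ρ * (t / 2 ^ k * ‖f‖) := by positivity
    rw [pow_succ, add_div]
    nlinarith

end AN

end Vale.Agent.P308
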