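import Vale.Agent.P328.Util

/-! P308: the program. -/

namespace Vale.Agent.P308
open Vale.Agent.P317 Vale.Agent.P328

def mulE : ℕ → Expr → Expr
  | 0, _ => .lit 0
  | k + 1, e => .add e (mulE k e)
def mx (x y : Expr) : Expr := .add x (.sub y x)
def mn (x y : Expr) : Expr := .sub x (.sub x y)
def ix (u v : Expr) : Expr := .add (.get 16 u) v
def c2 (a : ℕ) (u v : Expr) : Expr := .get a (ix u v)
def forI (i k : ℕ) (body : Prog) : Prog :=
  .seq (asg i (.lit 0)) (.loop (V k) (.lit 1) (.seq body (inc i)))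
def for2 (i j k : ℕ) (body : Prog) : Prog := forI i k (forI j k body)
def rept (r : ℕ) (body : Prog) : Prog :=
  .loop (V 13) (V r) (.seq body (asg r (.sub (V r) (.lit 1))))
def acc (r : ℕ) (e : Expr) : Prog := asg r (.add (V r) e)

/-! One step of the population chain. -/
def offs (r i : ℕ) : Prog := .ite (ltE (V i) (V 19)) (asg r (V 11)) (asg r (.lit 0))
def load : Prog := forI 35 8 (.seq (.set 22 (V 35) (.get 21 (.add (V 25) (V 35))))
  (.set 23 (V 35) (.get 21 (.add (V 26) (V 35)))))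
def wsum (r : ℕ) : Prog := .seq (asg r (.lit 0)) (forI 35 8 (acc r
  (.add (.get 17 (.add (V 36) (ix (V 35) (.get 22 (V 35)))))
    (.get 17 (.add (V 37) (ix (V 35) (.get 23 (V 35))))))))
def locP : Prog := .ite (neE (V 28) (V 29))
  (.seq (asg 38 (.get 22 (V 28))) (.seq (asg 39 (.get 22 (V 29))) (.seq (.set 22 (V 39) (V 38))
    (.seq (.set 22 (V 38) (V 39)) (.seq (.set 22 (V 29) (V 28)) (.set 22 (V 28) (V 29))))))) skip
def clr : Prog := forI 35 8 (.set 24 (V 35) (.lit 0))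
def walk : Prog := .seq (asg 30 (V 28)) (.loop (V 8) (.lit 1)
  (.seq (.set 24 (V 30) (.lit 1)) (.seq (asg 30 (.get 22 (V 30)))
    (.seq (.set 24 (V 30) (.lit 1)) (asg 30 (.get 23 (V 30)))))))
def exg : Prog := forI 35 8 (.ite (.get 24 (V 35)) (.seq (asg 38 (.get 22 (V 35)))
  (.seq (.set 22 (V 35) (.get 23 (V 35))) (.set 23 (V 35) (V 38)))) skip)
def prop : Prog := .ite (V 27) (.seq clr (.seq walk exg)) locP
def store : Prog := forI 35 8 (.seq (.set 21 (.add (V 26) (V 35)) (.get 23 (V 35)))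
  (.set 21 (.add (V 25) (V 35)) (.get 22 (V 35))))
def prep : Prog := .seq (dbl 25 9) (.seq (dbl 26 9) (.seq (offs 36 25) (.seq (offs 37 26)
  (.seq load (.seq (wsum 31) (.seq prop (.seq (wsum 32)
    (.seq (asg 31 (.sub (V 31) (V 32))) (asg 33 (.lit 0))))))))))
def flips : Prog := rept 31 (.seq (.coin 34 (.lit 0)) (acc 33 (V 34)))
def move : Prog := .seq prep (.seq flips (.ite (V 33) skip store))
def one : Prog := .seq (rnd 25 15) (.seq (rnd 26 15) (.seq (.coin 27 (.lit 0)) (.seq (rnd 28 9)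
  (.seq (rnd 29 9) (.ite (mn (neE (V 25) (V 26)) (mn (ltE (V 28) (V 8)) (ltE (V 29) (V 8))))
    move skip)))))
def remix : Prog := .loop (V 13) (.lit 1) one

/-! Sampling, conversion, and one change of a weight. -/
def sample : Prog := .seq (.ite (neE (.get 21 (V 44)) (V 45)) skip (inc 46)) remix
def batch : Prog := .seq (asg 46 (.lit 0)) (.loop (V 14) (.lit 1) sample)
def conv : Prog := .loop (V 12) (.lit 1) (.seq (acc 19 (V 10)) remix)
def wE : Expr := c2 17 (V 44) (V 45)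
def tE : Expr := c2 51 (V 44) (V 45)
def dirn : Prog := .ite (ltE wE tE)
  (.seq (asg 59 (.add wE (.lit 1))) (asg 47 (.add (mulE 4 (V 14)) (mulE 12 (V 46)))))
  (.seq (asg 59 (.sub wE (.lit 1))) (asg 47 (.sub (mulE 4 (V 14)) (mulE 3 (V 46)))))
def mul : Prog := .seq (asg 58 (.lit 0)) (.seq (rept 47 (acc 58 (V 5))) (asg 5 (V 58)))
def set2 (a : ℕ) (o u v : Expr) : Prog :=
  .seq (.set a (.add o (ix u v)) (V 59)) (.set a (.add o (ix v u)) (V 59))
def pre : Prog := .seq dirn (.seq mul (.seq (dbl 6 20) (set2 17 (V 11) (V 44) (V 45))))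
def post : Prog := .seq (set2 17 (.lit 0) (V 44) (V 45)) (asg 19 (.lit 0))
def stepW : Prog := .seq batch (.seq pre (.seq conv post))
def sweeps : Prog := .loop (V 11) (.lit 1)
  (for2 44 45 8 (.ite (mn (ltE (V 44) (V 45)) (neE wE tE)) stepW skip))

/-! The target weights. -/
def inn (u : Expr) : Expr := mn u (ltE u (V 0))
def tgA : Prog := for2 40 41 8 (.ite (neE (V 40) (V 41))
  (.ite (mn (inn (V 40)) (inn (V 41)))
    (.set 50 (ix (V 40) (V 41)) (.sub (.sub (.add (c2 48 (V 40) (V 41)) (mulE 10 (V 11)))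
      (.get 49 (V 40))) (.get 49 (V 41))))
    (.set 50 (ix (V 40) (V 41)) (.lit 0)))
  (.set 50 (ix (V 40) (V 41)) (mulE 12 (V 11))))
def tgB : Prog := forI 42 8 (for2 40 41 8 (.set 50 (ix (V 40) (V 41))
  (mx (c2 50 (V 40) (V 41)) (mn (c2 50 (V 40) (V 42)) (c2 50 (V 42) (V 41))))))
def usE : Expr := mn (mn (c2 50 (.get 52 (V 40)) (.get 53 (V 40))) (c2 50 (.get 52 (V 41)) (.get 53 (V 41))))
  (c2 50 (.get 52 (V 40)) (.get 52 (V 41)))
def tgE : Expr := mx (c2 48 (V 40) (V 41)) (.sub (.add (.add usE (.get 49 (V 40))) (.get 49 (V 41)))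
  (.add (mulE 10 (V 11)) (mulE 100 (V 9))))
def tgC : Prog := for2 40 41 8 (.ite (.add (ltE (V 40) (V 0)) (neE (V 41) (.get 54 (V 40))))
  (.set 51 (ix (V 40) (V 41)) tgE) (.set 51 (ix (V 40) (V 41)) (.add tgE (mulE 100 (V 9)))))
def target : Prog := .seq tgA (.seq tgB tgC)

/-! The outer loop. -/
def sigU : Prog := .seq (asg 58 (V 46)) (.seq (asg 47 wE) (.seq (.loop (V 13) (ltE (V 58) (V 14))
  (.seq (asg 58 (mulE 4 (V 58))) (inc 47))) (.set 49 (V 45) (V 47))))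
def sigma : Prog := .seq (asg 44 (.lit 0)) (forI 45 0 (.ite (V 45) (.seq batch sigU) skip))
def lE : Expr := c2 48 (V 63) (V 64)
def lstep : Prog := .seq (.ite (.get 7 (.add (.get 62 (V 63)) (V 64))) (asg 59 (mulE 2 (V 11)))
    (asg 59 (V 11)))
  (.seq (.ite (ltE lE (V 59)) (asg 59 (.add lE (.lit 1)))
    (.ite (ltE (V 59) lE) (asg 59 (.sub lE (.lit 1))) skip)) (set2 48 (.lit 0) (V 63) (V 64)))
def outer : Prog := .loop (V 11) (.lit 1) (for2 63 64 0 (.ite (ltE (V 63) (V 64))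
  (.seq sigma (.seq (.seq lstep target) sweeps)) skip))
def finish : Prog := .seq (asg 47 (.lit 0)) (.seq (forI 40 8 (.ite (ltE (V 40) (V 0))
    (acc 47 (mulE 2 (V 11))) (acc 47 (c2 17 (V 40) (.get 54 (V 40))))))
  (.seq (rept 47 (acc 6 (V 6))) (.ite (ltE (mulE 2 (V 5)) (V 6)) (asg 5 (.lit 0)) skip)))

/-! Initialization. -/
def tab (a k : ℕ) : Prog := .seq (asg 58 (.lit 0))
  (forI 40 10 (.seq (.set a (V 40) (V 58)) (acc 58 (V k))))
def mates : Prog := .seq (asg 58 (.lit 0)) (forI 40 8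
  (.seq (.set 54 (V 40) (.sub (.add (V 40) (.lit 1)) (mulE 2 (V 58)))) (asg 58 (.sub (.lit 1) (V 58)))))
def dE : Expr := .add (V 0) (mulE 2 (.add (.get 62 (V 40)) (V 41)))
def bases (a r : ℕ) : Prog := .seq (forI 40 0 (.set a (V 40) (V 40))) (for2 40 41 0
  (.seq (.set a dE (V r)) (.set a (.add dE (.lit 1)) (V r))))
def tables : Prog := .seq (tab 16 10) (.seq (tab 62 0) (.seq mates (.seq (bases 52 40) (bases 53 41))))
def iniL : Prog := for2 40 41 8 (.ite (mn (ltE (V 40) (V 0)) (ltE (V 41) (V 0)))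
  (.ite (neE (V 41) (.get 54 (V 40)))
    (.set 48 (ix (V 40) (V 41)) (.sub (mulE 2 (V 11)) (mulE 3 (V 9))))
    (.set 48 (ix (V 40) (V 41)) (mulE 2 (V 11)))) (.set 48 (ix (V 40) (V 41)) (.lit 0)))
def iniS : Prog := forI 40 8 (.ite (V 40) (.ite (ltE (V 40) (V 0)) (.set 49 (V 40) (mulE 2 (V 11)))
  (.set 49 (V 40) (mulE 12 (V 11)))) (.set 49 (V 40) (mulE 10 (V 11))))
def iniW (o : Expr) : Prog := for2 40 41 8 (.ite (neE (V 41) (.get 54 (V 40)))
  (.set 17 (.add o (ix (V 40) (V 41))) (.sub (c2 51 (V 40) (V 41)) (V 11)))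
  (.set 17 (.add o (ix (V 40) (V 41))) (c2 51 (V 40) (V 41))))
def iniE : Prog := .seq (asg 47 (.lit 0)) (.seq (forI 40 8 (acc 47 (c2 17 (V 40) (.get 54 (V 40)))))
  (.seq (asg 5 (.lit 1)) (.seq (asg 6 (.lit 1)) (rept 47 (acc 5 (V 5))))))
def iniP : Prog := .seq (asg 58 (.lit 0)) (.loop (V 12) (.lit 1)
  (.seq (forI 40 8 (.set 21 (.add (V 58) (V 40)) (.get 54 (V 40)))) (acc 58 (V 10))))
def init : Prog := .seq iniL (.seq iniS (.seq target (.seq (iniW (.lit 0)) (.seq (iniW (V 11))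
  (.seq iniE iniP)))))
def core : Prog := .seq (.seq tables init) (.seq sweeps (.seq outer finish))

/-! Parameters. -/
def findS : Prog := .seq (asg 8 (V 0)) (.loop (V 0) (.lit 1)
  (.seq (acc 8 (mulE 2 (V 0))) (asg 65 (.sub (.lit 1) (V 65)))))
def dbU (x c t : ℕ) : Prog := .loop (V t) (ltE (V x) (V t)) (.seq (asg x (.add (V x) (V x))) (inc c))
def phase0 : Prog := .seq findS (.seq (dbU 1 66 2) (.seq (dbU 3 67 4) (.seq (asg 10 (.lit 1))
  (.seq (dbl 10 66) (.seq (asg 47 (.add (.add (mulE 2 (V 8)) (V 67)) (.lit 1024)))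
    (.seq (dbU 10 9 47) (acc 9 (V 66))))))))
def logs : Prog := .seq (asg 68 (mulE 64 (V 9))) (.seq (asg 68 (mulE 64 (V 68)))
  (.seq (asg 15 (mulE 8 (V 68))) (.seq (asg 69 (mulE 10 (V 68))) (asg 20 (.add (V 68) (.lit 2))))))
def pw2P (x k : ℕ) : Prog := .seq (asg x (.lit 1)) (dbl x k)
def pows : Prog := .seq (pw2P 12 15) (.seq (pw2P 13 69) (.seq (pw2P 14 68)
  (.seq (asg 11 (V 10)) (dbl 11 9))))
def main : Prog := .ite (V 65) (asg 6 (.lit 1))
  (.ite (V 0) core (.seq (asg 5 (.lit 1)) (asg 6 (.lit 1))))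
def fpras : Prog := .seq phase0 (.seq logs (.seq pows main))

end Vale.Agent.P308
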