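import Vale.Agent.P308.Cyc

/-! P308: the value of an alternating cycle is a sum of few splitting defects. -/

namespace Vale.Agent.P308
open Finset

variable {V : Type} [DecidableEq V]

abbrev Pr (V : Type) := Bool → PM V

def raw (Q : Pr V) : Bool → V → V := fun c => (Q c).1

theorem raw_inv (Q : Pr V) : Inv2 (raw Q) := fun c => (Q c).2.1

theorem cy_of {Q : Pr V} {c : Bool} {x y : V} (h : (Q c).1 x = y) : Cy (raw Q) x y :=
  h ▸ (Cy.refl _ _).step c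

def cnP (Q : Pr V) (c : Bool) (a b : V) : Pr V := Function.update Q c ((Q c).cn a b)

theorem cnP_same (Q : Pr V) (c : Bool) (a b : V) : cnP Q c a b c = (Q c).cn a b := by simp [cnP]

theorem cnP_ne (Q : Pr V) {c c' : Bool} (h : c' ≠ c) (a b : V) : cnP Q c a b c' = Q c' := by
  simp [cnP, h]

def Mv (Gd : PM V → V → V → Prop) (Q : Pr V) (c : Bool) (a b : V) : Prop :=
  a ≠ b ∧ (Q c).1 a ≠ b ∧ Gd (Q c) a b

def Rch (Gd : PM V → V → V → Prop) (P : Pr V) : ℕ → Pr V → Prop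
  | 0, Q => Q = P
  | k + 1, Q => Rch Gd P k Q ∨ ∃ Q' c a b, Rch Gd P k Q' ∧ Mv Gd Q' c a b ∧ Q = cnP Q' c a b

theorem Rch.step {Gd : PM V → V → V → Prop} {P Q : Pr V} {k : ℕ} (h : Rch Gd P k Q) (c : Bool)
    {a b : V} (hab : a ≠ b) (hg : Gd (Q c) a b) : Rch Gd P (k + 1) (cnP Q c a b) := by
  by_cases e : (Q c).1 a = b
  · left; rw [cnP, PM.cn_same _ e, Function.update_eq_self]; exact h
  · exact Or.inr ⟨Q, c, a, b, h, ⟨hab, e, hg⟩, rfl⟩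

def Spl (Gd : PM V → V → V → Prop) (Q : Pr V) (c : Bool) (a b : V) : Prop :=
  Mv Gd Q c a b ∧ Cy (raw Q) a b ∧ ¬ Cy (raw (cnP Q c a b)) a ((Q c).1 a)

def dfc (B : Pr V → V → ℝ) (Q : Pr V) (c : Bool) (a b : V) : ℝ :=
  B Q a - B (cnP Q c a b) a - B (cnP Q c a b) ((Q c).1 a)

structure BF (B : Pr V → V → ℝ) : Prop where
  loc : ∀ Q Q' x, (∀ c u, Cy (raw Q) x u → (Q' c).1 u = (Q c).1 u) → B Q' x = B Q x
  base : ∀ Q x u, Cy (raw Q) x u → B Q u = B Q x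
  triv : ∀ Q x c, (Q c).1 x = (Q (!c)).1 x → B Q x = 0

/-- The data of the decomposition. -/
structure Ctx (V : Type) [DecidableEq V] where
  U : V → V → ℕ
  re : V → Prop
  Gd : PM V → V → V → Prop
  B : Pr V → V → ℝ
  P : Pr V
  m : ℝ
  c0 : Bool
  x0 : V
  l : ℕ
  sym : ∀ a b, U a b = U b a
  ult : ∀ a b c, min (U a b) (U b c) ≤ U a c
  good : ∀ (T : PM V) a b, a ≠ b → U a (T.1 a) ≤ U a b → U b (T.1 b) ≤ U a b → Gd T a b
  bf : BF B
  hm : ∀ Q c a b, Rch Gd P 3 Q → Spl Gd Q c a b → |dfc B Q c a b| ≤ m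
  m0 : 0 ≤ m
  rex : ∀ k, re (wk (raw P) c0 x0 k)
  rcl : ∀ c u, re u → re ((P c).1 u)
  inj : ∀ i ≤ l, ∀ j ≤ l, wk (raw P) c0 x0 i = wk (raw P) c0 x0 j → i = j
  dum : ∀ u v, re u → re v → ∃ z, ¬ re z ∧ (P false).1 z = (P true).1 z ∧
    (∀ p, U z p ≤ U u v) ∧ (∀ p, U ((P true).1 z) p ≤ U u v) ∧ U u v ≤ U z u ∧
    U u v ≤ U ((P true).1 z) u

namespace Ctx
variable (X : Ctx V)

def x (k : ℕ) : V := wk (raw X.P) X.c0 X.x0 k
def co (k : ℕ) : Bool := col X.c0 k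

theorem co_succ (k : ℕ) : X.co (k + 1) = !X.co k := rfl

def Int (Q : Pr V) (i j : ℕ) : Prop := ∀ k, i ≤ k → k < j → (Q (X.co k)).1 (X.x k) = X.x (k + 1)
def Arc (i j : ℕ) (u : V) : Prop := ∃ k, i ≤ k ∧ k ≤ j ∧ u = X.x k
def Free (i j : ℕ) (c : Bool) (a : V) : Prop :=
  ∀ k, i ≤ k → k < j → X.co k = c → X.x k ≠ a ∧ X.x (k + 1) ≠ a
def Val (i j b : ℕ) : Prop := (∀ k, i ≤ k → k < j → b ≤ X.U (X.x k) (X.x (k + 1))) ∧
  X.U (X.x i) ((X.P (!X.co i)).1 (X.x i)) ≤ b ∧ X.U (X.x j) ((X.P (X.co j)).1 (X.x j)) ≤ b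
def Loc (z z' : V) (b : ℕ) (u : V) : Prop := ¬ X.re z ∧ ¬ X.re z' ∧ (∀ c, (X.P c).1 z = z') ∧
  (∀ p, X.U z p ≤ b) ∧ (∀ p, X.U z' p ≤ b) ∧ b ≤ X.U z u ∧ b ≤ X.U z' u
def E (Q : Pr V) (i j : ℕ) : Prop := X.Int Q i j ∧ (Q (X.co j)).1 (X.x i) = X.x j
def O (Q : Pr V) (i j : ℕ) (z : V) : Prop :=
  X.Int Q i j ∧ (Q (!X.co i)).1 (X.x i) = z ∧ (Q (X.co j)).1 (X.x j) = z
def D (Q : Pr V) (i j : ℕ) (z z' : V) : Prop := X.Int Q i j ∧ (Q (X.co j)).1 (X.x i) = z ∧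
  (Q (X.co j)).1 (X.x j) = z' ∧ (Q (X.co i)).1 z = z'

variable {X}

theorem intP (i j : ℕ) : X.Int X.P i j := fun _ _ _ => rfl

theorem xne {i j : ℕ} (hi : i ≤ X.l) (hj : j ≤ X.l) (h : i ≠ j) : X.x i ≠ X.x j :=
  fun e => h (X.inj i hi j hj e)

theorem xz {z : V} (h : ¬ X.re z) (k : ℕ) : X.x k ≠ z := fun e => h (e ▸ X.rex k)

theorem Int.sub {Q : Pr V} {i j i' j' : ℕ} (h : X.Int Q i j) (h1 : i ≤ i') (h2 : j' ≤ j) :
    X.Int Q i' j' := fun k a b => h k (by omega) (by omega)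

theorem Int.cn {Q : Pr V} {i j : ℕ} (h : X.Int Q i j) {c : Bool} {a b : V} (ha : X.Free i j c a)
    (hb : X.Free i j c b) : X.Int (cnP Q c a b) i j := by
  intro k h1 h2
  by_cases e : X.co k = c
  · rw [e, cnP_same, PM.cn_other _ (ha k h1 h2 e).1 (hb k h1 h2 e).1, ← e, h k h1 h2]
    · intro e'; exact (ha k h1 h2 e).2 (by rw [← h k h1 h2, e, e', (Q c).2.1])
    · intro e'; exact (hb k h1 h2 e).2 (by rw [← h k h1 h2, e, e', (Q c).2.1])
  · rw [cnP_ne _ e]; exact h k h1 h2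

theorem free_z {z : V} (h : ¬ X.re z) (i j : ℕ) (c : Bool) : X.Free i j c z :=
  fun _ _ _ _ => ⟨xz h _, xz h _⟩

theorem free_x {i j k : ℕ} {c : Bool} (hj : j ≤ X.l) (hk : k ≤ X.l)
    (h : k < i ∨ j < k ∨ (k = i ∧ c = !X.co i) ∨ (k = j ∧ c = X.co j)) : X.Free i j c (X.x k) := by
  intro t h1 h2 e
  refine ⟨xne (by omega) hk fun e' => ?_, xne (by omega) hk fun e' => ?_⟩
  · rcases h with h | h | h | h
    · omega
    · omega
    · rw [e', h.1, h.2] at e; simp at e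
    · omega
  · rcases h with h | h | h | h
    · omega
    · omega
    · omega
    · rw [h.2, ← h.1, ← e', co_succ] at e; simp at e

theorem Int.cy {Q : Pr V} {i j : ℕ} (h : X.Int Q i j) {k : ℕ} (h1 : i ≤ k) (h2 : k ≤ j) :
    Cy (raw Q) (X.x i) (X.x k) := by
  induction k, h1 using Nat.le_induction with
  | base => exact Cy.refl _ _
  | succ k hk ih => rw [← h k hk (by omega)]; exact (ih (by omega)).step (X.co k)

theorem Int.cases {Q : Pr V} {i j : ℕ} (h : X.Int Q i j) {k : ℕ} (h1 : i ≤ k) (h2 : k ≤ j)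
    (c : Bool) : (k = i ∧ c = !X.co i) ∨ (k = j ∧ c = X.co j) ∨
      ∃ k', i ≤ k' ∧ k' ≤ j ∧ ∀ Q' : Pr V, X.Int Q' i j → (Q' c).1 (X.x k) = X.x k' := by
  rcases bool_col X.c0 k c with e | e
  · rcases eq_or_lt_of_le h2 with h3 | h3
    · exact Or.inr (Or.inl ⟨h3, h3 ▸ e⟩)
    · exact Or.inr (Or.inr ⟨k + 1, by omega, h3, fun Q' hQ => e ▸ hQ k h1 h3⟩)
  · rcases eq_or_lt_of_le h1 with h3 | h3
    · exact Or.inl ⟨h3.symm, h3 ▸ e⟩
    · obtain ⟨k, rfl⟩ : ∃ t, k = t + 1 := ⟨k - 1, by omega⟩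
      refine Or.inr (Or.inr ⟨k, by omega, by omega, fun Q' hQ => (Q' c).sym ?_⟩)
      rw [e, col, col, Bool.not_not]; exact hQ k (by omega) (by omega)

theorem arc_cl {Q : Pr V} {i j : ℕ} (h : X.Int Q i j) (Ex : V → Prop)
    (hl : X.Arc i j ((Q (!X.co i)).1 (X.x i)) ∨ Ex ((Q (!X.co i)).1 (X.x i)))
    (hr : X.Arc i j ((Q (X.co j)).1 (X.x j)) ∨ Ex ((Q (X.co j)).1 (X.x j)))
    (he : ∀ z c, Ex z → X.Arc i j ((Q c).1 z) ∨ Ex ((Q c).1 z)) :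
    Cl (raw Q) (fun u => X.Arc i j u ∨ Ex u) := by
  rintro c u (⟨k, h1, h2, rfl⟩ | hu)
  · rcases h.cases h1 h2 c with ⟨rfl, rfl⟩ | ⟨rfl, rfl⟩ | ⟨k', a, b, e⟩
    · exact hl
    · exact hr
    · exact Or.inl ⟨k', a, b, e Q h⟩
  · exact he u c hu

theorem arc_eq {Q Q' : Pr V} {i j : ℕ} (hij : i ≤ j) (h : X.Int Q i j) (h' : X.Int Q' i j)
    (Ex : V → Prop) (hc : Cl (raw Q) (fun u => X.Arc i j u ∨ Ex u))
    (hl : (Q' (!X.co i)).1 (X.x i) = (Q (!X.co i)).1 (X.x i))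
    (hr : (Q' (X.co j)).1 (X.x j) = (Q (X.co j)).1 (X.x j))
    (he : ∀ z c, Ex z → (Q' c).1 z = (Q c).1 z) : X.B Q' (X.x i) = X.B Q (X.x i) := by
  refine X.bf.loc _ _ _ fun c u hu => ?_
  rcases Cy.min hc (Or.inl ⟨i, le_rfl, hij, rfl⟩) hu with ⟨k, h1, h2, rfl⟩ | hu
  · rcases h.cases h1 h2 c with ⟨rfl, rfl⟩ | ⟨rfl, rfl⟩ | ⟨k', a, b, e⟩
    · exact hl
    · exact hr
    · rw [e Q h, e Q' h']
  · exact he u c hu

theorem E.cl {Q : Pr V} {i j : ℕ} (hij : i ≤ j) (hc : X.co j = !X.co i) (h : X.E Q i j) :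
    Cl (raw Q) (fun u => X.Arc i j u ∨ False) :=
  arc_cl h.1 _ (Or.inl ⟨j, hij, le_rfl, hc ▸ h.2⟩) (Or.inl ⟨i, le_rfl, hij, (Q _).sym h.2⟩)
    (fun _ _ h => h.elim)

theorem E.eq {Q Q' : Pr V} {i j : ℕ} (hij : i ≤ j) (hc : X.co j = !X.co i) (h : X.E Q i j)
    (h' : X.E Q' i j) : X.B Q' (X.x i) = X.B Q (X.x i) :=
  arc_eq hij h.1 h'.1 _ (h.cl hij hc) (by rw [← hc, h.2, h'.2])
    (by rw [(Q _).sym h.2, (Q' _).sym h'.2]) (fun _ _ h => h.elim)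

theorem O.z {Q : Pr V} {i j : ℕ} {z : V} (hc : X.co j = X.co i) (h : X.O Q i j z) (c : Bool) :
    (Q c).1 z = if c = X.co i then X.x j else X.x i := by
  split_ifs with e
  · rw [e, ← hc]; exact (Q _).sym h.2.2
  · rw [Bool.eq_not_iff.2 e]; exact (Q _).sym h.2.1

theorem O.cl {Q : Pr V} {i j : ℕ} {z : V} (hij : i ≤ j) (hc : X.co j = X.co i) (h : X.O Q i j z) :
    Cl (raw Q) (fun u => X.Arc i j u ∨ u = z) :=
  arc_cl h.1 _ (Or.inr h.2.1) (Or.inr h.2.2) (fun _ c e => by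
    rw [e, h.z hc]; split_ifs
    exacts [Or.inl ⟨j, hij, le_rfl, rfl⟩, Or.inl ⟨i, le_rfl, hij, rfl⟩])

theorem O.eq {Q Q' : Pr V} {i j : ℕ} {z : V} (hij : i ≤ j) (hc : X.co j = X.co i)
    (h : X.O Q i j z) (h' : X.O Q' i j z) : X.B Q' (X.x i) = X.B Q (X.x i) :=
  arc_eq hij h.1 h'.1 _ (h.cl hij hc) (by rw [h.2.1, h'.2.1]) (by rw [h.2.2, h'.2.2])
    (fun _ c e => by rw [e, h.z hc, h'.z hc])

theorem D.z {Q : Pr V} {i j : ℕ} {z z' : V} (hc : X.co j = !X.co i) (h : X.D Q i j z z')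
    (c : Bool) : (Q c).1 z = (if c = X.co i then z' else X.x i) ∧
      (Q c).1 z' = if c = X.co i then z else X.x j := by
  split_ifs with e
  · rw [e]; exact ⟨h.2.2.2, (Q _).sym h.2.2.2⟩
  · rw [Bool.eq_not_iff.2 e, ← hc]; exact ⟨(Q _).sym h.2.1, (Q _).sym h.2.2.1⟩

theorem D.eq {Q Q' : Pr V} {i j : ℕ} {z z' : V} (hij : i ≤ j) (hc : X.co j = !X.co i)
    (h : X.D Q i j z z') (h' : X.D Q' i j z z') : X.B Q' (X.x i) = X.B Q (X.x i) := by
  refine arc_eq hij h.1 h'.1 (fun u => u = z ∨ u = z')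
    (arc_cl h.1 _ (Or.inr (Or.inl (hc ▸ h.2.1))) (Or.inr (Or.inr h.2.2.1)) ?_)
    (by rw [← hc, h.2.1, h'.2.1]) (by rw [h.2.2.1, h'.2.2.1]) ?_
  · rintro _ c (rfl | rfl)
    · rw [(h.z hc c).1]; split_ifs
      exacts [Or.inr (Or.inr rfl), Or.inl ⟨i, le_rfl, hij, rfl⟩]
    · rw [(h.z hc c).2]; split_ifs
      exacts [Or.inr (Or.inl rfl), Or.inl ⟨j, hij, le_rfl, rfl⟩]
  · rintro _ c (rfl | rfl)
    · rw [(h.z hc c).1, (h'.z hc c).1]
    · rw [(h.z hc c).2, (h'.z hc c).2]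

theorem in_arc {i j b : ℕ} (h : X.Val i j b) {z : V} {k k' : ℕ} (h1 : i ≤ k) (h2 : k ≤ j)
    (h3 : i ≤ k') (h4 : k' ≤ j) (hz : b ≤ X.U z (X.x k)) : b ≤ X.U z (X.x k') := by
  have key : ∀ t, i ≤ t → t ≤ j → (b ≤ X.U z (X.x i) ↔ b ≤ X.U z (X.x t)) := by
    intro t ht
    induction t, ht using Nat.le_induction with
    | base => intro _; rfl
    | succ t ht ih =>
      intro h5
      have a := h.1 t ht (by omega)
      have a1 := X.ult z (X.x t) (X.x (t + 1))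
      have a2 := X.ult z (X.x (t + 1)) (X.x t)
      rw [X.sym (X.x (t + 1))] at a2
      rw [ih (by omega)]
      omega
  exact (key k' h3 h4).1 ((key k h1 h2).2 hz)

theorem Loc.mv {i j b : ℕ} (h : X.Val i j b) {z z' : V} {k k' : ℕ} (h1 : i ≤ k) (h2 : k ≤ j)
    (h3 : i ≤ k') (h4 : k' ≤ j) (hz : X.Loc z z' b (X.x k)) : X.Loc z z' b (X.x k') :=
  ⟨hz.1, hz.2.1, hz.2.2.1, hz.2.2.2.1, hz.2.2.2.2.1, in_arc h h1 h2 h3 h4 hz.2.2.2.2.2.1,
    in_arc h h1 h2 h3 h4 hz.2.2.2.2.2.2⟩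

theorem Loc.sw {z z' u : V} {b : ℕ} (h : X.Loc z z' b u) : X.Loc z' z b u :=
  ⟨h.2.1, h.1, fun c => (X.P c).sym (h.2.2.1 c), h.2.2.2.2.1, h.2.2.2.1, h.2.2.2.2.2.2,
    h.2.2.2.2.2.1⟩

theorem Loc.ne {z z' u : V} {b : ℕ} (h : X.Loc z z' b u) : z ≠ z' :=
  fun e => (X.P true).2.2 z ((h.2.2.1 true).trans e.symm)

/-- A switch towards a dummy vertex located at level `b` is good. -/
theorem gd_z (T : PM V) {a z z' : V} {b : ℕ} (h : X.Loc z z' b a) (ha : a ≠ z)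
    (hb : X.U a (T.1 a) ≤ b) : X.Gd T a z := by
  have := h.2.2.2.2.2.1
  have := h.2.2.2.1 (T.1 z)
  exact X.good T a z ha (by rw [X.sym a z]; omega) (by rw [X.sym a z]; omega)

theorem buildO {i j b : ℕ} {z z' : V} (hij : i ≤ j) (hj : j ≤ X.l) (hc : X.co j = X.co i)
    (hv : X.Val i j b) (hz : X.Loc z z' b (X.x i)) : ∃ Q, Rch X.Gd X.P 3 Q ∧ X.O Q i j z := by
  have ne : X.co j ≠ !X.co i := by rw [hc]; simp
  refine ⟨cnP (cnP X.P (!X.co i) (X.x i) z) (X.co j) (X.x j) z, Or.inl ?_, ?_, ?_, ?_⟩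
  · refine (Rch.step (k := 0) rfl _ (xz hz.1 _) (gd_z _ hz (xz hz.1 _) hv.2.1)).step _
      (xz hz.1 _) (gd_z _ (hz.mv hv le_rfl hij hij le_rfl) (xz hz.1 _) ?_)
    rw [cnP_ne _ ne]; exact hv.2.2
  · exact ((intP i j).cn (free_x hj (by omega) (by simp)) (free_z hz.1 _ _ _)).cn
      (free_x hj hj (by simp)) (free_z hz.1 _ _ _)
  · rw [cnP_ne _ ne.symm, cnP_same, PM.cn_a _ (xz hz.1 _)]
  · rw [cnP_same, PM.cn_a _ (xz hz.1 _)]

theorem buildD {i j b : ℕ} {z z' : V} (hij : i < j) (hj : j ≤ X.l) (hc : X.co j = !X.co i)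
    (hv : X.Val i j b) (hz : X.Loc z z' b (X.x i)) : ∃ Q, Rch X.Gd X.P 3 Q ∧ X.D Q i j z z' := by
  have ne : X.co i ≠ X.co j := by rw [hc]; simp
  have n1 := xne (X := X) (i := i) (by omega) hj (by omega)
  have e1 : ((X.P (X.co j)).cn (X.x i) z).1 z' = (X.P (X.co j)).1 (X.x i) := by
    have := (X.P (X.co j)).cn_fa (xz hz.1 i)
    rw [hz.2.2.1] at this
    refine PM.sym _ (this.resolve_right fun e => hz.1 (e ▸ X.rcl _ _ (X.rex i)))
  refine ⟨cnP (cnP X.P (X.co j) (X.x i) z) (X.co j) (X.x j) z', Or.inl ?_, ?_, ?_, ?_, ?_⟩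
  · refine (Rch.step (k := 0) rfl _ (xz hz.1 _) (gd_z _ hz (xz hz.1 _) (hc ▸ hv.2.1))).step _
      (xz hz.2.1 _) (gd_z _ (hz.mv hv le_rfl hij.le hij.le le_rfl).sw (xz hz.2.1 _) ?_)
    rw [cnP_same]
    by_cases e : X.x j = (X.P (X.co j)).1 (X.x i)
    · rw [PM.sym _ (e1.trans e.symm), X.sym]; exact hz.2.2.2.2.1 _
    · rw [PM.cn_other _ n1.symm (xz hz.1 _) e (by rw [hz.2.2.1]; exact xz hz.2.1 _)]
      exact hv.2.2
  · exact ((intP i j).cn (free_x hj (by omega) (by simp [hc])) (free_z hz.1 _ _ _)).cn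
      (free_x hj hj (by simp)) (free_z hz.2.1 _ _ _)
  · have e2 : ((X.P (X.co j)).cn (X.x i) z).1 (X.x i) = z := PM.cn_a _ (xz hz.1 _)
    rw [cnP_same, cnP_same, PM.cn_other _ n1 (xz hz.2.1 _), e2]
    · intro e; exact xz hz.1 j (by rw [← e2]; exact (PM.sym _ e.symm).symm)
    · rw [e1]; exact ((X.P _).2.2 _).symm
  · rw [cnP_same, PM.cn_a _ (xz hz.2.1 _)]
  · rw [cnP_ne _ ne, cnP_ne _ ne, hz.2.2.1]

theorem split {Q : Pr V} (hR : Rch X.Gd X.P 3 Q) (c : Bool) {a b a' b' : V} (ha : (Q c).1 a = a')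
    (hb : (Q c).1 b = b') (h1 : a ≠ b) (h2 : a' ≠ b) (h3 : X.U a a' ≤ X.U a b)
    (h4 : X.U b b' ≤ X.U a b) (h5 : Cy (raw Q) a b) :
    (cnP Q c a b c).1 a = b ∧ (cnP Q c a b c).1 a' = b' ∧
      (¬ Cy (raw (cnP Q c a b)) a a' →
        |X.B Q a - X.B (cnP Q c a b) a - X.B (cnP Q c a b) a'| ≤ X.m) := by
  subst ha hb
  rw [cnP_same]
  exact ⟨PM.cn_a _ h1, (PM.cn_fa _ h1).resolve_right h2,
    fun h => X.hm Q c a b hR ⟨⟨h1, h2, X.good _ _ _ h1 h3 h4⟩, h5, h⟩⟩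

theorem not_arc {i j : ℕ} {z : V} (h : ¬ X.re z) : ¬ X.Arc i j z := fun ⟨k, _, _, e⟩ =>
  xz h k e.symm

theorem r4 {i j b : ℕ} {z z' : V} (hij : i < j) (hj : j ≤ X.l) (hc : X.co j = !X.co i)
    (hv : X.Val i j b) (hz : X.Loc z z' b (X.x i)) {Q Q' : Pr V} (h : X.D Q i j z z')
    (h' : X.E Q' i j) : |X.B Q (X.x i) - X.B Q' (X.x i)| ≤ X.m := by
  obtain ⟨Q1, hR, h1⟩ := buildD hij hj hc hv hz
  have hu : b ≤ X.U (X.x i) (X.x j) := by
    have := X.ult (X.x i) z (X.x j)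
    have := in_arc hv le_rfl hij.le hij.le le_rfl hz.2.2.2.2.2.1
    have := hz.2.2.2.2.2.1
    rw [X.sym z] at this
    omega
  obtain ⟨s1, s2, s3⟩ := split hR (X.co j) h1.2.1 h1.2.2.1 (xne (by omega) hj (by omega))
    (xz hz.1 _).symm (by rw [X.sym]; exact (hz.2.2.2.1 _).trans hu)
    (by rw [X.sym]; exact (hz.2.2.2.2.1 _).trans hu) (h1.1.cy hij.le le_rfl)
  have e : X.E (cnP Q1 (X.co j) (X.x i) (X.x j)) i j :=
    ⟨h1.1.cn (free_x hj (by omega) (by simp [hc])) (free_x hj hj (by simp)), s1⟩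
  have := s3 fun hcy => by
    simpa [not_arc hz.1] using Cy.min (e.cl hij.le hc) (Or.inl ⟨i, le_rfl, hij.le, rfl⟩) hcy
  rw [X.bf.triv _ z (X.co j) (by rw [s2, cnP_ne _ (by simp), hc, Bool.not_not, h1.2.2.2]), sub_zero,
    ← E.eq hij.le hc e h', ← D.eq hij.le hc h1 h] at this
  exact this

theorem r1 {i j b b' : ℕ} {z z' y y' : V} (hij : i < j) (hj : j ≤ X.l) (hc : X.co j = X.co i)
    (hv : X.Val i j b) (hv' : X.Val i j b') (hb : b' < b) (hz : X.Loc z z' b (X.x i))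
    (hy : X.Loc y y' b' (X.x i)) {Q Q' : Pr V} (h : X.O Q i j z) (h' : X.O Q' i j y) :
    |X.B Q' (X.x i) - X.B Q (X.x i)| ≤ 2 * X.m := by
  have ne : X.co j ≠ !X.co i := by rw [hc]; simp
  have hzj := hz.mv hv le_rfl hij.le hij.le le_rfl
  have n1 : ∀ {a a' c c' : V}, X.Loc a a' b (X.x i) → X.Loc c c' b' (X.x i) → a ≠ c := by
    intro a a' c c' h1 h2 e
    have := h1.2.2.2.2.2.1
    have := h2.2.2.2.1 (X.x i)
    rw [e] at *; omega
  have fl : X.Free i j (!X.co i) (X.x i) := free_x hj (by omega) (by simp)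
  have fr : X.Free i j (X.co j) (X.x j) := free_x hj hj (by simp)
  set Q1 := cnP X.P (X.co j) (X.x j) y with hQ1
  set Q2 := cnP Q1 (!X.co i) (X.x i) y with hQ2
  set Q3 := cnP Q2 (!X.co i) (X.x i) z with hQ3
  have a1 : (Q2 (!X.co i)).1 (X.x i) = y := by rw [hQ2, cnP_same, PM.cn_a _ (xz hy.1 _)]
  have a2 : (Q2 (!X.co i)).1 z = z' := by
    rw [hQ2, cnP_same, hQ1, cnP_ne _ ne.symm, PM.cn_other _ (xz hz.1 _).symm (n1 hz hy)
      (fun e => hz.1 (e ▸ X.rcl _ _ (X.rex i))) (by rw [hy.2.2.1]; exact n1 hz hy.sw), hz.2.2.1]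
  have hR : Rch X.Gd X.P 3 Q3 := by
    refine ((Rch.step (k := 0) rfl _ (xz hy.1 _) (gd_z _ (hy.mv hv' le_rfl hij.le hij.le le_rfl)
      (xz hy.1 _) hv'.2.2)).step _ (xz hy.1 _) (gd_z _ hy (xz hy.1 _) ?_)).step _ (xz hz.1 _)
      (gd_z _ hz (xz hz.1 _) ?_)
    · rw [cnP_ne _ ne.symm]; exact hv'.2.1
    · rw [a1, X.sym]; exact (hy.2.2.2.1 _).trans hb.le
  have i3 : X.Int Q3 i j := (((intP i j).cn fr (free_z hy.1 _ _ _)).cn fl (free_z hy.1 _ _ _)).cn fl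
    (free_z hz.1 _ _ _)
  have b1 : (Q3 (!X.co i)).1 (X.x i) = z := by rw [hQ3, cnP_same, PM.cn_a _ (xz hz.1 _)]
  have b2 : (Q3 (!X.co i)).1 y = z' := by
    have := ((Q2 (!X.co i)).cn_fa (xz hz.1 i)).resolve_right (by rw [a1]; exact (n1 hz hy).symm)
    rwa [a1, a2, ← cnP_same] at this
  have b3 : (Q3 (X.co j)).1 (X.x j) = y := by
    rw [hQ3, cnP_ne _ ne, hQ2, cnP_ne _ ne, hQ1, cnP_same, PM.cn_a _ (xz hy.1 _)]
  have b4 : (Q3 (X.co j)).1 z = z' := by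
    rw [hQ3, cnP_ne _ ne, hQ2, cnP_ne _ ne, hQ1, cnP_same, PM.cn_other _ (xz hz.1 _).symm (n1 hz hy)
      (fun e => hz.1 (e ▸ X.rcl _ _ (X.rex j))) (by rw [hy.2.2.1]; exact n1 hz hy.sw), hz.2.2.1]
  have c1 : Cy (raw Q3) (X.x i) (X.x j) := i3.cy hij.le le_rfl
  have c2 : Cy (raw Q3) (X.x i) z := cy_of b1
  have c3 : Cy (raw Q3) z z' := cy_of b4
  have u1 := hzj.2.2.2.2.2.1
  have u2 : b ≤ X.U z' z := by
    have := X.ult z' (X.x i) z
    have := hz.2.2.2.2.2.1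
    have := hz.2.2.2.2.2.2
    rw [X.sym z] at *
    omega
  obtain ⟨s1, s2, s3⟩ := split hR (X.co j) b3 b4 (xz hz.1 _) (n1 hz hy).symm
    (by rw [X.sym, X.sym (X.x j)]; exact (hy.2.2.2.1 _).trans (hb.le.trans u1))
    (by rw [X.sym (X.x j)]; exact (hz.2.2.2.1 _).trans u1) ((c1.symm (raw_inv _)).trans c2)
  have o1 : X.O (cnP Q3 (X.co j) (X.x j) z) i j z :=
    ⟨i3.cn fr (free_z hz.1 _ _ _), by rw [cnP_ne _ ne.symm, b1], s1⟩
  have d1 := s3 fun hcy => by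
    simpa [not_arc hy.1, (n1 hz hy).symm] using
      Cy.min (o1.cl hij.le hc) (Or.inl ⟨j, hij.le, le_rfl, rfl⟩) hcy
  rw [X.bf.triv _ y (X.co j) (by rw [s2, cnP_ne _ (by simp), hc, b2]), sub_zero,
    X.bf.base _ _ _ c1, X.bf.base _ _ _ (o1.1.cy hij.le le_rfl), ← O.eq hij.le hc o1 h] at d1
  obtain ⟨t1, t2, t3⟩ := split hR (!X.co i) (PM.sym _ b2) (PM.sym _ b1) hz.ne.symm (n1 hz hy).symm
    ((hz.2.2.2.2.1 _).trans u2) ((hz.2.2.2.1 _).trans u2) (c3.symm (raw_inv _))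
  have o2 : X.O (cnP Q3 (!X.co i) z' z) i j y :=
    ⟨i3.cn (free_z hz.2.1 _ _ _) (free_z hz.1 _ _ _), PM.sym _ t2, by rw [cnP_ne _ ne, b3]⟩
  have t4 : ∀ c, (cnP Q3 (!X.co i) z' z c).1 z' = z := by
    intro c
    by_cases e : c = !X.co i
    · rw [e, t1]
    · rw [cnP_ne _ e, show c = X.co j by rw [hc]; simpa using e]; exact PM.sym _ b4
  have d2 := t3 fun hcy => by
    have := Cy.min (S := fun u => u = z' ∨ u = z) (by
      rintro c _ (rfl | rfl)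
      exacts [Or.inr (t4 c), Or.inl (PM.sym _ (t4 c))]) (Or.inl rfl) hcy
    exact this.elim (n1 hz.sw hy).symm (n1 hz hy).symm
  rw [X.bf.triv _ z' true ((t4 true).trans (t4 _).symm), sub_zero, X.bf.base _ _ _ (c2.trans c3),
    X.bf.base _ (X.x i) y (cy_of o2.2.1), ← O.eq hij.le hc o2 h'] at d2
  rw [abs_le] at *
  constructor <;> linarith [d1.1, d1.2, d2.1, d2.2]

theorem claim (d : ℕ) : ∀ i j b, j ≤ X.l → j = i + d → X.Val i j b →
    (X.co j = !X.co i → ∀ Q, X.E Q i j → |X.B Q (X.x i)| ≤ 5 * d * X.m) ∧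
    (X.co j = X.co i → ∀ z z' Q, X.Loc z z' b (X.x i) → X.O Q i j z →
      |X.B Q (X.x i)| ≤ 5 * d * X.m) := by
  induction d using Nat.strong_induction_on with
  | _ d ih =>
  intro i j b hj hd hv
  have m0 := X.m0
  rcases Nat.eq_zero_or_pos d with rfl | hpos
  · obtain rfl : j = i := hd
    refine ⟨fun h => by simp at h, fun _ z z' Q _ h => ?_⟩
    rw [X.bf.triv _ _ (X.co j) (h.2.2.trans h.2.1.symm)]; simp
  obtain ⟨k, hk, hmin⟩ := exists_min_image (Ico i j) (fun k => X.U (X.x k) (X.x (k + 1)))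
    ⟨i, by simp; omega⟩
  simp only [mem_Ico] at hk hmin
  obtain ⟨be, hbe⟩ : ∃ be, be = X.U (X.x k) (X.x (k + 1)) := ⟨_, rfl⟩
  have hb : b ≤ be := hbe ▸ hv.1 k hk.1 hk.2
  have hv0 : X.Val i j be := ⟨fun t h1 h2 => hbe ▸ hmin t ⟨h1, h2⟩, hv.2.1.trans hb, hv.2.2.trans hb⟩
  have hv1 : X.Val i k be := ⟨fun t h1 h2 => hv0.1 t h1 (by omega), hv0.2.1, hbe.ge⟩
  have hv2 : X.Val (k + 1) j be := ⟨fun t h1 h2 => hv0.1 t (by omega) h2, by
    rw [co_succ, Bool.not_not, (X.P (X.co k)).sym (intP k (k + 1) k le_rfl (by omega)), X.sym]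
    exact hbe.ge, hv0.2.2⟩
  obtain ⟨z0, z0', hz0⟩ : ∃ z z', X.Loc z z' be (X.x i) := by
    obtain ⟨z, a1, a2, a3, a4, a5, a6⟩ := X.dum _ _ (X.rex k) (X.rex (k + 1))
    refine ⟨z, _, Loc.mv hv0 hk.1 hk.2.le le_rfl (by omega) ⟨a1, fun h => a1 ?_, fun c => ?_,
      hbe ▸ a3, hbe ▸ a4, hbe ▸ a5, hbe ▸ a6⟩⟩
    · have := X.rcl true _ h; rwa [(X.P true).2.1] at this
    · cases c; exacts [a2, rfl]
  obtain ⟨I1e, I1o⟩ := ih (k - i) (by omega) i k be (by omega) (by omega) hv1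
  obtain ⟨I2e, I2o⟩ := ih (j - (k + 1)) (by omega) (k + 1) j be hj (by omega) hv2
  have hs : (5 * (k - i : ℕ) * X.m + 5 * (j - (k + 1) : ℕ) * X.m) + 5 * X.m = 5 * d * X.m := by
    have : ((k - i : ℕ) : ℝ) + (j - (k + 1) : ℕ) + 1 = d := by
      exact_mod_cast (by omega : k - i + (j - (k + 1)) + 1 = d)
    rw [← this]; ring
  have ik : i ≤ k := hk.1
  have kj : k + 1 ≤ j := hk.2
  have uxx : be ≤ X.U (X.x i) (X.x k) := by
    have := X.ult (X.x i) z0 (X.x k)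
    have := in_arc hv0 le_rfl (by omega) ik hk.2.le hz0.2.2.2.2.2.1
    have := hz0.2.2.2.2.2.1
    rw [X.sym z0] at this
    omega
  have fk1 : X.Free i k (X.co k) (X.x k) := free_x (by omega) (by omega) (by simp)
  have fk2 : X.Free (k + 1) j (X.co k) (X.x k) := free_x hj (by omega) (by omega)
  have fi2 : X.Free (k + 1) j (X.co k) (X.x i) := free_x hj (by omega) (by omega)
  have cases : ∀ c c' : Bool, c = c' ∨ c = !c' := by decide
  have key : ∀ z z', X.Loc z z' be (X.x i) → X.co j = X.co i → ∀ Q, X.O Q i j z →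
      |X.B Q (X.x i)| ≤ 5 * (k - i : ℕ) * X.m + 5 * (j - (k + 1) : ℕ) * X.m + X.m := by
    intro z z' hz hc Q h
    obtain ⟨Q1, hR, h1⟩ := buildO (by omega) hj hc hv0 hz
    rw [O.eq (by omega) hc h1 h]
    have hzk := hz.mv hv0 le_rfl (by omega) ik hk.2.le
    have c2 : Cy (raw Q1) (X.x i) z := cy_of h1.2.1
    rcases cases (X.co k) (X.co i) with hg | hg
    · obtain ⟨s1, s2, s3⟩ := split hR (X.co k) (a := z) (a' := X.x j)
        (PM.sym _ (by rw [hg, ← hc]; exact h1.2.2)) (h1.1 k ik kj) (xz hz.1 _).symm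
        (xne hj (by omega) (by omega)) ((hz.2.2.2.1 _).trans hzk.2.2.2.2.2.1)
        (hbe ▸ hzk.2.2.2.2.2.1) ((c2.symm (raw_inv _)).trans (h1.1.cy ik hk.2.le))
      have o1 : X.O (cnP Q1 (X.co k) z (X.x k)) i k z :=
        ⟨(h1.1.sub le_rfl hk.2.le).cn (free_z hz.1 _ _ _) fk1,
          by rw [cnP_ne _ (by rw [hg]; simp), h1.2.1], PM.sym _ s1⟩
      have hc2 : X.co j = !X.co (k + 1) := by rw [co_succ, Bool.not_not, hg, hc]
      have e2 : X.E (cnP Q1 (X.co k) z (X.x k)) (k + 1) j :=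
        ⟨(h1.1.sub (by omega) le_rfl).cn (free_z hz.1 _ _ _) fk2,
          PM.sym _ (by rw [hc, ← hg]; exact s2)⟩
      have d1 := s3 fun hcy => by
        rcases Cy.min (o1.cl ik hg) (Or.inr rfl) hcy with ⟨t, _, _, e⟩ | e
        · exact xne hj (by omega) (by omega) e
        · exact xz hz.1 _ e
      rw [X.bf.base _ _ _ c2, X.bf.base _ (X.x i) z (cy_of o1.2.1),
        X.bf.base _ _ _ (e2.1.cy kj le_rfl)] at d1
      have := abs_le.1 (I1o hg z z' _ hz o1)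
      have := abs_le.1 (I2e hc2 _ e2)
      rw [abs_le] at *
      constructor <;> linarith [d1.1, d1.2]
    · have ik' : i ≠ k := fun e => by rw [e] at hg; simp at hg
      obtain ⟨s1, s2, s3⟩ := split hR (X.co k) (a := X.x i) (a' := z) (hg ▸ h1.2.1) (h1.1 k ik kj)
        (xne (by omega) (by omega) ik') (xz hz.1 _).symm
        (by rw [X.sym]; exact (hz.2.2.2.1 _).trans uxx) (hbe ▸ uxx) (h1.1.cy ik hk.2.le)
      have e1 : X.E (cnP Q1 (X.co k) (X.x i) (X.x k)) i k :=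
        ⟨(h1.1.sub le_rfl hk.2.le).cn (free_x (by omega) (by omega) (by simp [hg])) fk1, s1⟩
      have hc2 : X.co j = X.co (k + 1) := by rw [co_succ, hg, Bool.not_not, hc]
      have o2 : X.O (cnP Q1 (X.co k) (X.x i) (X.x k)) (k + 1) j z :=
        ⟨(h1.1.sub (by omega) le_rfl).cn fi2 fk2, PM.sym _ (by rw [co_succ, Bool.not_not]; exact s2),
          by rw [cnP_ne _ (by rw [hc2, co_succ]; simp), h1.2.2]⟩
      have d1 := s3 fun hcy => by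
        simpa [not_arc hz.1] using Cy.min (e1.cl ik hg) (Or.inl ⟨i, le_rfl, ik, rfl⟩) hcy
      rw [X.bf.base _ (X.x (k + 1)) z (cy_of o2.2.1)] at d1
      have := abs_le.1 (I1e hg _ e1)
      have := abs_le.1 (I2o hc2 z z' _ (hz.mv hv0 le_rfl (by omega) (by omega) kj) o2)
      rw [abs_le] at *
      constructor <;> linarith [d1.1, d1.2]
  refine ⟨fun hc Q h => ?_, fun hc z z' Q hz h => ?_⟩
  · obtain ⟨Q1, hR, h1⟩ := buildD (by omega) hj hc hv0 hz0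
    have r := abs_le.1 (r4 (by omega) hj hc hv0 hz0 h1 h)
    have hzk := hz0.mv hv0 le_rfl (by omega) ik hk.2.le
    have hz2 := hz0.mv hv0 le_rfl (by omega) (by omega : i ≤ k + 1) kj
    have c2 : Cy (raw Q1) (X.x i) z0 := cy_of h1.2.1
    rcases cases (X.co k) (X.co i) with hg | hg
    · obtain ⟨s1, s2, s3⟩ := split hR (X.co k) (a := z0) (a' := z0') (hg ▸ h1.2.2.2) (h1.1 k ik kj)
        (xz hz0.1 _).symm (xz hz0.2.1 _).symm ((hz0.2.2.2.1 _).trans hzk.2.2.2.2.2.1)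
        (hbe ▸ hzk.2.2.2.2.2.1) ((c2.symm (raw_inv _)).trans (h1.1.cy ik hk.2.le))
      have ne : X.co j ≠ X.co k := by rw [hc, hg]; simp
      have o1 : X.O (cnP Q1 (X.co k) z0 (X.x k)) i k z0 :=
        ⟨(h1.1.sub le_rfl hk.2.le).cn (free_z hz0.1 _ _ _) fk1,
          by rw [← hc, cnP_ne _ ne, h1.2.1], PM.sym _ s1⟩
      have hc2 : X.co j = X.co (k + 1) := by rw [co_succ, hg, hc]
      have o2 : X.O (cnP Q1 (X.co k) z0 (X.x k)) (k + 1) j z0' :=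
        ⟨(h1.1.sub (by omega) le_rfl).cn (free_z hz0.1 _ _ _) fk2,
          PM.sym _ (by rw [co_succ, Bool.not_not]; exact s2), by rw [cnP_ne _ ne, h1.2.2.1]⟩
      have d1 := s3 fun hcy => by
        simpa [not_arc hz0.2.1, hz0.ne.symm] using Cy.min (o1.cl ik hg) (Or.inr rfl) hcy
      rw [X.bf.base _ _ _ c2,
        X.bf.base _ (X.x i) z0 (cy_of o1.2.1),
        X.bf.base _ (X.x (k + 1)) z0' (cy_of o2.2.1)] at d1
      have := abs_le.1 (I1o hg z0 z0' _ hz0 o1)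
      have := abs_le.1 (I2o hc2 z0' z0 _ hz2.sw o2)
      rw [abs_le] at *
      constructor <;> linarith [d1.1, d1.2]
    · have ik' : i ≠ k := fun e => by rw [e] at hg; simp at hg
      have hjk : X.co j = X.co k := by rw [hc, hg]
      have kj' : k + 1 ≠ j := fun e => by rw [← e, co_succ] at hjk; simp at hjk
      obtain ⟨s1, s2, s3⟩ := split hR (X.co k) (a := X.x i) (a' := z0) (hjk ▸ h1.2.1) (h1.1 k ik kj)
        (xne (by omega) (by omega) ik') (xz hz0.1 _).symm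
        (by rw [X.sym]; exact (hz0.2.2.2.1 _).trans uxx) (hbe ▸ uxx) (h1.1.cy ik hk.2.le)
      have e1 : X.E (cnP Q1 (X.co k) (X.x i) (X.x k)) i k :=
        ⟨(h1.1.sub le_rfl hk.2.le).cn (free_x (by omega) (by omega) (by simp [hg])) fk1, s1⟩
      have hc2 : X.co j = !X.co (k + 1) := by rw [co_succ, Bool.not_not, hjk]
      have o2 : X.D (cnP Q1 (X.co k) (X.x i) (X.x k)) (k + 1) j z0 z0' := by
        refine ⟨(h1.1.sub (by omega) le_rfl).cn fi2 fk2, PM.sym _ (hjk ▸ s2), ?_, ?_⟩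
        · rw [hjk, cnP_same, PM.cn_other _ (xne hj (by omega) (by omega))
            (xne hj (by omega) (by omega)), ← hjk, h1.2.2.1]
          · rw [← hjk, h1.2.1]; exact xz hz0.1 _
          · rw [h1.1 k ik kj]; exact xne hj (by omega) kj'.symm
        · rw [cnP_ne _ (by rw [co_succ]; simp), co_succ, hg, Bool.not_not, h1.2.2.2]
      have e2 : X.E (cnP X.P (X.co j) (X.x (k + 1)) (X.x j)) (k + 1) j :=
        ⟨(intP _ _).cn (free_x hj (by omega) (by simp [hc2])) (free_x hj hj (by simp)),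
          by rw [cnP_same, PM.cn_a _ (xne (by omega) hj kj')]⟩
      have r' := abs_le.1 (r4 (by omega) hj hc2 hv2 hz2 o2 e2)
      have d1 := s3 fun hcy => by
        simpa [not_arc hz0.1] using Cy.min (e1.cl ik hg) (Or.inl ⟨i, le_rfl, ik, rfl⟩) hcy
      rw [X.bf.base _ (X.x (k + 1)) z0 (cy_of o2.2.1)] at d1
      have := abs_le.1 (I1e hg _ e1)
      have := abs_le.1 (I2e hc2 _ e2)
      rw [abs_le] at *
      constructor <;> linarith [d1.1, d1.2]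
  · rcases eq_or_lt_of_le hb with e | e
    · have := key z z' (e ▸ hz) hc Q h
      linarith
    · obtain ⟨Q1, -, h1⟩ := buildO (by omega) hj hc hv0 hz0
      have := abs_le.1 (key z0 z0' hz0 hc Q1 h1)
      have := abs_le.1 (r1 (by omega) hj hc hv0 hv e hz0 hz h1 h)
      rw [abs_le]
      constructor <;> linarith

end Ctx

theorem cycle_bound [Fintype V] (U : V → V → ℕ) (re : V → Prop) (Gd : PM V → V → V → Prop)
    (B : Pr V → V → ℝ) (P : Pr V) (m : ℝ) (sym : ∀ a b, U a b = U b a)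
    (ult : ∀ a b c, min (U a b) (U b c) ≤ U a c)
    (good : ∀ (T : PM V) a b, a ≠ b → U a (T.1 a) ≤ U a b → U b (T.1 b) ≤ U a b → Gd T a b)
    (bf : BF B) (hm : ∀ Q c a b, Rch Gd P 3 Q → Spl Gd Q c a b → |dfc B Q c a b| ≤ m) (m0 : 0 ≤ m)
    (rcl : ∀ c u, re u → re ((P c).1 u)) (cl : ∀ z, ¬ re z → (P false).1 z = (P true).1 z)
    (dum : ∀ u v, re u → re v → ∃ z, ¬ re z ∧ (∀ p, U z p ≤ U u v) ∧
      (∀ p, U ((P true).1 z) p ≤ U u v) ∧ U u v ≤ U z u ∧ U u v ≤ U ((P true).1 z) u) (x : V) :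
    |B P x| ≤ 5 * Fintype.card V * m := by
  classical
  by_cases hx : re x
  swap
  · rw [bf.triv P x false (cl x hx)]; simp only [abs_zero]; positivity
  obtain ⟨⟨y, c⟩, hy, hmin⟩ := exists_min_image (univ.filter fun p : V × Bool => Cy (raw P) x p.1)
    (fun p => U p.1 ((P p.2).1 p.1)) ⟨(x, true), by simp [Cy.refl]⟩
  simp only [mem_filter, mem_univ, true_and] at hy hmin
  obtain ⟨l, h1, h2, h3, h4, -⟩ := cycle_exists (raw_inv P) (fun c => (P c).2.2) (!c) y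
  have rex : ∀ k, re (wk (raw P) (!c) y k) := fun k =>
    Cy.min (S := re) rcl hx (hy.trans (cy_wk _ _ _ k))
  let X : Ctx V := ⟨U, re, Gd, B, P, m, !c, y, l, sym, ult, good, bf, hm, m0, rex, rcl, h4,
    fun u v hu hv => by
      obtain ⟨z, a1, a2⟩ := dum u v hu hv
      exact ⟨z, a1, cl z a1, a2⟩⟩
  rw [Bool.not_not] at h3
  have e1 : (P c).1 y = X.x l := by
    apply PM.sym; rw [← h3]; exact h2
  have hv : X.Val 0 l (U y ((P c).1 y)) := by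
    refine ⟨fun k _ _ => hmin (X.x k, X.co k) (hy.trans (cy_wk _ _ _ k)), ?_, ?_⟩
    · show U y ((P (!!c)).1 y) ≤ _
      rw [Bool.not_not]
    · show U (X.x l) (wk (raw P) (!c) y (l + 1)) ≤ _
      rw [h2, e1, sym]
  have := (Ctx.claim (X := X) l 0 l _ le_rfl (by simp) hv).1 (h3.trans (Bool.not_not c).symm) P
    ⟨Ctx.intP _ _, by rw [show X.co l = c from h3]; exact e1⟩
  rw [← bf.base P x y hy]
  refine this.trans (mul_le_mul_of_nonneg_right ?_ m0)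
  have : (l : ℝ) ≤ Fintype.card V := by exact_mod_cast (by omega : l ≤ Fintype.card V)
  linarith

end Vale.Agent.P308
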