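import Vale.Agent.P317.Defs

/-!
P308: perfect matchings and the input convention. The machine is the randomized random-access
machine of P317 (addition, truncated subtraction, fair coins, a clock).
-/

namespace Vale.Agent.P308
open Vale.Agent.P317

/-- No oracle is available: the ground set is empty and every query is answered by 0. -/
def noOracle : Bool → Set (Fin 0) → Prop := fun _ _ => False

/-- The number of perfect matchings of `G`. -/
noncomputable def pmCount {n : ℕ} (G : SimpleGraph (Fin n)) : ℕ :=
  Set.ncard {M : G.Subgraph | M.IsPerfectMatching}

open Classical in
/-- Initial memory: the adjacency matrix of `G` in array 7 (entry `(u, v)` in cell `u * n + v`),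
and `n`, `ε`, `δ` as in `input`; every other cell is zero. -/
noncomputable def ginput {n : ℕ} (G : SimpleGraph (Fin n)) (ε δ : ℚ) : Mem := fun a i =>
  if a = 7 then (if ∃ u v : Fin n, i = u.val * n + v.val ∧ G.Adj u v then 1 else 0)
  else input n ε δ a i

end Vale.Agent.P308
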