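import Vale.Agent.P308.Ctl4
import Vale.Agent.P308.Defs

/-! P308: the concrete auxiliary graph, its tables, and the count of perfect matchings. -/

namespace Vale.Agent.P308
open Finset Function Vale.Agent.P317 Vale.Agent.P328
attribute [-instance] Nat.decidableForallFin

def mtf (p : ℕ) : ℕ := if p % 2 = 0 then p + 1 else p - 1
def bsf (n p : ℕ) : ℕ := if p < n then p else (p - n) / 2 / n
def otf (n p : ℕ) : ℕ := if p < n then p else (p - n) / 2 % n
def adjN {n : ℕ} (G : SimpleGraph (Fin n)) (u v : ℕ) : Prop := ∃ a b : Fin n, a.val = u ∧ b.val = v ∧ G.Adj a b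

theorem bo_cell {n u v x : ℕ} (hv : v < n) (h : x = n + 2 * (u * n + v) ∨ x = n + 2 * (u * n + v) + 1) :
    bsf n x = u ∧ otf n x = v := by
  have e : (x - n) / 2 = v + u * n := by omega
  rw [bsf, otf, if_neg (by omega), if_neg (by omega), e, Nat.add_mul_div_right _ _ (by omega),
    Nat.add_mul_mod_self_right, Nat.div_eq_of_lt hv, Nat.mod_eq_of_lt hv, zero_add]
  exact ⟨rfl, rfl⟩

theorem bo_lt {n x : ℕ} (hn : 0 < n) (h : x < n + 2 * (n * n)) : bsf n x < n ∧ otf n x < n := by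
  unfold bsf otf
  split_ifs
  exacts [by omega, ⟨Nat.div_lt_of_lt_mul (by omega), Nat.mod_lt _ hn⟩]

def mkCf {n : ℕ} (G : SimpleGraph (Fin n)) (L : ℕ) (h0 : 0 < n) (h2 : n % 2 = 0) (hL : 10 ≤ L)
    (hn : 2 * (n + 2 * (n * n)) ≤ 2 ^ L) : Cf where
  n := n
  ns := n + 2 * (n * n)
  G :=
    { re := fun p => p.val < n
      mt := ⟨fun p => ⟨mtf p, by unfold mtf; split_ifs <;> omega⟩, fun p => Fin.ext (by
        simp only [mtf]; split_ifs <;> omega), fun p e => by
          have := congrArg Fin.val e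
          simp only [mtf] at this; split_ifs at this <;> omega⟩
      hre := fun u h => by simp only [mtf]; split_ifs <;> omega
      bs := fun p => ⟨bsf n p, by have := (bo_lt h0 p.2).1; omega⟩
      ot := fun p => ⟨otf n p, by have := (bo_lt h0 p.2).2; omega⟩
      o := ⟨0, by omega⟩
      L := L
      ro := h0
      rb := fun p h => ⟨Fin.ext (if_pos h), Fin.ext (if_pos h)⟩
      mb := fun z h => by
        have e : ¬ mtf z < n ∧ (mtf z - n) / 2 = (z - n) / 2 := by unfold mtf; split_ifs <;> omega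
        simp only [bsf, otf, e.1, e.2, h, if_false, and_self]
      ex := fun u v hu hv => ⟨⟨n + 2 * (u * n + v), by
          have := Nat.mul_le_mul_right n hu
          rw [Nat.succ_mul] at this; omega⟩, by simp, Fin.ext (bo_cell hv (Or.inl rfl)).1,
        Fin.ext (bo_cell hv (Or.inl rfl)).2⟩
      hL := hL
      hn := by simpa using hn }
  adj := adjN G
  re_iff := fun _ => Iff.rfl
  o0 := rfl
  nle := by omega

theorem cnt_eq {n : ℕ} (G : SimpleGraph (Fin n)) (D : Cf) (h1 : D.n = n) (h2 : D.adj = adjN G) :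
    D.cnt = pmCount G := by
  classical
  subst h1
  let ι := Fin.castLE D.nle
  have inj : Injective ι := Fin.castLE_injective _
  have r1 : ∀ a, D.G.re (ι a) := fun a => (D.re_iff _).2 a.2
  have r2 : ∀ p, D.G.re p → ∃ a, ι a = p := fun p h => ⟨⟨p, (D.re_iff _).1 h⟩, rfl⟩
  have ad : ∀ a b, D.adj (ι a) (ι b) ↔ G.Adj a b := fun a b => by
    rw [h2]
    exact ⟨fun ⟨a', b', e1, e2, h⟩ => by rwa [← Fin.ext e1, ← Fin.ext e2], fun h => ⟨a, b, rfl, rfl, h⟩⟩
  rw [Cf.cnt, ← Set.ncard_coe_finset]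
  simp only [coe_filter, Sk.mem_Fam, notMem_empty, iff_false]
  refine Set.ncard_congr (fun f hf => ⟨Set.univ, fun a b => f (ι a) = ι b,
    fun {a b} e => (ad a b).1 (e ▸ hf.2 _ (r1 a)), fun _ => trivial, ⟨fun a b e => by rw [← e, hf.1.1]⟩⟩)
    (fun f hf => ?_) (fun f f' hf hf' e => funext fun p => ?_) fun M hM => ?_
  · refine SimpleGraph.Subgraph.isPerfectMatching_iff.2 fun a => ?_
    obtain ⟨b, hb⟩ := r2 _ (Sk.re_of hf.1.1 hf.1.2.2 (r1 a))
    exact ⟨b, hb.symm, fun c hc => inj ((Eq.symm hc).trans hb.symm)⟩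
  · by_cases r : D.G.re p
    · obtain ⟨a, rfl⟩ := r2 p r
      obtain ⟨b, hb⟩ := r2 _ (Sk.re_of hf.1.1 hf.1.2.2 r)
      exact hb.symm.trans (Eq.symm ((congrFun₂ (congrArg SimpleGraph.Subgraph.Adj e) a b).mp hb.symm))
    · rw [hf.1.2.2 p r, hf'.1.2.2 p r]
  · choose g g1 g2 using SimpleGraph.Subgraph.isPerfectMatching_iff.1 hM
    let f : Fin D.ns → Fin D.ns := fun p => if h : p.val < D.n then ι (g ⟨p, h⟩) else D.G.mt.1 p
    have f1 : ∀ a, f (ι a) = ι (g a) := fun a => dif_pos a.2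
    have f2 : ∀ z, ¬ D.G.re z → f z = D.G.mt.1 z := fun z h => dif_neg (by rwa [D.re_iff] at h)
    refine ⟨f, ⟨⟨fun p => ?_, fun p => ?_, f2⟩, fun p r => ?_⟩, SimpleGraph.Subgraph.ext hM.2.verts_eq_univ.symm
      (funext₂ fun a b => propext ?_)⟩
    · by_cases r : D.G.re p
      · obtain ⟨a, rfl⟩ := r2 p r
        rw [f1, f1, ← g2 _ _ (g1 a).symm]
      · rw [f2 p r, f2 _ (D.G.nre r), D.G.mt.2.1]
    · by_cases r : D.G.re p
      · obtain ⟨a, rfl⟩ := r2 p r
        rw [f1]; exact fun e => (g1 a).ne (inj e).symm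
      · rw [f2 p r]; exact D.G.mt.2.2 p
    · obtain ⟨a, rfl⟩ := r2 p r
      rw [f1, ad]; exact (g1 a).adj_sub
    · show f (ι a) = ι b ↔ _
      rw [f1, inj.eq_iff]
      exact ⟨fun e => e ▸ g1 a, fun e => (g2 a b e).symm⟩

variable {k0 : ℕ} {O : Bool → Set (Fin k0) → Prop} {M : Mem}

theorem tab_spec {a k : ℕ} (h : a ≠ 58 ∧ a ≠ 40 ∧ k ∉ [a, 58, 40]) :
    ∀ u < M 10 0, exec O (tab a k) M a u = u * M k 0 := by
  obtain ⟨a1, a2, a3⟩ := h
  refine ((lgD (O := O)).forI (e := 0) (C := M.put 58 0 0) (body := .seq (.set a (V 40) (V 58)) (acc 58 (V k)))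
    (fun s C => Agree [a, 58, 40] M C ∧ C 58 0 = s * M k 0 ∧ ∀ u < s, C a u = u * M k 0) trivial trivial
    (by simp) (by decide) (by simp [Prog.wr, acc, asg, a2.symm]) (fun s C x h =>
      ⟨agree_put' h.1 (by simp) _ _, by simpa [a2] using h.2⟩)
    ⟨agree_put' (Agree.refl _ _) (by simp) _ _, by simp, by simp⟩ fun s _ C b1 ⟨b2, b3, b4⟩ =>
      ⟨agree_exec b2 O _ (by simp [Prog.wr, acc, asg]), ?_, fun u hu => ?_⟩).2.2
  · have := b2 k a3
    simp only [List.mem_cons, not_or] at a3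
    simp [exec, acc, asg, Expr.val, a1.symm, a3.1, b3, this, add_mul]
  · simp only [exec, acc, asg, Mem.put_apply, a1, false_and, if_false, true_and, V_val, b1, b3]
    split_ifs with e
    exacts [by rw [e], b4 u (by omega)]

theorem mates_spec : ∀ u < M 8 0, exec O mates M 54 u = mtf u := by
  refine ((lgD (O := O)).forI (e := 0) (C := M.put 58 0 0) (body := .seq (.set 54 (V 40)
    (.sub (.add (V 40) (.lit 1)) (mulE 2 (V 58)))) (asg 58 (.sub (.lit 1) (V 58))))
    (fun s C => C 58 0 = s % 2 ∧ ∀ u < s, C 54 u = mtf u) trivial trivial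
    (by simp) (by decide) (by decide) (fun s C x h => by simpa using h) ⟨by simp, by simp⟩
    fun s _ C b1 ⟨b2, b3⟩ => ⟨by simp [exec, asg, Expr.val, b2]; omega, fun u hu => ?_⟩).2
  simp only [exec, asg, Mem.put_apply, Expr.val, V_val, mulE_val, b1, b2]
  norm_num
  split_ifs with e
  exacts [by rw [e, mtf]; split_ifs <;> omega, b3 u (by omega)]

theorem bases_spec {n a r : ℕ} (h0 : M 0 0 = n) (h62 : ∀ u < n, M 62 u = u * n) (f : ℕ → ℕ)
    (h : (a = 52 ∧ r = 40 ∧ f = bsf n) ∨ (a = 53 ∧ r = 41 ∧ f = otf n)) :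
    ∀ x < n + 2 * (n * n), exec O (bases a r) M a x = f x := by
  have a1 : a ∉ [0, 40, 41, 62] := by rcases h with ⟨rfl, -⟩ | ⟨rfl, -⟩ <;> decide
  simp only [List.mem_cons, not_or] at a1
  obtain ⟨a1, a2, a3, a4, -⟩ := a1
  have s1 := fill1 (O := O) (a := a) (i := 40) (o := 0) (body := .set a (V 40) (V 40)) [a, 40] id h0 (by decide) a2
    (by simp [Prog.wr, Ne.symm a2]) (by simp) (by simp [Prog.wr]) fun s _ C' _ e _ => by simp [exec, put_self, e]
  have b1 : Agree [a, 40, 41] M (exec O (forI 40 0 (.set a (V 40) (V 40))) M) :=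
    (exec_agree _ _ _).mono (by simp [forI, Prog.wr, asg, inc])
  rw [bases, exec_seq]
  generalize exec O (forI 40 0 _) M = M1 at *
  have := ((lgD (O := O)).for2 (e := 0) (C := M1) (i := 40) (j := 41) (k := 0)
    (body := .seq (.set a dE (V r)) (.set a (.add dE (.lit 1)) (V r)))
    (fun S C => Agree [a, 40, 41] M C ∧ ∀ x, x < n ∨ (bsf n x, otf n x) ∈ S → C a x = f x) trivial trivial
    trivial (by rw [b1 0 (by simp [Ne.symm a1]), h0]) (by decide) (by decide) (by decide)
    (by simp [Prog.wr, Ne.symm a2]) (by simp [Prog.wr, Ne.symm a3]) (by simp [Prog.wr, Ne.symm a1])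
    (fun s C x h => ⟨agree_put' h.1 (by simp) _ _, by simpa [a2] using h.2⟩)
    (fun s C x h => ⟨agree_put' h.1 (by simp) _ _, by simpa [a3] using h.2⟩)
    ⟨b1, fun x hx => by
      have hx : x < n := by simpa using hx
      rcases h with ⟨-, -, rfl⟩ | ⟨-, -, rfl⟩ <;> simp [s1, hx, bsf, otf]⟩
    fun S _ p hp q hq _ C c1 c2 ⟨c3, c4⟩ => ⟨agree_exec c3 O _ (by simp [Prog.wr]), fun x hx => by
      have e : ∀ y, y = n + 2 * (p * n + q) ∨ y = n + 2 * (p * n + q) + 1 → f y = C r 0 := fun y hy => by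
        rcases h with ⟨-, rfl, rfl⟩ | ⟨-, rfl, rfl⟩
        exacts [(bo_cell hq hy).1.trans c1.symm, (bo_cell hq hy).2.trans c2.symm]
      have ra : r ≠ a := by rcases h with ⟨rfl, rfl, -⟩ | ⟨rfl, rfl, -⟩ <;> decide
      simp only [exec, dE, Expr.val, V_val, mulE_val, Mem.put_apply, Ne.symm a1, Ne.symm a2, Ne.symm a3, Ne.symm a4,
        ra, false_and, if_false, true_and, c1, c2, c3 0 (by simp [Ne.symm a1]), h0,
        c3 62 (by simp [Ne.symm a4]), h62 p hp]
      split_ifs with e1 e2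
      exacts [(e x (Or.inr e1)).symm, (e x (Or.inl e2)).symm, c4 x (by
        by_cases c : x < n
        · exact Or.inl c
        refine Or.inr ((mem_insert.1 (hx.resolve_left c)).resolve_left fun e3 => ?_)
        simp only [bsf, otf, c, if_false, Prod.mk.injEq] at e3
        have := Nat.div_add_mod' ((x - n) / 2) n
        rw [e3.1, e3.2] at this
        omega)]⟩).2
  exact fun x hx => this x (by
    rcases Nat.eq_zero_or_pos n with rfl | hn
    · omega
    · exact Or.inr (by simpa using bo_lt hn hx))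

structure Par0 (n L : ℕ) (M : Mem) : Prop where
  r0 : M 0 0 = n
  r8 : M 8 0 = n + 2 * (n * n)
  r9 : M 9 0 = L
  r10 : M 10 0 = 2 ^ L
  r11 : M 11 0 = 4 ^ L
  r12 : M 12 0 = 2 ^ (32768 * L)
  r13 : M 13 0 = 2 ^ (40960 * L)
  r14 : M 14 0 = 2 ^ (4096 * L)
  r15 : M 15 0 = 32768 * L
  r20 : M 20 0 = 4096 * L + 2

theorem tables_par {n L : ℕ} (G : SimpleGraph (Fin n)) (h0 : 0 < n) (h2 : n % 2 = 0) (hL : 10 ≤ L)
    (hn : 2 * (n + 2 * (n * n)) ≤ 2 ^ L) (h : Par0 n L M) {ε δ : ℚ} (h7 : M 7 = ginput G ε δ 7) :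
    (mkCf G L h0 h2 hL hn).Par (exec O tables M) := by
  have a := exec_agree O tables M
  simp only [tables, exec_seq] at a ⊢
  have s1 := tab_spec (O := O) (M := M) (a := 16) (k := 10) (by decide)
  have a1 := exec_agree O (tab 16 10) M
  generalize exec O (tab 16 10) M = M1 at *
  have s2 := tab_spec (O := O) (M := M1) (a := 62) (k := 0) (by decide)
  have a2 := exec_agree O (tab 62 0) M1
  generalize exec O (tab 62 0) M1 = M2 at *
  have s3 := mates_spec (O := O) (M := M2)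
  have a3 := exec_agree O mates M2
  generalize exec O mates M2 = M3 at *
  rw [h.r10] at s1
  rw [a1 10 (by decide), a1 0 (by decide), h.r10, h.r0, ← a3 62 (by decide)] at s2
  rw [a2 8 (by decide), a1 8 (by decide), h.r8] at s3
  have e0 : M3 0 0 = n := by rw [a3 0 (by decide), a2 0 (by decide), a1 0 (by decide), h.r0]
  have s4 := bases_spec (O := O) e0 (fun u hu => s2 u (by omega)) _ (Or.inl ⟨rfl, rfl, rfl⟩)
  have a4 := exec_agree O (bases 52 40) M3
  generalize exec O (bases 52 40) M3 = M4 at *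
  have s5 := bases_spec (O := O) (M := M4) (by rw [a4 0 (by decide), e0])
    (fun u hu => by rw [a4 62 (by decide), s2 u (by omega)]) _ (Or.inr ⟨rfl, rfl, rfl⟩)
  have a5 := exec_agree O (bases 53 41) M4
  generalize exec O (bases 53 41) M4 = M5 at *
  refine ⟨by rw [a 0 (by decide), h.r0]; rfl, by rw [a 8 (by decide), h.r8]; rfl,
    by rw [a 9 (by decide), h.r9]; rfl, by rw [a 10 (by decide), h.r10]; rfl, by rw [a 11 (by decide), h.r11]; rfl,
    by rw [a 12 (by decide), h.r12]; rfl, by rw [a 13 (by decide), h.r13]; rfl,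
    by rw [a 14 (by decide), h.r14]; rfl, by rw [a 15 (by decide), h.r15]; rfl,
    by rw [a 20 (by decide), h.r20]; rfl, fun u hu => ?_, fun u hu => ?_, fun p => ?_, fun p => s5 p p.2,
    fun p => ?_, fun u hu v hv => ?_⟩
  · rw [a5 16 (by decide), a4 16 (by decide), a3 16 (by decide), a2 16 (by decide)]; exact s1 u hu
  · rw [a5 62 (by decide), a4 62 (by decide)]; exact s2 u hu
  · rw [a5 52 (by decide)]; exact s4 p p.2
  · rw [a5 54 (by decide), a4 54 (by decide)]; exact s3 p p.2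
  · rw [a 7 (by decide), h7]
    simp only [ginput, if_true, ne_eq, ite_eq_right_iff, one_ne_zero, imp_false, not_not]
    exact exists₂_congr fun a b => by
      rw [show (mkCf G L h0 h2 hL hn).n = n from rfl, cell_inj (P := n) hv b.2, eq_comm, @eq_comm _ v, and_assoc]

end Vale.Agent.P308
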