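import Vale.Agent.P308.TR

/-! P308: one change of a weight, and the sweeps towards a target. -/

namespace Vale.Agent.P308
open Finset Function Vale.Agent.P317 Vale.Agent.P328

def pos (a τ r : ℕ) : ℕ := if a ≤ τ then min τ (a + r) else max τ (a - r)

namespace Cf
variable (D : Cf)

def ar (C : Mem) (a o : ℕ) (p q : Fin D.ns) : ℕ := C a (o + (p * D.P + q))

def Lay (C : Mem) (W : Fin D.ns → Fin D.ns → ℕ) : Prop :=
  D.ar C 17 0 = W ∧ D.ar C 17 D.G.b = W ∧ C 19 0 = 0

theorem cell_lt (p q : Fin D.ns) : p * D.P + q < D.G.b := by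
  have := Nat.mul_le_mul_right D.P (D.lt p)
  have := D.lt q
  rw [show D.G.b = D.P * D.P from D.G.b_eq]
  rw [Nat.succ_mul] at *
  omega

variable {D} {k0 : ℕ} {O : Bool → Set (Fin k0) → Prop} {C M : Mem} {W : Fin D.ns → Fin D.ns → ℕ}

theorem ar_agree {S : List ℕ} (h : Agree S C M) {a : ℕ} (o : ℕ) (ha : a ∉ S) : D.ar M a o = D.ar C a o := by
  funext p q; rw [ar, h a ha, ar]

theorem Lay.agree (h : D.Lay C W) {S : List ℕ} (a : Agree S C M) (h1 : 17 ∉ S) (h2 : 19 ∉ S) : D.Lay M W :=
  ⟨(ar_agree a _ h1).trans h.1, (ar_agree a _ h1).trans h.2.1, by rw [a 19 h2, h.2.2]⟩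

theorem Lay.om (h : D.Lay C W) (i : Fin D.G.N) : D.om C i = W := by
  rw [← h.1]; funext p q; simp only [Cf.om, h.2.2, ar, not_lt_zero', if_false]

theorem ar_val (hP : D.Par C) (a : ℕ) (p q : Fin D.ns) : C a (C 16 p + q) = D.ar C a 0 p q := by
  rw [ar, hP.mq, zero_add]

theorem set2_spec (hP : D.Par C) {a r s : ℕ} {o : Expr} {p q : Fin D.ns} (hr : C r 0 = p) (hs : C s 0 = q)
    (ha : a ∉ 16 :: 59 :: r :: s :: rdE o) :
    D.ar (exec O (set2 a o (V r) (V s)) C) a (o.val C) = upN (D.ar C a (o.val C)) p q (C 59 0) ∧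
      ∀ x, x < o.val C ∨ o.val C + D.G.b ≤ x → exec O (set2 a o (V r) (V s)) C a x = C a x := by
  simp only [List.mem_cons, not_or] at ha
  obtain ⟨a1, a2, a3, a4, a5⟩ := ha
  have e := fun i x => val_agree (agree_put C a i x) o fun b hb => by
    rw [List.mem_singleton]; rintro rfl; exact a5 hb
  simp only [set2, exec, Expr.val, ix_val, V_val, e, Mem.put_apply, Ne.symm a1, Ne.symm a2, Ne.symm a3,
    Ne.symm a4, false_and, if_false, hr, hs, hP.mq, true_and]
  refine ⟨funext fun u => funext fun v => ?_, fun x hx => ?_⟩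
  · simp only [ar, Mem.put_apply, true_and, Nat.add_left_cancel_iff, cell_inj (D.lt v) (D.lt _), Fin.val_inj, upN]
    split_ifs <;> tauto
  · have := D.cell_lt p q
    have := D.cell_lt q p
    rw [if_neg (by omega), if_neg (by omega)]

theorem stepW_tr (hP : D.Par C) (hL : D.Lay C W) (hg : D.G.Good W) {p q : Fin D.ns} (hpq : p ≠ q)
    (hp : C 44 0 = p) (hq : C 45 0 = q) {w k : ℕ} (hw : (W p q < D.ar C 51 0 p q ∧ w = W p q + 1) ∨
      (D.ar C 51 0 p q < W p q ∧ w + 1 = W p q)) (hg' : D.G.Good (upN W p q w))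
    (he : D.G.Est W k (C 5 0) (C 6 0)) : D.TR O stepW C (fun C' => D.Lay C' (upN W p q w) ∧
      D.G.Est (upN W p q w) (k + 1) (C' 5 0) (C' 6 0)) D.G.t := by
  refine lgT.mono (lgT.seq (batch_tr hP hL.om hg hp hq) (e' := 0 + (D.G.N + 0)) ?_) (fun _ a _ => a)
    (by have := (D.tbig 0 (by norm_num)).2.2; omega)
  rintro _ ⟨c, rfl, hc⟩
  have a0 := agree_put C 46 0 c
  have e46 : C.put 46 0 c 46 0 = c := by simp
  generalize C.put 46 0 c = C0 at *
  have p0 := hP.agree a0 (by decide)
  have a1 := exec_agree O dirn C0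
  have s1 : exec O dirn C0 59 0 = w ∧ ((w = W p q + 1 ∧ exec O dirn C0 47 0 = 4 * D.G.B + 12 * c) ∨
      (w + 1 = W p q ∧ exec O dirn C0 47 0 = 4 * D.G.B - 3 * c)) := by
    simp only [dirn, exec, ite_apply, ltE_eq, wE, tE, c2_val, V_val, a0 44 (by decide), a0 45 (by decide), hp, hq,
      ar_val p0, ar_agree a0 0 (show 17 ∉ [46] by decide), ar_agree a0 0 (show 51 ∉ [46] by decide), hL.1, asg,
      Expr.val, mulE_val, Mem.put_apply, p0.r14, e46]
    norm_num
    split_ifs <;> omega
  obtain ⟨e1, e2⟩ := he.step hg.sym hpq hc s1.2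
  have t1 : exec O pre C0 = exec O (set2 17 (V 11) (V 44) (V 45)) (exec O (dbl 6 20) (exec O mul
    (exec O dirn C0))) := rfl
  generalize exec O dirn C0 = C1 at *
  have a2 := exec_agree O mul C1
  have s2 : exec O mul C1 5 0 = C 5 0 * C1 47 0 := by
    have := rept_inv (O := O) (r := 47) (m := C1 47 0) (body := acc 58 (V 5)) (C := C1.put 58 0 0)
      (fun s M => M 5 0 = C 5 0 ∧ M 58 0 = C 5 0 * s) (by simp) (by
        have := (D.tbig 28 (by norm_num)).2.1
        simp only [Mem.put_apply, (p0.agree a1 (by decide)).r13]; norm_num; omega) (by decide)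
      (fun s M x h => by simpa using h) (by simp [a1 5 (by decide), a0 5]) fun s _ M h => by
        simp [exec, acc, asg, Expr.val, h.1, h.2, mul_add]
    simpa [mul, exec, asg, Expr.val] using this.2
  generalize exec O mul C1 = C2 at *
  have a3 := exec_agree O (dbl 6 20) C2
  have s3 := dbl_spec O 6 20 C2
  generalize exec O (dbl 6 20) C2 = C3 at *
  have b3 : Agree [46, 59, 47, 58, 5, 6] C C3 := (((a0.mono (by decide)).trans (a1.mono (by decide))).trans
    (a2.mono (by decide))).trans (a3.mono (by decide))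
  have p3 := hP.agree b3 (by decide)
  have l3 := hL.agree b3 (by decide) (by decide)
  rw [a2 6 (by decide), a1 6 (by decide), a0 6 (by decide), a2 20 (by decide), a1 20 (by decide), p0.r20,
    pow_add, mul_comm _ (2 ^ 2)] at s3
  have a4 := exec_agree O (set2 17 (V 11) (V 44) (V 45)) C3
  obtain ⟨s4, s5⟩ := set2_spec (O := O) (a := 17) (o := V 11) p3 (r := 44) (s := 45)
    (by rw [b3 44 (by decide), hp]) (by rw [b3 45 (by decide), hq]) (by decide)
  rw [V_val, p3.r11] at s4 s5
  rw [l3.2.1, a3 59 (by decide), a2 59 (by decide), s1.1] at s4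
  rw [← t1] at a4 s4 s5
  have s6 : D.ar (exec O pre C0) 17 0 = W := by
    rw [← l3.1]; funext u v; exact s5 _ (Or.inl (by have := D.cell_lt u v; omega))
  have s7 : exec O pre C0 19 0 = 0 := by rw [a4 19 (by decide), l3.2.2]
  refine lgT.seq (TR.det (Q := (· = exec O pre C0)) rfl (by decide) (by decide) (funext fun i => ?_) rfl) ?_
  · rw [(hL.agree a0 (by decide) (by decide)).om, ← s6]
    funext p q; simp only [Cf.om, s7, ar, not_lt_zero', if_false]
  rintro _ rfl
  generalize exec O pre C0 = C4 at *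
  have p4 := p3.agree a4 (by decide)
  refine lgT.seq (conv_tr p4 hg hg' (Gr.near_step hg.sym hpq (by omega))
    (fun u v => by rw [← s6, ar, zero_add]) (fun u v => by rw [← s4, ar]) s7) ?_
  rintro _ rfl
  have a5 := agree_put C4 19 0 (D.G.N * D.P)
  have e19 : C4.put 19 0 (D.G.N * D.P) 19 0 = D.G.N * D.P := by simp
  generalize C4.put 19 0 (D.G.N * D.P) = C5 at *
  obtain ⟨s8, s9⟩ := set2_spec (O := O) (a := 17) (o := .lit 0) (p4.agree a5 (by decide)) (r := 44) (s := 45)
    (by rw [a5 44 (by decide), a4 44 (by decide), b3 44 (by decide), hp])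
    (by rw [a5 45 (by decide), a4 45 (by decide), b3 45 (by decide), hq]) (by decide)
  simp only [Expr.val, zero_add] at s8 s9
  rw [ar_agree a5 0 (by decide), s6, a5 59 (by decide), a4 59 (by decide), a3 59 (by decide),
    a2 59 (by decide), s1.1] at s8
  have l6 : D.Lay (exec O post C5) (upN W p q w) :=
    ⟨(ar_agree (agree_put _ 19 0 0) 0 (by decide)).trans s8, (ar_agree (agree_put _ 19 0 0) _ (by decide)).trans
      (funext₂ fun u v => (s9 _ (Or.inr (by omega))).trans (by rw [← s4, ar, a5 17 (by decide)])), by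
      simp [post, exec, asg, Expr.val]⟩
  refine TR.det rfl (by decide) (by decide) (funext fun i => ?_) ⟨l6, ?_⟩
  · rw [l6.om, ← s4]
    funext u v
    simp only [Cf.om, e19, ar, a5 17 (by decide), Nat.mul_lt_mul_right (Nat.two_pow_pos D.G.L), i.2, if_true]
  · rw [exec_frame _ _ _ 5 (by decide), exec_frame _ _ _ 6 (by decide), a5 5 (by decide), a5 6 (by decide),
      a4 5 (by decide), a4 6 (by decide), a3 5 (by decide), s2, s3]
    exact e1

theorem sweeps_tr (hP : D.Par C) (hL : D.Lay C W) (hs : ∀ u v, W u v = W v u) {τ : Fin D.ns → Fin D.ns → ℕ}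
    (hτ : D.ar C 51 0 = τ) (ts : ∀ u v, τ u v = τ v u) (hd : ∀ p q, p ≠ q → pos (W p q) (τ p q) D.G.b = τ p q)
    (hg : ∀ r < D.G.b, ∀ W', (∀ u v, W' u v = W' v u) → (∀ p q, p ≠ q → W' p q = pos (W p q) (τ p q) r ∨
      W' p q = pos (W p q) (τ p q) (r + 1)) → D.G.Good W') {k : ℕ} (he : D.G.Est W k (C 5 0) (C 6 0)) :
    D.TR O sweeps C (fun C' => ∃ W', D.Lay C' W' ∧ (∀ u v, W' u v = W' v u) ∧ (∀ p q, p ≠ q → W' p q = τ p q) ∧
      D.G.Est W' (k + D.G.b * (D.ns * D.ns)) (C' 5 0) (C' 6 0)) (D.G.b * (D.ns * (D.ns * D.G.t))) := by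
  let I : ℕ → Finset (ℕ × ℕ) → Mem → Prop := fun r S C' => D.Par C' ∧ D.ar C' 51 0 = τ ∧ ∃ W', D.Lay C' W' ∧
    (∀ u v, W' u v = W' v u) ∧ (∀ p q : Fin D.ns, p < q →
      W' p q = pos (W p q) (τ p q) (r + if (p.val, q.val) ∈ S then 1 else 0)) ∧
    D.G.Est W' (k + r * (D.ns * D.ns) + S.card) (C' 5 0) (C' 6 0)
  have st : ∀ r S C' C'', I r S C' → Agree [34, 44, 45] C' C'' → I r S C'' := by
    rintro r S C' C'' ⟨a1, a2, W', a3, a4, a5, a6⟩ a
    exact ⟨a1.agree a (by decide), (ar_agree a 0 (by decide)).trans a2, W', a3.agree a (by decide) (by decide),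
      a4, a5, by rwa [a 5 (by decide), a 6 (by decide)]⟩
  have sy : ∀ {W' : Fin D.ns → Fin D.ns → ℕ} {A : ℕ → ℕ → ℕ → Prop}, (∀ u v, W' u v = W' v u) →
      (∀ p q, p < q → A (W' p q) (W p q) (τ p q)) → ∀ p q, p ≠ q → A (W' p q) (W p q) (τ p q) :=
    fun h1 h2 p q hpq => (lt_or_gt_of_ne hpq).elim (h2 p q) fun h => by rw [h1, hs, ts]; exact h2 q p h
  have := (lgT (D := D) (O := O)).loop (k := 11) (C := C) (e := D.ns * (D.ns * D.G.t))
    (p := for2 44 45 8 (.ite (mn (ltE (V 44) (V 45)) (neE wE tE)) stepW skip)) (fun r => I r ∅) (by decide)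
    ⟨hP, hτ, W, hL, hs, fun p q _ => by simp only [pos]; split_ifs <;> simp_all <;> omega, by simpa using he⟩ (by
      rw [hP.r11]
      intro r hr C1 h1
      refine lgT.mono (lgT.for2 (I r) (by decide) (by decide) (by decide) h1.1.r8 (by decide) (by decide)
        (by decide) (by decide) (by decide) (by decide)
        (fun S C' x a => st r S C' _ a (agree_put' (Agree.refl _ _) (by decide) _ _))
        (fun S C' x a => st r S C' _ a (agree_put' (Agree.refl _ _) (by decide) _ _)) h1 ?_) ?_ le_rfl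
      · rintro S - p hp q hq hS C2 b1 b2 ⟨a1, a2, W', a3, a4, a5, a6⟩
        lift p to Fin D.ns using hp
        lift q to Fin D.ns using hq
        have gd : ∀ (S : Finset (ℕ × ℕ)) W', (∀ u v, W' u v = W' v u) → (∀ p q : Fin D.ns, p < q →
            W' p q = pos (W p q) (τ p q) (r + if (p.val, q.val) ∈ S then 1 else 0)) → D.G.Good W' :=
          fun S W' c1 c2 => hg r hr W' c1 (sy (A := fun x y z => x = pos y z r ∨ x = pos y z (r + 1)) c1
            fun p q h => by rw [c2 p q h]; split_ifs <;> simp)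
        have v1 : (mn (ltE (V 44) (V 45)) (neE wE tE)).val C2 = 0 ↔ q ≤ p ∨ W' p q = τ p q := by
          simp only [mn_val, Nat.min_eq_zero_iff, ltE_eq, neE_eq, V_val, wE, tE, c2_val, b1, b2, ar_val a1, a2,
            a3.1, Fin.val_fin_le]
        refine TR.ite (by decide) (fun z => ?_) fun z => TR.skip (st r _ C2 _ ⟨a1, a2, W', a3, a4,
          fun u v h => ?_, by rw [card_insert_of_notMem hS]; exact a6.mono a4 (by omega)⟩
          (agree_put' (Agree.refl _ _) (by decide) _ _))
        · rw [Ne, v1, not_or, not_le] at z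
          have c1 := a5 p q z.1
          rw [if_neg hS] at c1
          have c2 : ∀ u v : Fin D.ns, u < v → upN W' p q (pos (W p q) (τ p q) (r + 1)) u v = pos (W u v) (τ u v)
              (r + if (u.val, v.val) ∈ insert (p.val, q.val) S then 1 else 0) := fun u v h => by
            simp only [upN, mem_insert, Prod.mk.injEq, Fin.val_inj]
            by_cases c : u = p ∧ v = q
            · simp [c]
            · rw [if_neg (by rintro (c' | ⟨rfl, rfl⟩); exacts [c c', lt_asymm h z.1]), a5 u v h]; simp [c]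
          refine lgT.mono (stepW_tr a1 a3 (gd S W' a4 a5) z.1.ne b1 b2 ?_ (gd _ _ (upN_sym a4 _ _ _) c2) a6)
            (fun C3 c3 c4 => ⟨a1.agree c4 (by decide), (ar_agree c4 0 (by decide)).trans a2, _, c3.1,
              upN_sym a4 _ _ _, c2, by rw [card_insert_of_notMem hS]; exact c3.2⟩) le_rfl
          have := z.2
          rw [a2]
          simp only [pos] at c1 ⊢
          split_ifs at c1 ⊢ <;> omega
        · rw [a5 u v h]
          simp only [mem_insert, Prod.mk.injEq, Fin.val_inj]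
          by_cases c : u = p ∧ v = q
          · obtain ⟨rfl, rfl⟩ := c
            have c1 := a5 u v h
            have := (v1.1 z).resolve_left (not_le.2 h)
            simp only [hS, and_self, true_or, if_true, if_false, pos] at c1 ⊢
            split_ifs at c1 ⊢ <;> omega
          · simp [c]
      · rintro C2 ⟨a1, a2, W', a3, a4, a5, a6⟩ -
        exact ⟨a1, a2, W', a3, a4, fun p q h => by simpa using a5 p q h, by
          simpa [add_mul, add_assoc] using a6⟩)
  rw [hP.r11] at this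
  refine lgT.mono this ?_ le_rfl
  rintro C' ⟨-, -, W', a3, a4, a5, a6⟩ -
  exact ⟨W', a3, a4, fun p q h => (sy (A := fun x y z => x = pos y z D.G.b) a4
    (fun p q h => by simpa using a5 p q h) p q h).trans (hd p q h), by simpa using a6⟩

end Cf

end Vale.Agent.P308
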