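import Vale.Agent.P308.Ctl1

/-! P308: target weights, hole weights, the outer loop and the final normalization. -/

namespace Vale.Agent.P308
open Finset Function Relation Vale.Agent.P317 Vale.Agent.P328
attribute [-instance] Nat.decidableForallFin

theorem put_self (m : Mem) (a i x : ℕ) : m.put a i x a = update (m a) i x := by simp [Mem.put]

structure Clo {n : ℕ} (k : ℕ) (a U : Fin n → Fin n → ℕ) : Prop where
  ge : ∀ u v, a u v ≤ U u v
  sym : ∀ u v, U u v = U v u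
  ult : ∀ w : Fin n, w.val < k → ∀ u v, min (U u w) (U w v) ≤ U u v
  rch : ∀ u v, TransGen (fun x y => U u v ≤ a x y) u v

theorem Clo.step {n : ℕ} {a U : Fin n → Fin n → ℕ} {k : Fin n} (h : Clo k a U) :
    Clo (k + 1) a fun u v => max (U u v) (min (U u k) (U k v)) := by
  refine ⟨fun u v => (h.ge u v).trans (le_max_left _ _), fun u v => ?_, fun w hw u v => ?_, fun u v => ?_⟩
  · rw [h.sym u v, h.sym u k, h.sym k v, min_comm]
  · by_cases e : w = k
    · subst e; omega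
    · have a := h.ult w (by have := Fin.val_ne_of_ne e; omega)
      have := a u v; have := a k v; have := a u k
      omega
  · rcases le_total (U u v) (min (U u k) (U k v)) with e | e
    · rw [max_eq_right e]
      exact (TransGen.mono (fun _ _ => (min_le_left _ _).trans) _ _ (h.rch u k)).trans
        (TransGen.mono (fun _ _ => (min_le_right _ _).trans) _ _ (h.rch k v))
    · rw [max_eq_left e]; exact h.rch u v

namespace Cf
variable {D : Cf} {k0 : ℕ} {O : Bool → Set (Fin k0) → Prop} {C M : Mem} {W ℓ U : Fin D.ns → Fin D.ns → ℕ}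
  {σ : Fin D.ns → ℕ}

theorem fillF (hP : D.Par C) (a o : ℕ) {body : Prog} (pr : Prog) (e : pr = for2 40 41 8 body) (S : List ℕ)
    (F : Fin D.ns → Fin D.ns → ℕ)
    (hd : a ≠ 40 ∧ a ≠ 41 ∧ 40 ∉ body.wr ∧ 41 ∉ body.wr ∧ 8 ∉ body.wr ∧ 40 ∈ S ∧ 41 ∈ S ∧
      (∀ x ∈ body.wr, x ∈ S) ∧ ∀ x ∈ SA, x ∉ S)
    (h : ∀ (p q : Fin D.ns) C', Agree S C C' → D.Par C' → C' 40 0 = p → C' 41 0 = q →
      (∀ p' q', D.ar C' a o p' q' = F p' q' ∨ D.ar C' a o p' q' = D.ar C a o p' q') →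
      exec O body C' a = update (C' a) (o + (C' 16 p + q)) (F p q)) :
    D.ar (exec O pr C) a o = F ∧ ∀ x, x < o ∨ o + D.G.b ≤ x → exec O pr C a x = C a x := by
  subst e
  obtain ⟨a1, a2, a3, a4, a5, a6, a7, a8, a9⟩ := hd
  have := fill2 (O := O) (o := o) (P := D.P) S
    (fun p q => if h : p < D.ns ∧ q < D.ns then F ⟨p, h.1⟩ ⟨q, h.2⟩ else 0) hP.r8 (by have := D.nP; omega)
    (by decide) (by decide) (by decide) a1 a2 a3 a4 a5 a6 a7 a8 fun p hp q hq C' b1 b2 b3 _ b5 => by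
      rw [dif_pos ⟨hp, hq⟩, h ⟨p, hp⟩ ⟨q, hq⟩ C' b1 (hP.agree b1 a9) b2 b3 fun p' q' => by
        simpa [ar] using b5 p' p'.2 q' q'.2, (hP.agree b1 a9).mq]
  exact ⟨funext₂ fun p q => by simpa [ar] using this.1 p p.2 q q.2,
    by rw [show D.G.b = D.P * D.P from D.G.b_eq]; exact this.2⟩

theorem o_iff (p : Fin D.ns) : p = D.G.o ↔ p.val = 0 := by rw [← Fin.val_inj, D.o0]

theorem target_spec (hP : D.Par C) (hl : D.ar C 48 0 = ℓ) (hσ : ∀ p : Fin D.ns, C 49 p = σ p)
    (hs : ∀ u v, ℓ u v = ℓ v u) :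
    ∃ U, IsClo (D.G.a0 ℓ σ) U ∧ D.ar (exec O target C) 51 0 = D.G.tg ℓ U σ := by
  simp only [target, exec_seq]
  have s1 := (fillF (O := O) hP 50 0 tgA rfl [50, 40, 41] (D.G.a0 ℓ σ) (by decide)
    fun p q C' b1 b2 b3 b4 _ => by
      simp only [exec, ite_apply, neE_eq, mn_val, Nat.min_eq_zero_iff, ltE_eq, inn, V_val, b3, b4, b2.r0, b2.r11,
        put_self, ix_val, Expr.val, c2_val, mulE_val, ar_val b2, ar_agree b1 0 (show 48 ∉ _ by decide), hl,
        b1 49 (by decide), hσ, zero_add, Gr.a0, D.re_iff, Ne, o_iff, Fin.val_inj]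
      split_ifs <;> first | rfl | omega).1
  have a1 := exec_agree O tgA C
  generalize exec O tgA C = C1 at *
  have s2 := (lgD (O := O)).forI (e := 0) (i := 42) (k := 8) (C := C1) (body := for2 40 41 8
      (.set 50 (ix (V 40) (V 41)) (mx (c2 50 (V 40) (V 41)) (mn (c2 50 (V 40) (V 42)) (c2 50 (V 42) (V 41))))))
    (fun s C' => D.Par C' ∧ Clo s (D.G.a0 ℓ σ) (D.ar C' 50 0)) trivial trivial (hP.agree a1 (by decide)).r8
    (by decide) (by decide) (fun s C' x h => ⟨h.1.agree (agree_put _ _ _ _) (by decide), by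
      rw [ar_agree (agree_put _ _ _ _) 0 (by decide)]; exact h.2⟩) ⟨hP.agree a1 (by decide), by
      rw [s1]; exact ⟨fun _ _ => le_rfl, Gr.a0_sym hs, by simp, fun _ _ => .single le_rfl⟩⟩
    fun s hs C2 c1 ⟨c2, c3⟩ => ⟨c2.exec _ (by decide), by
      lift s to Fin D.ns using hs
      rw [(fillF c2 50 0 _ rfl [50, 40, 41] _ (by decide) fun p q C' b1 b2 b3 b4 b5 => ?_).1]
      · exact c3.step
      have e1 := b5 p q
      have e2 := b5 p s
      have e3 := b5 s q
      simp only [exec, put_self, ix_val, mx_val, mn_val, c2_val, V_val, b3, b4, b1 42 (by decide), c1,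
        ar_val b2, zero_add]
      congr 1
      omega⟩
  change D.Par (exec O tgB C1) ∧ Clo _ _ (D.ar (exec O tgB C1) 50 0) at s2
  have a2 := exec_agree O tgB C1
  generalize exec O tgB C1 = C2 at *
  have a3 : Agree [50, 40, 41, 42] C C2 := (a1.mono (by decide)).trans (a2.mono (by decide))
  refine ⟨_, ⟨s2.2.ge, s2.2.sym, fun u v w => s2.2.ult v v.2 u w, s2.2.rch⟩,
    (fillF s2.1 51 0 tgC rfl [51, 40, 41] _ (by decide) fun p q C' b1 b2 b3 b4 _ => ?_).1⟩
  rw [exec, ite_apply, Expr.val]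
  simp only [exec, Nat.add_eq_zero_iff, neE_eq, mn_val, mx_val, ltE_eq, V_val, b3, b4, b2.r0, b2.r11,
    put_self, ix_val, Expr.val, c2_val, mulE_val, ar_val b2, ar_agree b1 0 (show 48 ∉ _ by decide), tgE, usE,
    ar_agree b1 0 (show 50 ∉ _ by decide), ar_agree a3 0 (show 48 ∉ _ by decide), hl, b2.bs, b2.ot, b2.mt, b2.r9,
    b1 49 (by decide), a3 49 (by decide), hσ, zero_add, Gr.tg, Gr.Us, D.re_iff, not_lt, Fin.val_inj]
  split_ifs <;> rfl

theorem pe_congr {W W' : Fin D.ns → Fin D.ns → ℕ} (h : ∀ p q, p ≠ q → W p q = W' p q) :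
    pe (e2 W) = pe (e2 W') := by
  funext u v; simp only [pe, pr, wt_congr h]

theorem good_tg {s : ℕ} (h : D.G.St ℓ σ s) (hs : s ≤ 5 * D.G.L) (hU : IsClo (D.G.a0 ℓ σ) U)
    (sW : ∀ u v, W u v = W v u) (hd : ∀ p q, p ≠ q →
      W p q ≤ D.G.tg ℓ U σ p q + 22 * D.G.L ∧ D.G.tg ℓ U σ p q ≤ W p q + 22 * D.G.L) : D.G.Good W :=
  ⟨sW, h.nice hs hU sW hd, fun p q e => by
    have := h.tg_le hs hU e; have := hd p q e; have := D.G.hb; omega⟩

theorem sigma_tr (hP : D.Par C) (hL : D.Lay C W) (h : D.G.St ℓ σ (5 * D.G.L)) (hU : IsClo (D.G.a0 ℓ σ) U)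
    (sW : ∀ u v, W u v = W v u) (hW : ∀ p q, p ≠ q → W p q = D.G.tg ℓ U σ p q)
    (hσ : ∀ p : Fin D.ns, C 49 p = σ p) :
    D.TR O sigma C (fun C' => D.G.St ℓ (fun p => C' 49 p) 3) (D.n * D.G.t) := by
  have hg := good_tg h le_rfl hU sW fun p q e => by rw [hW p q e]; omega
  let I : ℕ → Mem → Prop := fun s C' => D.Par C' ∧ D.Lay C' W ∧ C' 44 0 = 0 ∧
    (∀ p : Fin D.ns, p.val = 0 ∨ s ≤ p.val → C' 49 p = σ p) ∧ ∀ v : Fin D.ns, v.val ≠ 0 →
    v.val < s → D.G.Z (e2 ℓ) ∅ ≤ 4 ^ (C' 49 v + 3) * D.G.Z (e2 ℓ) {D.G.o, v} ∧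
      4 ^ C' 49 v * D.G.Z (e2 ℓ) {D.G.o, v} ≤ 4 ^ 3 * D.G.Z (e2 ℓ) ∅
  refine lgT.mono (lgT.seq (lgT.zero C (by decide)) (e' := D.n * D.G.t) (Q' := I D.n) ?_) ?_ (by omega)
  · rintro _ rfl
    have a0 := agree_put C 44 0 0
    refine lgT.forI (i := 45) (k := 0) I
      (by decide) (by decide) (hP.agree a0 (by decide)).r0 (by decide) (by decide)
      (fun s C' x ⟨a1, a2, a3⟩ => ⟨a1.agree (agree_put _ _ _ _) (by decide),
        a2.agree (agree_put _ _ _ _) (by decide) (by decide), by simpa using a3⟩)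
      ⟨hP.agree a0 (by decide), hL.agree a0 (by decide) (by decide), by simp, fun p _ => by simp [hσ], by simp⟩ ?_
    rintro s hs C1 b1 ⟨b2, b3, b4, b5, b6⟩
    refine TR.ite (by decide) (fun z => ?_) fun z => TR.skip ⟨b2.agree (agree_put _ _ _ _) (by decide),
      b3.agree (agree_put _ _ _ _) (by decide) (by decide), by simpa using b4, fun p hp => by
        simpa using b5 p (by omega), fun v h1 h2 => by rw [V_val] at z; omega⟩
    rw [V_val, b1] at z
    lift s to Fin D.ns using hs.trans_le D.nle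
    have ne : s ≠ D.G.o := by rwa [Ne, o_iff]
    refine lgT.mono (lgT.seq (batch_tr b2 b3.om hg (b4.trans D.o0.symm) b1) (e' := 0) ?_) (fun _ a _ => a)
      (by have := (D.tbig 0 (by norm_num)).2.2; omega)
    rintro _ ⟨c, rfl, hc⟩
    rw [pe_congr hW] at hc
    obtain ⟨c0, c1⟩ := h.upd (B := D.G.B) le_rfl hU ((D.re_iff s).2 hs) ne (Nat.two_pow_pos _) hc
    have a1 := agree_put C1 46 0 c
    have e46 : C1.put 46 0 c 46 0 = c := by simp
    generalize C1.put 46 0 c = C2 at *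
    have a2 : Agree [46, 58, 47, 49] C1 (exec O sigU C2) := agree_exec (a1.mono (by decide)) O _ (by decide)
    refine TR.det' (by decide) ⟨b2.agree a2 (by decide), b3.agree a2 (by decide) (by decide),
      by rw [a2 44 (by decide), b4], ?_⟩
    have p2 := b2.agree a1 (by decide)
    obtain ⟨j, -, ⟨d1, d2, d3, d4⟩, d5⟩ := execLoop_guard (ltE (V 58) (V 14))
      (exec O (.seq (asg 58 (mulE 4 (V 58))) (inc 47))) (fun j M => Agree [58, 47] C2 M ∧ M 58 0 = c * 4 ^ j ∧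
        M 47 0 = D.G.tg ℓ U σ D.G.o s + j ∧ (j = 0 ∨ c * 4 ^ j < 4 * D.G.B)) D.G.t
      (fun j _ M ⟨d1, d2, d3, _⟩ d5 => ⟨agree_exec d1 O _ (by decide), by
        simp [exec, asg, inc, Expr.val, d2, pow_succ]; ring, by simp [exec, asg, inc, Expr.val, d3, add_assoc], by
        rw [ltE_ne, V_val, V_val, d1 14 (by decide), p2.r14, d2] at d5
        rw [pow_succ, ← mul_assoc]; omega⟩) (exec O (asg 47 wE) (exec O (asg 58 (V 46)) C2))
      ⟨agree_exec (agree_exec (Agree.refl _ _) O _ (by decide)) O _ (by decide), by simp [exec, asg, Expr.val, e46],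
        by
          rw [← hW _ _ ne.symm, ← b3.1, ← ar_agree a1 0 (by decide), ← ar_val p2, D.o0]
          simp [exec, asg, Expr.val, wE, a1 44, a1 45, b4, b1], Or.inl rfl⟩
    have e1 : exec O sigU C2 49 = update (C1 49) s (D.G.tg ℓ U σ D.G.o s + j) := by
      simp only [sigU, exec_seq]
      rw [exec, exec, V_val, V_val, V_val, exec_frame _ _ _ 13 (by decide), exec_frame _ _ _ 13 (by decide), p2.r13,
        put_self, d1 49 (by decide), d1 45 (by decide), d3, a1 49 (by decide), a1 45 (by decide), b1]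
    have e2 := c1 j (by
      rcases d5 with d5 | d5
      · have := (D.tbig 1 (by norm_num)).2.1
        have := Nat.lt_pow_self (n := j) (show 1 < 4 by norm_num)
        nlinarith
      · rwa [ltE_eq, V_val, V_val, d1 14 (by decide), p2.r14, d2] at d5) d4
    rw [e1]
    refine ⟨fun p hp => by rw [update_of_ne (by omega)]; exact b5 p (by omega), fun v h1 h2 => ?_⟩
    by_cases e : v = s
    · rw [e, update_self]; exact e2
    · have := Fin.val_ne_of_ne e
      rw [update_of_ne this]; exact b6 v h1 (by omega)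
  · rintro C' ⟨-, -, -, a4, a5⟩ -
    exact ⟨h.sym, h.rng, h.zero, by rw [a4 _ (Or.inl D.o0), h.so], fun z hz => by
      rw [a4 z (Or.inr (by rwa [D.re_iff, not_lt] at hz)), h.sz z hz],
      fun v rv hv => a5 v (by rwa [Ne, o_iff] at hv) ((D.re_iff v).1 rv)⟩

end Cf

end Vale.Agent.P308
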