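import Vale.Agent.P308.Ctl2

/-! P308: the outer loop, the final normalization and the initial state. -/

namespace Vale.Agent.P308
open Finset Function Relation Vale.Agent.P317 Vale.Agent.P328
attribute [-instance] Nat.decidableForallFin

namespace Cf
variable (D : Cf)

open Classical in
noncomputable def gl (u v : Fin D.ns) : ℕ := if D.adj u v then 2 * D.G.b else D.G.b

def Inv (C : Mem) (k : ℕ) (ℓ : Fin D.ns → Fin D.ns → ℕ) : Prop := D.Par C ∧ ∃ σ U W, D.G.St ℓ σ (5 * D.G.L) ∧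
  IsClo (D.G.a0 ℓ σ) U ∧ D.ar C 48 0 = ℓ ∧ (∀ p : Fin D.ns, C 49 p = σ p) ∧ D.Lay C W ∧
  (∀ u v, W u v = W v u) ∧ (∀ p q, p ≠ q → W p q = D.G.tg ℓ U σ p q) ∧ D.G.Est W k (C 5 0) (C 6 0)

abbrev K1 : ℕ := D.G.b * (D.ns * D.ns)
abbrev T1 : ℕ := D.G.b * (D.ns * (D.ns * D.G.t))

open Classical in
noncomputable def cnt : ℕ := ((D.G.Fam ∅).filter fun f => ∀ u, D.G.re u → D.adj u (f u)).card

def Fine (ε : ℝ) (M : Mem) : Prop :=
  M 6 0 ≠ 0 ∧ (1 - ε) * D.cnt * M 6 0 ≤ M 5 0 ∧ M 5 0 ≤ (1 + ε) * D.cnt * M 6 0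

variable {D} {k0 : ℕ} {O : Bool → Set (Fin k0) → Prop} {C M : Mem} {ℓ : Fin D.ns → Fin D.ns → ℕ} {k : ℕ}

theorem Inv.agree (h : D.Inv C k ℓ) (a : Agree [34, 63, 64] C M) {k' : ℕ} (hk : k ≤ k') : D.Inv M k' ℓ := by
  obtain ⟨a1, σ, U, W, a2, a3, a4, a5, a6, a7, a8, a9⟩ := h
  exact ⟨a1.agree a (by decide), σ, U, W, a2, a3, (ar_agree a 0 (by decide)).trans a4,
    by rwa [a 49 (by decide)], a6.agree a (by decide) (by decide), a7, a8,
    by rw [a 5 (by decide), a 6 (by decide)]; exact a9.mono a7 hk⟩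

theorem lstep_spec (hP : D.Par C) {u v : Fin D.ns} (hu : C 63 0 = u) (hv : C 64 0 = v) (ru : u.val < D.n)
    (rv : v.val < D.n) :
    D.ar (exec O lstep C) 48 0 = upN (D.ar C 48 0) u v (pos (D.ar C 48 0 u v) (D.gl u v) 1) := by
  simp only [lstep, exec_seq]
  generalize hM : exec O (.ite (ltE lE _) _ _) _ = M
  have a : Agree [59, 34] C M :=
    hM ▸ agree_exec (agree_exec (Agree.refl _ _) O _ (by decide)) O _ (by decide)
  have e : M 59 0 = pos (D.ar C 48 0 u v) (D.gl u v) 1 := by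
    generalize hN : exec O (.ite (.get 7 _) _ _) C = N at hM
    have b : Agree [59] C N := hN ▸ agree_exec (Agree.refl _ _) O _ (by decide)
    have e : N 59 0 = D.gl u v := by
      have := hP.adj u ru v rv
      rw [← hN, exec, ite_apply, ite_apply, gl]
      simp only [Expr.val, V_val, hu, hv, hP.mn u (D.lt u)]
      split_ifs <;> simp_all [exec, asg, Expr.val, hP.r11]
    have e' : lE.val N = D.ar C 48 0 u v := by
      rw [lE, c2_val, V_val, V_val, b 63 (by decide), b 64 (by decide), hu, hv, ar_val (hP.agree b (by decide)),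
        ar_agree b 0 (by decide)]
    rw [← hM]
    simp only [exec, ite_apply, ltE_eq, V_val, e, e', asg, skip, Expr.val, Mem.put_apply, pos]
    norm_num
    split_ifs <;> omega
  have := (set2_spec (O := O) (a := 48) (o := .lit 0) (hP.agree a (by decide)) (r := 63) (s := 64)
    (by rw [a 63 (by decide), hu]) (by rw [a 64 (by decide), hv]) (by decide)).1
  rwa [e, Expr.val, ar_agree a 0 (by decide)] at this

theorem round_tr (h : D.Inv C k ℓ) {u v : Fin D.ns} (hu : C 63 0 = u) (hv : C 64 0 = v) (ru : u.val < D.n)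
    (rv : v.val < D.n) (huv : u ≠ v) : D.TR O (.seq sigma (.seq (.seq lstep target) sweeps)) C
      (fun C' => D.Inv C' (k + D.K1) (upN ℓ u v (pos (ℓ u v) (D.gl u v) 1))) (D.n * D.G.t + D.T1) := by
  obtain ⟨a1, σ, U, W, a2, a3, a4, a5, a6, a7, a8, a9⟩ := h
  have hL := D.G.hL
  have hb := D.G.hb
  refine lgT.seq (lgT.mono (sigma_tr a1 a6 a2 a3 a7 a8 a5) (fun C' a b => And.intro a b) le_rfl) ?_
  rintro C1 ⟨b1, b2⟩
  generalize hc : pos (ℓ u v) (D.gl u v) 1 = c
  have r1 := (D.re_iff u).2 ru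
  have r2 := (D.re_iff v).2 rv
  have c1 : (c = ℓ u v ∨ c = ℓ u v + 1 ∨ c + 1 = ℓ u v) ∧ D.G.b ≤ c ∧ c ≤ 2 * D.G.b := by
    have := a2.rng u v r1 r2 huv
    simp only [pos, gl] at hc
    split_ifs at hc <;> omega
  have c2 : ∀ x y, ℓ x y ≤ upN ℓ u v c x y + 1 ∧ upN ℓ u v c x y ≤ ℓ x y + 1 := fun x y => by
    have := a2.sym u v
    unfold upN; split_ifs with e
    · rcases e with ⟨rfl, rfl⟩ | ⟨rfl, rfl⟩ <;> omega
    · omega
  have c3 : D.G.St (upN ℓ u v c) (fun p => C1 49 p) (5 * D.G.L) := by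
    rcases c1.1 with e | e
    · convert b1.mono (show 3 ≤ 5 * D.G.L by omega)
      funext x y
      unfold upN; split_ifs with e'
      · rcases e' with ⟨rfl, rfl⟩ | ⟨rfl, rfl⟩
        exacts [e, e.trans (a2.sym _ _)]
      · rfl
    · exact (b1.step r1 r2 e c1.2.1 c1.2.2).mono (by omega)
  have p1 := a1.agree b2 (by decide)
  have s1 := lstep_spec (O := O) p1 (by rw [b2 63 (by decide), hu]) (by rw [b2 64 (by decide), hv]) ru rv
  rw [ar_agree b2 0 (by decide), a4, hc] at s1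
  obtain ⟨U', c4, c5⟩ := target_spec (O := O) (p1.exec lstep (by decide)) s1
    (fun p => by rw [exec_frame _ _ _ 49 (by decide)]) c3.sym
  have b3 := exec_agree O (.seq lstep target) C1
  have s2 : D.ar (exec O (.seq lstep target) C1) 48 0 = _ :=
    (ar_agree (exec_agree O target _) 0 (by decide)).trans s1
  rw [← exec_seq] at c5
  refine lgT.mono (lgT.seq (TR.det' (Q := (· = exec O (.seq lstep target) C1)) (by decide +kernel) rfl) (e' := D.T1) ?_)
    (fun _ a _ => a) (by omega)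
  rintro _ rfl
  generalize exec O (.seq lstep target) C1 = C2 at *
  have d : ∀ p q, p ≠ q → W p q ≤ D.G.tg (upN ℓ u v c) U' (fun p => C1 49 p) p q + 22 * D.G.L ∧
      D.G.tg (upN ℓ u v c) U' (fun p => C1 49 p) p q ≤ W p q + 22 * D.G.L := fun p q e => by
    have e0 := b1.close a2
    rw [add_comm 3] at e0
    have e1 := Gr.tg_lip a3 c4 (fun x y => (c2 x y).1) (a2.close b1) e0 p q
    have e2 := Gr.tg_lip c4 a3 (fun x y => (c2 x y).2) e0 (a2.close b1) p q
    rw [a8 p q e]; omega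
  refine lgT.mono (sweeps_tr (p1.agree b3 (by decide)) ((a6.agree b2 (by decide) (by decide)).agree b3
    (by decide) (by decide)) a7 c5 (Gr.tg_sym c3.sym c4.sym) (fun p q e => ?_)
    (fun r _ W' e1 e2 => good_tg c3 le_rfl c4 e1 fun p q e => ?_) (k := k) ?_) ?_ le_rfl
  · have := d p q e
    simp only [pos]; split_ifs <;> omega
  · have := d p q e
    have := e2 p q e
    simp only [pos] at this; split_ifs at this <;> omega
  · rwa [b3 5 (by decide), b3 6 (by decide), b2 5 (by decide), b2 6 (by decide)]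
  · rintro C3 ⟨W', e1, e2, e3, e4⟩ b4
    exact ⟨(p1.agree b3 (by decide)).agree b4 (by decide), _, U', W', c3, c4, (ar_agree b4 0 (by decide)).trans s2,
      fun p => by rw [b4 49 (by decide), b3 49 (by decide)], e1, e2, e3, e4⟩

theorem outer_tr (h : D.Inv C k D.G.l0) (as : ∀ u v, D.adj u v → D.adj v u) : D.TR O outer C
    (fun C' => ∃ ℓ, D.Inv C' (k + D.G.b * (D.n * D.n) * D.K1) ℓ ∧
      ∀ u v, D.G.re u → D.G.re v → u ≠ v → ℓ u v = D.gl u v) (D.G.b * (D.n * (D.n * (D.n * D.G.t + D.T1)))) := by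
  let I : ℕ → Finset (ℕ × ℕ) → Mem → Prop := fun r S C' => ∃ ℓ, D.Inv C' (k + (r * (D.n * D.n) + S.card) * D.K1) ℓ ∧
    ∀ u v : Fin D.ns, u < v → v.val < D.n →
      ℓ u v = pos (D.G.l0 u v) (D.gl u v) (r + if (u.val, v.val) ∈ S then 1 else 0)
  have := (lgT (D := D) (O := O)).loop (k := 11) (C := C) (e := D.n * (D.n * (D.n * D.G.t + D.T1)))
    (p := for2 63 64 0 (.ite (ltE (V 63) (V 64)) (.seq sigma (.seq (.seq lstep target) sweeps)) skip))
    (fun r => I r ∅) (by decide)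
    ⟨_, by simpa using h, fun p q _ _ => by simp only [pos]; split_ifs <;> simp_all <;> omega⟩ (by
      rw [h.1.r11]
      intro r hr C1 h1
      refine lgT.mono (lgT.for2 (I r) (by decide) (by decide) (by decide) h1.choose_spec.1.1.r0 (by decide)
        (by decide) (by decide) (by decide) (by decide) (by decide)
        (fun S C' x ⟨ℓ, a, b⟩ => ⟨ℓ, a.agree (agree_put' (Agree.refl _ _) (by decide) _ _) le_rfl, b⟩)
        (fun S C' x ⟨ℓ, a, b⟩ => ⟨ℓ, a.agree (agree_put' (Agree.refl _ _) (by decide) _ _) le_rfl, b⟩) h1 ?_)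
        ?_ le_rfl
      · rintro S - p hp q hq hS C2 b1 b2 ⟨ℓ, a1, a2⟩
        lift p to Fin D.ns using hp.trans_le D.nle
        lift q to Fin D.ns using hq.trans_le D.nle
        refine TR.ite (by decide) (fun z => ?_) fun z => TR.skip ⟨ℓ, a1.agree (agree_put' (Agree.refl _ _)
          (by decide) _ _) (by rw [card_insert_of_notMem hS]; gcongr; omega), fun u v h h' => ?_⟩
        · rw [ltE_ne, V_val, V_val, b1, b2, Fin.val_fin_lt] at z
          refine lgT.mono (round_tr a1 b1 b2 hp hq z.ne) (fun C3 c3 _ => ⟨_, by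
            rwa [card_insert_of_notMem hS, ← add_assoc, add_one_mul, ← add_assoc], fun u v h h' => ?_⟩) le_rfl
          simp only [upN, mem_insert, Prod.mk.injEq, Fin.val_inj]
          by_cases c : u = p ∧ v = q
          · obtain ⟨rfl, rfl⟩ := c
            rw [a2 u v h h']
            simp only [hS, and_self, true_or, if_true, if_false, pos]
            split_ifs <;> omega
          · rw [if_neg (by rintro (c' | ⟨rfl, rfl⟩); exacts [c c', lt_asymm h z]), a2 u v h h']; simp [c]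
        · rw [ltE_eq, V_val, V_val, b1, b2] at z
          rw [a2 u v h h']
          have : ¬ (u.val = p.val ∧ v.val = q.val) := by omega
          simp [this]
      · rintro C2 ⟨ℓ, a1, a2⟩ -
        exact ⟨ℓ, by simpa [add_mul, add_assoc] using a1, fun u v h h' => by
          simpa [h', show u.val < D.n from lt_trans h h'] using a2 u v h h'⟩)
  rw [h.1.r11] at this
  refine lgT.mono this ?_ le_rfl
  rintro C' ⟨ℓ, a1, a2⟩ -
  have key : ∀ u v, D.G.re u → D.G.re v → u < v → ℓ u v = D.gl u v := fun u v ru rv h => by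
    have := D.G.st0.rng u v ru rv h.ne
    rw [a2 u v h ((D.re_iff v).1 rv)]
    simp only [pos, gl, notMem_empty, if_false]
    split_ifs <;> omega
  refine ⟨ℓ, by simpa using a1, fun u v ru rv h => (lt_or_gt_of_ne h).elim (key u v ru rv) fun h => ?_⟩
  obtain ⟨-, σ, U, W, a, -⟩ := a1
  rw [a.sym, key v u rv ru h, gl, gl, show D.adj v u ↔ D.adj u v from ⟨as _ _, as _ _⟩]

theorem pow_rept {r : ℕ} (hr : r ≠ 47) (h : C 47 0 ≤ C 13 0) :
    exec O (rept 47 (acc r (V r))) C r 0 = C r 0 * 2 ^ C 47 0 :=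
  rept_inv (fun s M => M r 0 = C r 0 * 2 ^ s) rfl h (by simpa [acc, asg, Prog.wr] using hr.symm)
    (fun s M x h => by simpa [hr] using h) (by simp) fun s _ M h => by
      simp [exec, acc, asg, Expr.val, h, pow_succ]; ring

theorem sum_le (F : Fin D.ns → ℕ) (h : ∀ p, F p ≤ 28 * D.G.b) : ∑ p, F p ≤ D.G.t := by
  have a := sum_le_card_nsmul univ F _ fun p _ => h p
  have := (D.tbig 28 (by norm_num)).1
  have := Nat.mul_le_mul_right (28 * D.G.b) (show D.ns ≤ D.P by have := D.nP; omega)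
  simp only [card_univ, Fintype.card_fin, smul_eq_mul] at a
  linarith

theorem acc_fin (hP : D.Par C) {body : Prog} (pr : Prog) (e : pr = forI 40 8 body) (F : Fin D.ns → ℕ)
    (hd : 40 ∉ body.wr ∧ ∀ x ∈ body.wr, x ∈ [47, 40]) (h : ∀ (p : Fin D.ns) C', Agree [47, 40] C C' → D.Par C' →
      C' 40 0 = p → exec O body C' 47 0 = C' 47 0 + F p) :
    exec O pr (C.put 47 0 0) 47 0 = ∑ p, F p := by
  have a := agree_put' (Agree.refl [47, 40] C) (show 47 ∈ _ by decide) 0 0
  rw [e, accum [47, 40] (fun s => if h : s < D.ns then F ⟨s, h⟩ else 0) (hP.agree a (by decide)).r8 (by decide)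
    (by decide) hd.1 (by decide) hd.2 fun s hs C' b1 b2 => by
      rw [dif_pos hs, h ⟨s, hs⟩ C' (a.trans b1) (hP.agree (a.trans b1) (by decide)) b2], sum_range]
  simp

theorem finish_spec (h : D.Inv C k ℓ) (hl : ∀ u v, D.G.re u → D.G.re v → u ≠ v → ℓ u v = D.gl u v)
    (hk : k ≤ 2 ^ (10 * D.G.L)) {ε : ℝ} (hε : 1 ≤ ε * 2 ^ D.G.L) : D.Fine ε (exec O finish C) := by
  classical
  obtain ⟨a1, σ, U, W, a2, a3, a4, a5, a6, a7, a8, a9⟩ := h
  have hg := good_tg a2 le_rfl a3 a7 fun p q e => by rw [a8 p q e]; omega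
  have s1 := acc_fin (O := O) a1 (forI 40 8 (.ite (ltE (V 40) (V 0)) (acc 47 (mulE 2 (V 11)))
    (acc 47 (c2 17 (V 40) (.get 54 (V 40)))))) rfl (fun p => if D.G.re p then 2 * D.G.b else W p (D.G.mt.1 p))
    (by decide) fun p C' b1 b2 b3 => by
      simp only [exec, ite_apply, ltE_eq, acc, asg, Expr.val, V_val, b3, b2.r0, b2.r11, b2.mt, mulE_val, c2_val,
        ar_val b2, ar_agree b1 0 (show 17 ∉ _ by decide), a6.1, D.re_iff, Mem.put_apply, and_self, if_true]
      split_ifs <;> omega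
  simp only [finish, exec_seq]
  rw [show exec O (asg 47 (.lit 0)) C = C.put 47 0 0 from rfl]
  have b1 := agree_exec (agree_put' (Agree.refl [47, 40] C) (show 47 ∈ _ by decide) 0 0) O (forI 40 8
    (.ite (ltE (V 40) (V 0)) (acc 47 (mulE 2 (V 11))) (acc 47 (c2 17 (V 40) (.get 54 (V 40)))))) (by decide)
  generalize exec O (forI 40 8 _) _ = C1 at *
  have s2 := pow_rept (O := O) (C := C1) (r := 6) (by decide) (by
    rw [s1, b1 13 (by decide), a1.r13]
    refine sum_le _ fun p => ?_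
    have := hg.bd _ _ (D.G.mt.2.2 p).symm
    split_ifs <;> omega)
  have b2 := exec_frame O (rept 47 (acc 6 (V 6))) C1 5 (by decide)
  generalize exec O (rept 47 _) _ = C2 at *
  rw [s1, b1 6 (by decide)] at s2
  rw [b1 5 (by decide)] at b2
  obtain ⟨f1, f2⟩ := Gr.final (fun u v : Fin D.ns => D.adj u v) a2 a3 a8 hl a9 hk hε s2 (c := D.cnt) rfl
  have f3 : C2 6 0 ≠ 0 := by rw [s2]; exact (Nat.mul_pos a9.1 (Nat.two_pow_pos _)).ne'
  rw [exec, Fine]
  split_ifs with z
  · rw [ltE_eq, mulE_val, V_val, V_val, b2] at z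
    simpa [skip, asg, exec, f3, b2] using f2 z
  · rw [ltE_eq, mulE_val, V_val, V_val, b2, not_le] at z
    simp [asg, exec, Expr.val, f3, f1 z]

end Cf

end Vale.Agent.P308
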