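import Vale.Agent.P308.Ctl3

/-! P308: the initial state and the success probability of the main routine. -/

namespace Vale.Agent.P308
open Finset Function Relation Vale.Agent.P317 Vale.Agent.P328
attribute [-instance] Nat.decidableForallFin

namespace Cf
variable {D : Cf} {k0 : ℕ} {O : Bool → Set (Fin k0) → Prop} {C M : Mem}

open Classical in
noncomputable def w0 (D : Cf) (τ : Fin D.ns → Fin D.ns → ℕ) (p q : Fin D.ns) : ℕ :=
  if q = D.G.mt.1 p then τ p q else τ p q - D.G.b

theorem iniW_spec (hP : D.Par C) {o : Expr} {c : ℕ} (ho : ∀ M, D.Par M → o.val M = c) :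
    D.ar (exec O (iniW o) C) 17 c = D.w0 (D.ar C 51 0) ∧
      ∀ x, x < c ∨ c + D.G.b ≤ x → exec O (iniW o) C 17 x = C 17 x :=
  fillF hP 17 c _ rfl [17, 40, 41] _ (by simp only [Prog.wr]; decide) fun p q C' b1 b2 b3 b4 _ => by
    rw [exec, ite_apply]
    simp only [exec, neE_eq, V_val, Expr.val, b3, b4, b2.mt, put_self, ho C' b2, ix_val, c2_val, ar_val b2,
      b2.r11, ar_agree b1 0 (show 51 ∉ _ by decide), w0, Fin.val_inj]
    split_ifs <;> rfl

theorem init_spec (hP : D.Par C) (h19 : C 19 0 = 0) : ∃ U, IsClo (D.G.a0 D.G.l0 D.G.s0) U ∧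
    D.ar (exec O init C) 48 0 = D.G.l0 ∧ (∀ p : Fin D.ns, exec O init C 49 p = D.G.s0 p) ∧
    D.ar (exec O init C) 51 0 = D.G.tg D.G.l0 U D.G.s0 ∧
    D.Lay (exec O init C) (D.w0 (D.G.tg D.G.l0 U D.G.s0)) ∧ D.Pp (fun _ => D.G.mt) (exec O init C) ∧
    exec O init C 5 0 = 2 ^ ∑ p, D.w0 (D.G.tg D.G.l0 U D.G.s0) p (D.G.mt.1 p) ∧ exec O init C 6 0 = 1 := by
  simp only [init, exec_seq]
  have s1 := (fillF (O := O) hP 48 0 iniL rfl [48, 40, 41] D.G.l0 (by decide) fun p q C' b1 b2 b3 b4 _ => by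
    rw [exec, ite_apply, exec, exec, ite_apply]
    simp only [exec, neE_eq, mn_val, Nat.min_eq_zero_iff, ltE_eq, V_val, Expr.val, b3, b4, b2.mt, put_self,
      ix_val, mulE_val, b2.r11, b2.r0, b2.r9, Fin.val_inj, zero_add, Gr.l0, D.re_iff]
    split_ifs <;> first | rfl | omega).1
  have a1 := exec_agree O iniL C
  generalize exec O iniL C = C1 at *
  have p1 := hP.agree a1 (by decide)
  have s2 : ∀ p : Fin D.ns, exec O iniS C1 49 p = D.G.s0 p := fun p => by
    rw [iniS, fill1 (o := 0) [49, 40] (fun s => if s = 0 then 10 * D.G.b else if s < D.n then 2 * D.G.b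
      else 12 * D.G.b) p1.r8 (by decide) (by decide) (by decide) (by decide) (by decide) fun s _ C' b1 b2 _ => by
        rw [exec, ite_apply, exec, exec, ite_apply]
        simp only [exec, ltE_eq, V_val, Expr.val, b2, put_self, mulE_val, b1 11 (by decide), b1 0 (by decide),
          p1.r11, p1.r0, zero_add]
        split_ifs <;> first | rfl | omega]
    simp [Gr.s0, o_iff, D.re_iff]
  have a2 := exec_agree O iniS C1
  generalize exec O iniS C1 = C2 at *
  have p2 := p1.agree a2 (by decide)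
  obtain ⟨U, c1, s3⟩ := target_spec (O := O) p2 ((ar_agree a2 0 (by decide)).trans s1) s2 D.G.st0.sym
  have a3 := exec_agree O target C2
  generalize exec O target C2 = C3 at *
  have p3 := p2.agree a3 (by decide)
  have s4 := (iniW_spec (O := O) (o := .lit 0) p3 fun _ _ => rfl).1
  have a4 := exec_agree O (iniW (.lit 0)) C3
  generalize exec O (iniW (.lit 0)) C3 = C4 at *
  have p4 := p3.agree a4 (by decide)
  obtain ⟨s5, s6⟩ := iniW_spec (O := O) (o := V 11) p4 fun _ h => h.r11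
  have a5 := exec_agree O (iniW (V 11)) C4
  generalize exec O (iniW (V 11)) C4 = C5 at *
  have p5 := p4.agree a5 (by decide)
  rw [ar_agree a4 0 (by decide)] at s5
  rw [s3] at s4 s5
  have l5 : D.Lay C5 (D.w0 (D.G.tg D.G.l0 U D.G.s0)) :=
    ⟨funext₂ fun u v => (s6 _ (Or.inl (by have := D.cell_lt u v; omega))).trans (congrFun₂ s4 u v), s5, by
      rw [a5 19 (by decide), a4 19 (by decide), a3 19 (by decide), a2 19 (by decide), a1 19 (by decide), h19]⟩
  have s7 : exec O iniE C5 5 0 = 2 ^ ∑ p, D.w0 (D.G.tg D.G.l0 U D.G.s0) p (D.G.mt.1 p) ∧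
      exec O iniE C5 6 0 = 1 := by
    have e1 := acc_fin (O := O) p5 (forI 40 8 (acc 47 (c2 17 (V 40) (.get 54 (V 40))))) rfl
      (fun p => D.w0 (D.G.tg D.G.l0 U D.G.s0) p (D.G.mt.1 p)) (by decide) fun p C' b1 b2 b3 => by
        simp only [exec, acc, asg, Expr.val, V_val, b3, b2.mt, c2_val, ar_val b2,
          ar_agree b1 0 (show 17 ∉ _ by decide), l5.1, Mem.put_apply, and_self, if_true]
    simp only [iniE, exec_seq]
    rw [show exec O (asg 47 (.lit 0)) C5 = C5.put 47 0 0 from rfl]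
    have e2 := exec_frame O (forI 40 8 (acc 47 (c2 17 (V 40) (.get 54 (V 40))))) (C5.put 47 0 0) 13 (by decide)
    generalize exec O (forI 40 8 _) _ = C6 at *
    rw [pow_rept (by decide), exec_frame _ _ _ 6 (by decide)]
    · simp [exec, asg, Expr.val, e1]
    · simp only [exec, asg, Mem.put_apply, e1, e2, p5.r13]
      norm_num
      refine sum_le _ fun p => ?_
      have := D.G.st0.tg_le le_rfl c1 (D.G.mt.2.2 p).symm
      simp only [w0, if_true]; omega
  have a6 := exec_agree O iniE C5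
  generalize exec O iniE C5 = C6 at *
  have p6 := p5.agree a6 (by decide)
  have a7 := exec_agree O iniP C6
  have b7 : Agree [17, 40, 41, 47, 5, 6, 58, 21] C3 (exec O iniP C6) := (((a4.mono (by decide)).trans
    (a5.mono (by decide))).trans (a6.mono (by decide))).trans (a7.mono (by decide))
  refine ⟨U, c1, (ar_agree b7 0 (by decide)).trans ((ar_agree a3 0 (by decide)).trans
    ((ar_agree a2 0 (by decide)).trans s1)), fun p => by rw [b7 49 (by decide), a3 49 (by decide), s2],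
    (ar_agree b7 0 (by decide)).trans s3, (l5.agree a6 (by decide) (by decide)).agree a7 (by decide) (by decide),
    ?_, by rw [a7 5 (by decide), s7.1], by rw [a7 6 (by decide), s7.2]⟩
  have := (lgD (O := O)).loop (k := 12) (e := 0) (C := C6.put 58 0 0)
    (p := .seq (forI 40 8 (.set 21 (.add (V 58) (V 40)) (.get 54 (V 40)))) (acc 58 (V 10)))
    (fun s M => D.Par M ∧ M 58 0 = s * D.P ∧ ∀ i < s, ∀ u : Fin D.ns, M 21 (i * D.P + u) = D.G.mt.1 u) trivial
    ⟨p6.agree (agree_put _ _ _ _) (by decide), by simp, by simp⟩ fun s _ M ⟨b1, b2, b3⟩ => by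
      have e := fill1 (O := O) (a := 21) (i := 40) (o := s * D.P) [21, 40] (M 54) b1.r8 (by decide) (by decide)
        (body := .set 21 (.add (V 58) (V 40)) (.get 54 (V 40))) (by decide) (by decide) (by decide)
        fun s _ C' c1 c2 _ => by simp [exec, put_self, Expr.val, c1 58, c1 54, c2, b2]
      refine ⟨b1.exec _ (by decide), ?_, fun i hi u => ?_⟩
      · simp only [exec_seq, acc, asg]
        rw [exec, put_self]
        simp [Expr.val, exec_frame O _ M 58, exec_frame O _ M 10, forI, asg, inc, Prog.wr, b2, b1.r10, add_mul]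
      · rw [exec_seq, exec_frame _ _ _ 21 (by decide), e]
        rcases Nat.lt_succ_iff_lt_or_eq.1 hi with h | rfl
        · have := Nat.mul_le_mul_right D.P h
          have := D.lt u
          rw [if_neg (by rw [Nat.succ_mul] at *; omega), b3 i h]
        · simp [b1.mt]
  rw [(p6.agree (agree_put _ _ _ _) (by decide)).r12] at this
  exact fun i u => this.2.2 i i.2 u

theorem tg_ge {U : Fin D.ns → Fin D.ns → ℕ} (hU : IsClo (D.G.a0 D.G.l0 D.G.s0) U) {p q : Fin D.ns} (h : p ≠ q) :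
    D.G.b ≤ D.G.tg D.G.l0 U D.G.s0 p q := by
  have hb := D.G.hb
  by_cases r : D.G.re p ∧ D.G.re q
  · rw [Gr.tg0 hU r.1 r.2 h]; exact (D.G.st0.rng p q r.1 r.2 h).1
  · have := (D.G.st0.key le_rfl hU h).1
    have a : ∀ v, 2 * D.G.b ≤ D.G.s0 v := fun v => by unfold Gr.s0; split_ifs <;> omega
    have := a p; have := a q
    rcases not_and_or.1 r with r | r <;> have := D.G.st0.sz _ r <;> omega

theorem L48 (D : Cf) : D.G.L * 48 ≤ D.P := by
  obtain ⟨k, e⟩ := Nat.exists_eq_add_of_le D.G.hL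
  have := Nat.lt_two_pow_self (n := k)
  rw [P, e, pow_add]; omega

theorem core_ex (hP : D.Par (exec O tables M)) (h19 : M 19 0 = 0) (as : ∀ u v, D.adj u v → D.adj v u) {ε : ℝ}
    (hε : 1 ≤ ε * 2 ^ D.G.L) (φ : Mem → ℝ) (φ0 : ∀ m, 0 ≤ φ m) (hφ : ∀ m, D.Fine ε m → 1 ≤ φ m) :
    1 - 1 / 2 ^ D.P ≤ ex O core φ M := by
  obtain ⟨U, c1, c2, c3, c4, c5, c6, c7, c8⟩ := init_spec (O := O) hP
    (by rw [exec_frame _ _ _ 19 (by decide), h19])
  have p1 := hP.exec (O := O) init (by decide +kernel)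
  rw [core, ex, ex_det _ _ (by decide +kernel), exec_seq]
  generalize exec O init _ = C at *
  have hL := D.G.hL
  have hb := D.G.hb
  have ts := Gr.tg_sym (G := D.G) (σ := D.G.s0) D.G.st0.sym c1.sym
  have sy : ∀ u v, D.w0 (D.G.tg D.G.l0 U D.G.s0) u v = D.w0 (D.G.tg D.G.l0 U D.G.s0) v u := fun u v => by
    have := D.G.mt.2.1 u; have := D.G.mt.2.1 v; have := ts u v
    simp only [w0]; grind
  have m0 := Gr.init_mass sy (Gr.gain0 c1 fun p q h => by
    have := tg_ge c1 h
    simp only [w0]; split_ifs <;> omega)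
  have e0 := e0_pos (D := D)
  have es : D.G.Est (D.w0 (D.G.tg D.G.l0 U D.G.s0)) 1 (C 5 0) (C 6 0) := by
    have z := (wt_e2 sy).z_pos D.G.mt
    have e : (C 5 0 : ℝ) = pr (e2 (D.w0 (D.G.tg D.G.l0 U D.G.s0))) D.G.mt * Zs (e2 (D.w0 (D.G.tg D.G.l0 U D.G.s0))) := by
      rw [pr, Zs, div_mul_cancel₀ _ z.ne', c7]; simp [PM.wt, e2, prod_pow_eq_pow_sum]
    have a1 : D.G.e0 ≤ D.G.al := one_div_le_one_div_of_le (by positivity)
      (pow_le_pow_right₀ (by norm_num) (by omega))
    have a2 := (single_le_sum (fun T _ => ((wt_e2 sy).pr_pos T).le) (mem_univ D.G.mt)).trans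
      ((wt_e2 sy).sum_pr D.G.mt).le
    rw [Gr.Est, c8, e, pow_one, pow_one, Nat.cast_one, mul_one]
    exact ⟨one_pos, mul_le_mul_of_nonneg_right (by linarith) z.le, mul_le_mul_of_nonneg_right (by linarith) z.le⟩
  have P1 : 1024 ≤ D.P := D.G.P1024
  have n1 : D.ns ≤ D.P := by have := D.nP; omega
  have n2 := D.nle.trans n1
  have bq : D.G.b = D.P * D.P := D.G.b_eq
  have tr := (lgT (D := D) (O := O)).seq (sweeps_tr p1 c5 sy c4 ts (fun p q h => by
      have := tg_ge c1 h
      simp only [pos, w0]; split_ifs <;> omega) (fun r hr W' a1 a2 => ⟨a1, Gr.nice_one a1 fun T hT => by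
        simpa using (Gr.gain0 (W := W') (k := D.G.b - r - 1) c1 (fun p q h => by
          have := tg_ge c1 h
          have := a2 p q h
          simp only [pos, w0] at this; split_ifs at this ⊢ <;> omega) T hT).imp fun p h => ⟨h.1, by omega⟩,
        fun p q h => by
          have := D.G.st0.tg_le le_rfl c1 h
          have := a2 p q h
          simp only [pos, w0] at this; split_ifs at this <;> omega⟩) es |> fun h => lgT.mono h
      (Q' := fun C' => D.Inv C' (1 + D.K1) D.G.l0) (fun C' ⟨W', a1, a2, a3, a4⟩ b => ⟨p1.agree b (by decide), _, U,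
        W', D.G.st0, c1, (ar_agree b 0 (by decide)).trans c2, fun p => by rw [b 49 (by decide), c3], a1, a2, a3,
        a4⟩) le_rfl) (Q' := fun C' => D.Fine ε C' ∧ ∀ i, Wt (e2 (D.om C' i)))
    fun C' h => lgT.seq (outer_tr h as) fun C'' ⟨ℓ, a1, a2⟩ => TR.det' (p := finish) (by decide)
      ⟨finish_spec a1 a2 (by
        calc _ ≤ D.P ^ 8 + D.P ^ 8 + D.P ^ 8 := by
              refine add_le_add (add_le_add (Nat.one_le_pow _ _ (by omega)) ?_) ?_
              · calc _ ≤ D.P * D.P * (D.P * D.P) * D.P ^ 4 := by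
                      rw [K1, bq]; exact le_mul_of_le_of_one_le (by gcongr) (Nat.one_le_pow _ _ (by omega))
                  _ = _ := by ring
              · calc _ ≤ D.P * D.P * (D.P * D.P) * (D.P * D.P * (D.P * D.P)) := by rw [K1, bq]; gcongr
                  _ = _ := by ring
          _ ≤ D.P ^ 8 * (D.P * D.P) := by nlinarith [Nat.zero_le (D.P ^ 8)]
          _ = _ := by rw [mul_comm 10, pow_mul]; ring) hε, fun i => by
        obtain ⟨-, _, _, W, -, -, -, -, b1, b2, -⟩ := a1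
        rw [(b1.agree (exec_agree _ _ _) (by decide) (by decide)).om]; exact wt_e2 b2⟩
  have := jge_init c5.om sy m0 c6 (tr φ φ0 1 le_rfl fun C' h _ => ⟨fun _ => 1, fun _ => zero_le_one,
    fun _ => le_rfl, fun x M' hM => hφ M' (by simpa only [Fine, hM.1 5 (by decide), hM.1 6 (by decide)] using h.1), by
      simp only [mu, mul_one]
      rw [← Fintype.piFinset_univ, ← prod_univ_sum]
      exact (prod_eq_one fun i _ => (h.2 i).sum_pr D.G.mt).ge⟩)
  refine le_trans ?_ this
  rw [sub_sub, ← add_mul, ← Nat.cast_add, sub_le_sub_iff_left, Gr.e0, mul_one_div,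
    div_le_div_iff₀ (by positivity) (by positivity), one_mul]
  have t1 : D.T1 ≤ D.P ^ 4 * D.G.t := by
    calc _ ≤ D.P * D.P * (D.P * (D.P * D.G.t)) := by rw [T1, bq]; gcongr
      _ = _ := by ring
  have t2 : D.G.t ≤ D.P ^ 4 * D.G.t := Nat.le_mul_of_pos_left _ (by positivity)
  have t3 : D.n * D.G.t ≤ D.P ^ 4 * D.G.t := Nat.mul_le_mul_right _ (n2.trans (Nat.le_self_pow (by norm_num) _))
  have t4 := (D.tbig 0 (by norm_num)).2.2
  have t5 : D.G.b * (D.n * (D.n * (D.n * D.G.t + D.T1))) ≤ D.P ^ 4 * (2 * (D.P ^ 4 * D.G.t)) := by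
    calc _ ≤ D.P * D.P * (D.P * (D.P * (2 * (D.P ^ 4 * D.G.t)))) := by rw [bq]; gcongr; omega
      _ = _ := by ring
  have t6 : D.P ^ 4 * D.G.t ≤ D.P ^ 4 * (D.P ^ 4 * D.G.t) := Nat.le_mul_of_pos_left _ (by positivity)
  have t7 : (D.T1 + (D.G.b * (D.n * (D.n * (D.n * D.G.t + D.T1))) + 0) + D.G.N) * 2 ^ D.P ≤ 4 ^ D.G.b := by
    calc _ ≤ (4 * (D.P ^ 4 * (D.P ^ 4 * D.G.t))) * 2 ^ D.P := Nat.mul_le_mul_right _ (by linarith)
      _ = 2 ^ (2 + 40968 * D.G.L + D.P) := by
        rw [Gr.t, ← pow_mul, ← pow_add, ← pow_add, pow_add, pow_add]; congr 3; ring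
      _ ≤ 2 ^ (2 * D.G.b) := Nat.pow_le_pow_right (by norm_num) (by
        have := D.L48
        nlinarith)
      _ = _ := by rw [pow_mul]; rfl
  exact_mod_cast t7

end Cf

end Vale.Agent.P308
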