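import Mathlib

/-! P308: alternating cycles and paths of two involutions, gluing, switching. -/

namespace Vale.Agent.P308
open Finset Relation

variable {V : Type}

/-- `u` lies on the alternating component of `x`. -/
def Cy (Q : Bool → V → V) (x u : V) : Prop := ReflTransGen (fun a b => ∃ c, b = Q c a) x u

/-- `S` is closed under both maps. -/
def Cl (Q : Bool → V → V) (S : V → Prop) : Prop := ∀ c u, S u → S (Q c u)

def Inv2 (Q : Bool → V → V) : Prop := ∀ c u, Q c (Q c u) = u

theorem Cy.refl (Q : Bool → V → V) (x : V) : Cy Q x x := ReflTransGen.refl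

theorem Cy.step {Q : Bool → V → V} {x u : V} (h : Cy Q x u) (c : Bool) : Cy Q x (Q c u) :=
  ReflTransGen.tail h ⟨c, rfl⟩

theorem Cy.trans {Q : Bool → V → V} {x u v : V} (h : Cy Q x u) (h' : Cy Q u v) : Cy Q x v :=
  ReflTransGen.trans h h'

theorem cl_cy (Q : Bool → V → V) (x : V) : Cl Q (Cy Q x) := fun c _ h => h.step c

theorem Cy.min {Q : Bool → V → V} {S : V → Prop} (hS : Cl Q S) {x u : V} (hx : S x)
    (h : Cy Q x u) : S u := by
  induction h with
  | refl => exact hx
  | tail _ h2 ih => obtain ⟨c, rfl⟩ := h2; exact hS c _ ih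

theorem Cy.symm {Q : Bool → V → V} (hQ : Inv2 Q) {x u : V} (h : Cy Q x u) : Cy Q u x := by
  induction h with
  | refl => exact Cy.refl _ _
  | @tail b _ _ h2 ih =>
    obtain ⟨c, rfl⟩ := h2
    refine Cy.trans ?_ ih
    have := (Cy.refl Q (Q c b)).step c
    rwa [hQ] at this

theorem cy_base {Q : Bool → V → V} (hQ : Inv2 Q) {x y : V} (h : Cy Q x y) : Cy Q y = Cy Q x :=
  funext fun _ => propext ⟨fun h' => h.trans h', fun h' => (h.symm hQ).trans h'⟩

/-- If every step of `Q` inside the component is a step of `Q'` and conversely. -/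
theorem cy_eq {Q Q' : Bool → V → V} {x : V} (h : ∀ c u, Cy Q x u → ∃ c', Q' c u = Q c' u)
    (h' : ∀ c u, Cy Q x u → ∃ c', Q c u = Q' c' u) : Cy Q' x = Cy Q x := by
  funext u
  refine propext ⟨fun hu => Cy.min (S := Cy Q x) (fun c v hv => ?_) (Cy.refl _ _) hu, fun hu => ?_⟩
  · obtain ⟨c', e⟩ := h c v hv; rw [e]; exact hv.step c'
  · refine (Cy.min (S := fun v => Cy Q x v ∧ Cy Q' x v) (fun c v hv => ⟨hv.1.step c, ?_⟩)
      ⟨Cy.refl _ _, Cy.refl _ _⟩ hu).2
    obtain ⟨c', e⟩ := h' c v hv.1; rw [e]; exact hv.2.step c'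

theorem cy_congr {Q Q' : Bool → V → V} {x : V} (h : ∀ c u, Cy Q x u → Q' c u = Q c u) :
    Cy Q' x = Cy Q x :=
  cy_eq (fun c u hu => ⟨c, h c u hu⟩) (fun c u hu => ⟨c, (h c u hu).symm⟩)

theorem Cl.not {Q : Bool → V → V} (hQ : Inv2 Q) {S : V → Prop} (hS : Cl Q S) (c : Bool) {u : V}
    (hu : ¬ S u) : ¬ S (Q c u) := fun h => hu (by have := hS c _ h; rwa [hQ] at this)

open Classical in
/-- `g` on `S`, `f` elsewhere. -/
noncomputable def glue (S : V → Prop) (g f : V → V) : V → V := fun u => if S u then g u else f u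

theorem glue_in {S : V → Prop} {g f : V → V} {u : V} (h : S u) : glue S g f u = g u := if_pos h
theorem glue_out {S : V → Prop} {g f : V → V} {u : V} (h : ¬ S u) : glue S g f u = f u := if_neg h

theorem glue_inv {S : V → Prop} {g f : V → V} (hg : ∀ u, g (g u) = u) (hf : ∀ u, f (f u) = u)
    (cg : ∀ u, S u → S (g u)) (cf : ∀ u, S u → S (f u)) (u : V) :
    glue S g f (glue S g f u) = u := by
  by_cases h : S u
  · rw [glue_in h, glue_in (cg u h), hg]
  · rw [glue_out h, glue_out (fun h' => h (by have := cf _ h'; rwa [hf] at this)), hf]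

/-- Exchange the two maps on the set `S`. -/
noncomputable def swS (S : V → Prop) (Q : Bool → V → V) : Bool → V → V :=
  fun c => glue S (Q (!c)) (Q c)

theorem swS_inv {S : V → Prop} {Q : Bool → V → V} (hQ : Inv2 Q) (hS : Cl Q S) : Inv2 (swS S Q) :=
  fun c => glue_inv (hQ _) (hQ _) (hS _) (hS _)

theorem cy_swS (S : V → Prop) (Q : Bool → V → V) (x : V) : Cy (swS S Q) x = Cy Q x := by
  refine cy_eq (fun c u _ => ?_) (fun c u _ => ?_)
  · by_cases h : S u
    · exact ⟨!c, glue_in h⟩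
    · exact ⟨c, glue_out h⟩
  · by_cases h : S u
    · exact ⟨!c, by simp [swS, glue_in h]⟩
    · exact ⟨c, (glue_out h).symm⟩

theorem swS_swS (S : V → Prop) (Q : Bool → V → V) : swS S (swS S Q) = Q := by
  funext c u
  by_cases h : S u
  · simp [swS, glue_in h]
  · simp [swS, glue_out h]

theorem prod_swS (s : Finset V) (r : V → V → ℝ) (S : V → Prop) (Q : Bool → V → V) :
    (∏ u ∈ s, r u (swS S Q false u)) * ∏ u ∈ s, r u (swS S Q true u) =
      (∏ u ∈ s, r u (Q false u)) * ∏ u ∈ s, r u (Q true u) := by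
  rw [← prod_mul_distrib, ← prod_mul_distrib]
  refine prod_congr rfl fun u _ => ?_
  by_cases h : S u
  · simp [swS, glue_in h, mul_comm]
  · simp [swS, glue_out h]

/-- Alternating colours. -/
def col (c : Bool) : ℕ → Bool
  | 0 => c
  | k + 1 => !col c k

/-- The alternating walk. -/
def wk (Q : Bool → V → V) (c : Bool) (x : V) : ℕ → V
  | 0 => x
  | k + 1 => Q (col c k) (wk Q c x k)

theorem col_two (c : Bool) (i d : ℕ) : col c (i + 2 * d) = col c i := by
  induction d with
  | zero => rfl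
  | succ d ih => rw [show i + 2 * (d + 1) = i + 2 * d + 1 + 1 by ring, col, col, ih, Bool.not_not]

theorem wk_back {Q : Bool → V → V} (hQ : Inv2 Q) (c : Bool) (x : V) (k : ℕ) :
    Q (col c k) (wk Q c x (k + 1)) = wk Q c x k := hQ _ _

theorem cy_wk (Q : Bool → V → V) (c : Bool) (x : V) (k : ℕ) : Cy Q x (wk Q c x k) := by
  induction k with
  | zero => exact Cy.refl _ _
  | succ k ih => exact ih.step _

theorem wk_even {Q : Bool → V → V} (hQ : Inv2 Q) (c : Bool) (x : V) (d : ℕ) :
    ∀ i, wk Q c x i = wk Q c x (i + 2 * d) → x = wk Q c x (2 * d) := by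
  intro i
  induction i with
  | zero => intro h; simpa [wk] using h
  | succ i ih =>
    intro h
    apply ih
    rw [← wk_back hQ c x i, h, show i + 1 + 2 * d = i + 2 * d + 1 by ring, ← col_two c i d,
      wk_back hQ]

theorem wk_odd {Q : Bool → V → V} (hQ : Inv2 Q) (c : Bool) (x : V) (d : ℕ) :
    ∀ i, wk Q c x i = wk Q c x (i + 2 * d + 1) →
      ∃ k, k ≤ i + 2 * d ∧ wk Q c x (k + 1) = wk Q c x k := by
  induction d with
  | zero => intro i h; exact ⟨i, by omega, h.symm⟩
  | succ d ih =>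
    intro i h
    obtain ⟨k, hk, e⟩ := ih (i + 1) (by
      rw [wk, h, ← col_two c i (d + 1), wk_back hQ]; congr 1; ring)
    exact ⟨k, by omega, e⟩

theorem wk_return [Finite V] {Q : Bool → V → V} (hQ : Inv2 Q) (c : Bool) (x : V) :
    ∃ d, 0 < d ∧ x = wk Q c x (2 * d) := by
  obtain ⟨i, j, hij, e⟩ := Finite.exists_ne_map_eq_of_infinite (fun k => wk Q c x (2 * k))
  rcases lt_or_gt_of_ne hij with h | h
  · exact ⟨j - i, by omega, wk_even hQ c x _ (2 * i) (by rw [e]; congr 1; omega)⟩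
  · exact ⟨i - j, by omega, wk_even hQ c x _ (2 * j) (by rw [← e]; congr 1; omega)⟩

theorem bool_col (c : Bool) (k : ℕ) (c' : Bool) : c' = col c k ∨ c' = col c (k + 1) := by
  rw [col]; cases c' <;> cases col c k <;> simp

/-- The alternating cycle of two perfect matchings. -/
theorem cycle_exists [Fintype V] {Q : Bool → V → V} (hQ : Inv2 Q) (hne : ∀ c u, Q c u ≠ u)
    (c : Bool) (x : V) : ∃ l, l + 1 ≤ Fintype.card V ∧ wk Q c x (l + 1) = x ∧ col c l = !c ∧
      (∀ i ≤ l, ∀ j ≤ l, wk Q c x i = wk Q c x j → i = j) ∧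
      ∀ u, Cy Q x u → ∃ k ≤ l, u = wk Q c x k := by
  classical
  have ex := wk_return hQ c x
  obtain ⟨hd, e⟩ := Nat.find_spec ex
  have mn := fun k => @Nat.find_min _ _ ex k
  generalize Nat.find ex = d at *
  obtain ⟨l, hl⟩ : ∃ l, 2 * d = l + 1 := ⟨2 * d - 1, by omega⟩
  have hc : col c l = !c := by
    have := col_two c 0 d
    rw [zero_add, hl, col, col] at this
    revert this
    cases col c l <;> cases c <;> simp
  have key : ∀ i j, i < j → j ≤ l → wk Q c x i ≠ wk Q c x j := by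
    intro i j hij hj h
    rcases Nat.even_or_odd' (j - i) with ⟨k, hk | hk⟩
    · exact mn k (by omega) ⟨by omega, wk_even hQ c x k i (by rw [h]; congr 1; omega)⟩
    · obtain ⟨k', -, e'⟩ := wk_odd hQ c x k i (by rw [h]; congr 1; omega)
      exact hne _ _ e'
  have inj : ∀ i ≤ l, ∀ j ≤ l, wk Q c x i = wk Q c x j → i = j := by
    intro i hi j hj h
    rcases lt_trichotomy i j with h1 | h1 | h1
    · exact absurd h (key i j h1 hj)
    · exact h1
    · exact absurd h.symm (key j i h1 hi)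
  refine ⟨l, ?_, by rw [← hl, ← e], hc, inj, fun u hu => ?_⟩
  · have := Fintype.card_le_of_injective (fun k : Fin (l + 1) => wk Q c x k.val)
      (fun i j h => Fin.ext (inj _ (by omega) _ (by omega) h))
    simpa using this
  · refine Cy.min (S := fun u => ∃ k ≤ l, u = wk Q c x k) ?_ ⟨0, by omega, rfl⟩ hu
    rintro c' _ ⟨k, hk, rfl⟩
    rcases bool_col c k c' with h | h
    · rcases eq_or_lt_of_le hk with h1 | h1
      · exact ⟨0, by omega, by
          rw [h, h1]; show wk Q c x (l + 1) = x; rw [← hl, ← e]⟩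
      · exact ⟨k + 1, by omega, by rw [h]; rfl⟩
    · cases k with
      | zero =>
        refine ⟨l, le_rfl, ?_⟩
        rw [← wk_back hQ c x l, ← hl, ← e, hc, h]; rfl
      | succ k => exact ⟨k, by omega, by rw [h, col, col, Bool.not_not, wk_back hQ]⟩

/-- The alternating path that starts at a fixed point of the second involution. -/
theorem path_exists [Finite V] {Q : Bool → V → V} (hQ : Inv2 Q) {y : V} (h1 : Q true y = y)
    (h0 : Q false y ≠ y) : ∃ e, Cy Q y e ∧ e ≠ y ∧ (∃ c, Q c e = e ∧ Q (!c) e ≠ e) ∧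
      ∀ u, Cy Q y u → u ≠ y → u ≠ e → ∀ c, Q c u ≠ u := by
  classical
  have back : ∀ d, y = wk Q false y (2 * d + 2) →
      ∃ k, k ≤ 2 * d ∧ wk Q false y (k + 1) = wk Q false y k := by
    intro d h
    have e1 : wk Q false y (2 * d + 1) = y := by
      have hc : col false (2 * d + 1) = true := by
        have := col_two false 1 d
        rw [add_comm] at this; rw [this]; rfl
      rw [← wk_back hQ, ← h, hc, h1]
    simpa using wk_odd hQ false y d 0 (by rw [zero_add, e1]; rfl)
  have ex : ∃ k, wk Q false y (k + 1) = wk Q false y k := by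
    obtain ⟨d, hd, e⟩ := wk_return hQ false y
    obtain ⟨k, -, h⟩ := back (d - 1) (e.trans (by congr 1; omega))
    exact ⟨k, h⟩
  have e := Nat.find_spec ex
  have mn := fun k => @Nat.find_min _ _ ex k
  generalize Nat.find ex = l at *
  obtain ⟨l, rfl⟩ : ∃ l', l = l' + 1 := ⟨l - 1, by
    rcases Nat.eq_zero_or_pos l with h | h
    · subst h; exact absurd e h0
    · omega⟩
  have mv : ∀ k ≤ l, Q (col false k) (wk Q false y (k + 1)) ≠ wk Q false y (k + 1) := by
    intro k hk h
    rw [wk_back hQ] at h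
    exact mn k (by omega) h.symm
  refine ⟨wk Q false y (l + 1), cy_wk _ _ _ _, fun h => ?_,
    ⟨col false (l + 1), e, by rw [col, Bool.not_not]; exact mv l le_rfl⟩, fun u hu => ?_⟩
  · rcases Nat.even_or_odd' l with ⟨k, hk | hk⟩
    · obtain ⟨k', h1, h2⟩ := wk_odd hQ false y k 0 (by rw [zero_add, ← hk, h]; rfl)
      exact mn k' (by omega) h2
    · obtain ⟨k', h1, h2⟩ := back k (h.symm.trans (by rw [hk]))
      exact mn k' (by omega) h2
  · obtain ⟨k, hk, rfl⟩ : ∃ k ≤ l + 1, u = wk Q false y k := by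
      refine Cy.min (S := fun u => ∃ k ≤ l + 1, u = wk Q false y k) ?_ ⟨0, by omega, rfl⟩ hu
      rintro c' _ ⟨k, hk, rfl⟩
      rcases bool_col false k c' with h | h
      · rcases eq_or_lt_of_le hk with h1 | h1
        · exact ⟨l + 1, le_rfl, by rw [h, h1]; exact e⟩
        · exact ⟨k + 1, by omega, by rw [h]; rfl⟩
      · cases k with
        | zero => exact ⟨0, by omega, by rw [h]; exact h1⟩
        | succ k => exact ⟨k, by omega, by rw [h, col, col, Bool.not_not, wk_back hQ]⟩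
    intro a1 a2 c
    cases k with
    | zero => exact absurd rfl a1
    | succ k =>
      have hk' : k + 1 < l + 1 := lt_of_le_of_ne hk (fun h => a2 (by rw [h]))
      rcases bool_col false k c with h | h
      · rw [h]; exact mv k (by omega)
      · rw [h]; exact mn (k + 1) hk'

/-- Perfect matchings as fixed-point-free involutions. -/
abbrev PM (V : Type) : Type := {f : V → V // (∀ u, f (f u) = u) ∧ ∀ u, f u ≠ u}

variable [DecidableEq V]

/-- Switch that matches `a` with `b`. -/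
def cn (f : V → V) (a b : V) : V → V := fun u =>
  if a = b then f u else
    if u = a then b else if u = b then a else if u = f a then f b else if u = f b then f a else f u

theorem cn_ok (T : PM V) (a b : V) : (∀ u, cn T.1 a b (cn T.1 a b u) = u) ∧ ∀ u, cn T.1 a b u ≠ u := by
  obtain ⟨f, h1, h2⟩ := T
  have inj : ∀ u v, f u = f v → u = v := fun u v h => by rw [← h1 u, h, h1]
  have a1 := h1 a
  have a2 := h1 b
  constructor <;> intro u <;> have a3 := h1 u <;> have a4 := h2 u <;> have a5 := h2 a <;>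
    have a6 := h2 b <;> simp only [cn] <;> grind

def PM.cn (T : PM V) (a b : V) : PM V := ⟨P308.cn T.1 a b, cn_ok T a b⟩

theorem PM.inj (T : PM V) {u v : V} (h : T.1 u = T.1 v) : u = v := by rw [← T.2.1 u, h, T.2.1]

theorem PM.sym (T : PM V) {u v : V} (h : T.1 u = v) : T.1 v = u := by rw [← h, T.2.1]

theorem PM.cn_a (T : PM V) {a b : V} (h : a ≠ b) : (T.cn a b).1 a = b := by
  simp [PM.cn, P308.cn, h]

theorem PM.cn_b (T : PM V) {a b : V} (h : a ≠ b) : (T.cn a b).1 b = a := (T.cn a b).sym (T.cn_a h)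

theorem PM.cn_fa (T : PM V) {a b : V} (h : a ≠ b) : (T.cn a b).1 (T.1 a) = T.1 b ∨ T.1 a = b := by
  have := T.2.2 a
  simp only [PM.cn, P308.cn]; grind

theorem PM.cn_other (T : PM V) {a b u : V} (h1 : u ≠ a) (h2 : u ≠ b) (h3 : u ≠ T.1 a)
    (h4 : u ≠ T.1 b) : (T.cn a b).1 u = T.1 u := by
  simp [PM.cn, P308.cn, h1, h2, h3, h4]

theorem PM.cn_cn (T : PM V) {a b : V} (h : a ≠ b) : (T.cn a b).cn a (T.1 a) = T := by
  obtain ⟨f, h1, h2⟩ := T
  apply Subtype.ext
  funext u
  have a1 := h1 a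
  have a2 := h1 b
  have a3 := h1 u
  have a5 := h2 a
  have a6 := h2 b
  simp only [PM.cn, P308.cn]
  grind

theorem PM.cn_same (T : PM V) {a b : V} (h : T.1 a = b) : T.cn a b = T := by
  obtain ⟨f, h1, h2⟩ := T
  apply Subtype.ext
  funext u
  have a1 := h1 a
  have a3 := h1 u
  simp only [PM.cn, P308.cn] at *
  grind

theorem PM.cn_self (T : PM V) (a : V) : T.cn a a = T := by
  apply Subtype.ext; funext u; simp [PM.cn, P308.cn]

/-- Weight of a matching. -/
def PM.wt [Fintype V] (r : V → V → ℝ) (T : PM V) : ℝ := ∏ u, r u (T.1 u)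

theorem PM.wt_cn [Fintype V] (s : Finset V) {r : V → V → ℝ} (hs : ∀ u v, r u v = r v u) (T : PM V)
    {a b : V} (h : a ≠ b) (h' : T.1 a ≠ b) (ha : a ∈ s) (hb : b ∈ s) (ha' : T.1 a ∈ s)
    (hb' : T.1 b ∈ s) :
    (∏ u ∈ s, r u ((T.cn a b).1 u)) * (r a (T.1 a) * r b (T.1 b)) ^ 2 =
      (∏ u ∈ s, r u (T.1 u)) * (r a b * r (T.1 a) (T.1 b)) ^ 2 := by
  have n1 := T.2.2 a
  have n2 := T.2.2 b
  have n3 : T.1 b ≠ a := fun e => h' (T.sym e)
  have n4 : T.1 a ≠ T.1 b := fun e => h (T.inj e)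
  have sub : ({a, b, T.1 a, T.1 b} : Finset V) ⊆ s := by
    intro u hu; simp only [mem_insert, mem_singleton] at hu; rcases hu with e | e | e | e <;> simp [*]
  rw [← prod_sdiff sub, ← prod_sdiff sub]
  have e1 : ∏ u ∈ s \ {a, b, T.1 a, T.1 b}, r u ((T.cn a b).1 u)
      = ∏ u ∈ s \ {a, b, T.1 a, T.1 b}, r u (T.1 u) := prod_congr rfl fun u hu => by
    simp only [mem_sdiff, mem_insert, mem_singleton, not_or] at hu
    rw [T.cn_other hu.2.1 hu.2.2.1 hu.2.2.2.1 hu.2.2.2.2]
  have e2 : (T.cn a b).1 (T.1 a) = T.1 b := (T.cn_fa h).resolve_right h'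
  have p4 : ∀ F : V → ℝ, ∏ u ∈ ({a, b, T.1 a, T.1 b} : Finset V), F u
      = F a * (F b * (F (T.1 a) * F (T.1 b))) := by
    intro F
    rw [prod_insert (by simp [h, n1.symm, n3.symm]), prod_insert (by simp [h'.symm, n2.symm]),
      prod_insert (by simp [n4]), prod_singleton]
  rw [e1, p4, p4, T.cn_a h, T.cn_b h, e2, (T.cn a b).sym e2, T.2.1, T.2.1, hs b a, hs (T.1 b) (T.1 a),
    hs (T.1 a) a, hs (T.1 b) b]
  ring

end Vale.Agent.P308
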