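import Vale.Agent.P308.Model

/-! P308: what the augmented model says about the real model. -/

namespace Vale.Agent.P308
open Finset Relation
open scoped symmDiff

variable {V : Type} [DecidableEq V] [Fintype V]

noncomputable def Zs (r : V → V → ℝ) : ℝ := ∑ T : PM V, T.wt r

noncomputable def pe (r : V → V → ℝ) (u v : V) : ℝ := ∑ T ∈ univ.filter (fun T : PM V => T.1 u = v), pr r T

def upN (W : V → V → ℕ) (a b : V) (c : ℕ) (u v : V) : ℕ :=
  if (u = a ∧ v = b) ∨ (u = b ∧ v = a) then c else W u v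

theorem e2_upN (W : V → V → ℕ) (a b : V) (c : ℕ) : e2 (upN W a b c) = up (e2 W) a b (2 ^ c) := by
  funext u v; simp only [e2, upN, up]; split_ifs <;> rfl

theorem upN_sym {W : V → V → ℕ} (h : ∀ u v, W u v = W v u) (a b : V) (c : ℕ) (u v : V) :
    upN W a b c u v = upN W a b c v u := by simp only [upN, h u v, and_comm, or_comm]

theorem wt_congr {W W' : V → V → ℕ} (h : ∀ p q, p ≠ q → W p q = W' p q) (T : PM V) :
    T.wt (e2 W) = T.wt (e2 W') := prod_congr rfl fun u _ => by rw [e2, e2, h _ _ (T.2.2 u).symm]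

theorem one_add_pow {η : ℝ} (η0 : 0 ≤ η) (m : ℕ) (h : m * η ≤ 1) : (1 + η) ^ m ≤ 1 + 2 * (m * η) := by
  have a := pow_le_pow_left₀ (by linarith) (by linarith [Real.add_one_le_exp η] : 1 + η ≤ Real.exp η) m
  rw [← Real.exp_nat_mul] at a
  have p : 0 ≤ m * η := by positivity
  have b := Real.abs_exp_sub_one_le (x := m * η) (by rwa [abs_of_nonneg p])
  rw [abs_of_nonneg p] at b
  linarith [(abs_le.1 b).2]

theorem wt_up {r : V → V → ℝ} (h : Wt r) {a b : V} (hab : a ≠ b) (ρ : ℝ) (T : PM V) :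
    T.wt (up r a b (ρ * r a b)) = (if T.1 a = b then ρ ^ 2 else 1) * T.wt r := by
  split_ifs with e
  · have := prod_two univ hab (mem_univ _) (mem_univ _) (fun u => up r a b (ρ * r a b) u (T.1 u))
      (fun u => r u (T.1 u)) (fun u h1 h2 => by simp [up, h1, h2])
    simp only [e, T.sym e, up, and_self, true_or, or_true, if_true, h.sym b a] at this
    refine mul_right_cancel₀ (mul_pos (h.pos a b) (h.pos a b)).ne' (this.trans ?_)
    rw [PM.wt]; ring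
  · rw [one_mul]; exact prod_up_ne _ _ T.2.1 _ e

theorem Zs_up {r : V → V → ℝ} (h : Wt r) {a b : V} (hab : a ≠ b) (ρ : ℝ) (T0 : PM V) :
    Zs (up r a b (ρ * r a b)) = Zs r * (1 + (ρ ^ 2 - 1) * pe r a b) := by
  have := (h.z_pos T0).ne'
  simp only [Zs, wt_up h hab, pe, pr, sum_filter, mul_add, mul_one, mul_sum]
  rw [← sum_add_distrib]
  refine sum_congr rfl fun T _ => ?_
  split_ifs
  · field_simp; ring
  · ring

theorem near_of {r r' : V → V → ℝ} (h : Wt r) (h' : Wt r') (h1 : ∀ T : PM V, T.wt r ≤ T.wt r')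
    (h2 : ∀ T : PM V, T.wt r' ≤ 4 * T.wt r) (T : PM V) : pr r T ≤ 4 * pr r' T ∧ pr r' T ≤ 4 * pr r T := by
  have a1 : ∑ T : PM V, T.wt r ≤ ∑ T : PM V, T.wt r' := sum_le_sum fun T _ => h1 T
  have a2 : ∑ T : PM V, T.wt r' ≤ 4 * ∑ T : PM V, T.wt r := by
    rw [mul_sum]; exact sum_le_sum fun T _ => h2 T
  have p := h.z_pos T
  have p' := h'.z_pos T
  have := h.wt_pos T
  simp only [pr, ← mul_div_assoc]
  constructor
  · rw [div_le_div_iff₀ p p']; nlinarith [h1 T]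
  · rw [div_le_div_iff₀ p' p]; nlinarith [h2 T]

theorem card_PM : (Fintype.card (PM V) : ℝ) ≤ Fintype.card V ^ Fintype.card V := by
  have := Fintype.card_subtype_le fun f : V → V => (∀ u, f (f u) = u) ∧ ∀ u, f u ≠ u
  rw [Fintype.card_fun] at this
  exact_mod_cast this

theorem pr_low {W : V → V → ℕ} (h : ∀ u v, W u v = W v u) {c : ℕ} (hc : ∀ p q, p ≠ q → W p q ≤ c)
    (T : PM V) : 1 ≤ (Fintype.card V * 2 ^ c) ^ Fintype.card V * pr (e2 W) T := by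
  have w := wt_e2 h
  rw [pr, ← mul_div_assoc, le_div_iff₀ (w.z_pos T), one_mul]
  have a1 : 1 ≤ T.wt (e2 W) := one_le_prod fun _ _ => one_le_pow₀ (by norm_num)
  refine le_trans ?_ (le_mul_of_one_le_right (by positivity) a1)
  refine (sum_le_card_nsmul _ _ ((2 ^ c) ^ Fintype.card V) fun T _ => ?_).trans ?_
  · rw [← card_univ, ← prod_const]
    exact prod_le_prod (fun _ _ => (w.pos _ _).le) fun u _ =>
      pow_le_pow_right₀ (by norm_num) (hc _ _ (T.2.2 u).symm)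
  · rw [nsmul_eq_mul, mul_pow, card_univ]
    exact mul_le_mul_of_nonneg_right card_PM (by positivity)

theorem Sk.Z_step {S : Sk V} {ℓ : V → V → ℕ} (h : ∀ u v, ℓ u v = ℓ v u) (a b : V) (A : Finset V) :
    S.Z (e2 ℓ) A ≤ S.Z (e2 (upN ℓ a b (ℓ a b + 1))) A ∧
      S.Z (e2 (upN ℓ a b (ℓ a b + 1))) A ≤ 4 * S.Z (e2 ℓ) A := by
  have w := wt_e2 h
  have z := Sk.Z0 (S := S) w A
  rw [e2_upN]
  by_cases c : a = b ∨ ¬ S.re a ∨ ¬ S.re b ∨ a ∈ A ∨ b ∈ A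
  · rw [Sk.Z_up_eq _ _ c]; constructor <;> linarith
  push Not at c
  have := Sk.edge_le w c.1 c.2.1 c.2.2.1 c.2.2.2.1 c.2.2.2.2
  have := mul_nonneg (sq_nonneg (e2 ℓ a b)) (Sk.Z0 (S := S) w (insert a (insert b A)))
  rw [Sk.Z_up w (by positivity) c.1 c.2.1 c.2.2.1 c.2.2.2.1 c.2.2.2.2, pow_succ (2 : ℝ),
    show (2 : ℝ) ^ ℓ a b = e2 ℓ a b from rfl]
  constructor <;> nlinarith

namespace Gr
variable {G : Gr V} {ℓ U W : V → V → ℕ} {σ : V → ℕ} {s : ℕ}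

theorem St.step (h : G.St ℓ σ s) {a b : V} {c : ℕ} (ra : G.re a) (rb : G.re b)
    (hc : c = ℓ a b + 1 ∨ c + 1 = ℓ a b) (c1 : G.b ≤ c) (c2 : c ≤ 2 * G.b) :
    G.St (upN ℓ a b c) σ (s + 1) := by
  have sy := upN_sym h.sym a b c
  have key : ∃ x y : ℝ, 0 < x ∧ 0 < y ∧ x * y = 4 ∧ ∀ A, G.Z (e2 ℓ) A ≤ x * G.Z (e2 (upN ℓ a b c)) A ∧
      G.Z (e2 (upN ℓ a b c)) A ≤ y * G.Z (e2 ℓ) A := by
    rcases hc with rfl | hc
    · exact ⟨1, 4, by norm_num, by norm_num, by norm_num, fun A => by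
        simpa using Sk.Z_step h.sym a b A⟩
    · refine ⟨4, 1, by norm_num, by norm_num, by norm_num, fun A => ?_⟩
      have := Sk.Z_step (S := G.toSk) sy a b A
      rw [show upN (upN ℓ a b c) a b (upN ℓ a b c a b + 1) = ℓ by
        funext u v; have := h.sym a b; simp only [upN]; grind] at this
      simpa using this.symm
  obtain ⟨x, y, x0, y0, xy, key⟩ := key
  refine ⟨sy, fun u v ru rv e => ?_, fun u v e => ?_, h.so, h.sz, fun v rv hv => ?_⟩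
  · have := h.rng u v ru rv e
    simp only [upN]; split_ifs <;> omega
  · have := h.zero u v e
    simp only [upN]; grind
  · obtain ⟨a1, a2⟩ := h.acc v rv hv
    obtain ⟨b1, b2⟩ := key ∅
    obtain ⟨b3, b4⟩ := key {G.o, v}
    rw [← add_assoc, pow_succ, pow_succ, ← congrArg (4 ^ (σ v + s) * ·) xy, ← congrArg (4 ^ s * ·) xy]
    constructor
    · have := mul_le_mul_of_nonneg_left (a1.trans (mul_le_mul_of_nonneg_left b3 (by positivity))) y0.le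
      linarith
    · have c1 := mul_le_mul_of_nonneg_left b4 (by positivity : (0 : ℝ) ≤ 4 ^ σ v)
      have := mul_le_mul_of_nonneg_left (a2.trans (mul_le_mul_of_nonneg_left b1 (by positivity))) y0.le
      linarith

theorem St.slack (h : G.St ℓ σ s) (hs : s ≤ 5 * G.L) (hU : IsClo (G.a0 ℓ σ) U) {w : V} (rw' : G.re w) :
    G.Z (e2 ℓ) ({G.o} ∆ {w}) ≤ G.Z (e2 (G.tg ℓ U σ)) ({G.o} ∆ {w}) ∧
    G.Z (e2 (G.tg ℓ U σ)) ({G.o} ∆ {w}) ≤ (1 + 1 / 4 ^ (70 * G.L)) * G.Z (e2 ℓ) ({G.o} ∆ {w}) := by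
  classical
  have w0 := wt_e2 h.sym
  have hL := G.hL
  have le : ∀ u v, e2 ℓ u v ≤ e2 (G.tg ℓ U σ) u v := fun u v =>
    pow_le_pow_right₀ (by norm_num) (by simp only [tg]; omega)
  refine ⟨Sk.Z_mono w0 (fun u v _ _ _ => le u v) _, ?_⟩
  have n4 := G.n4
  have n0 : (0 : ℝ) ≤ Fintype.card V := by positivity
  have a1 : (Fintype.card (V × V) : ℝ) * (1 / 4 ^ (78 * G.L)) ≤ 1 / 4 ^ (76 * G.L) := by
    rw [Fintype.card_prod, mul_one_div, div_le_div_iff₀ (by positivity) (by positivity), one_mul,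
      show 78 * G.L = G.L + G.L + 76 * G.L by ring, pow_add, pow_add]
    push_cast
    exact mul_le_mul_of_nonneg_right (mul_le_mul (by linarith) (by linarith) n0 (by positivity))
      (by positivity)
  have a2 : 2 * (1 / (4 : ℝ) ^ (76 * G.L)) ≤ 1 / 4 ^ (70 * G.L) := by
    rw [mul_one_div, div_le_div_iff₀ (by positivity) (by positivity), one_mul]
    refine le_trans ?_ (pow_le_pow_right₀ (by norm_num) (by omega : 70 * G.L + 1 ≤ _))
    rw [pow_succ]; nlinarith [(by positivity : (0 : ℝ) < 4 ^ (70 * G.L))]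
  have a3 : 1 / (4 : ℝ) ^ (70 * G.L) ≤ 1 := by
    rw [div_le_one (by positivity)]; exact one_le_pow₀ (by norm_num)
  have a0' : (0 : ℝ) ≤ 1 / 4 ^ (76 * G.L) := by positivity
  have a4 := one_add_pow (by positivity : (0 : ℝ) ≤ 1 / 4 ^ (78 * G.L)) (Fintype.card (V × V)) (by linarith)
  refine (Sk.slack w0 (wt_e2 (tg_sym h.sym hU.sym)) le (fun A => ∃ w, G.re w ∧ A = {G.o} ∆ {w})
    (by positivity) (a4.trans (by linarith)) ?_ _ ⟨w, rw', rfl⟩).trans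
    (mul_le_mul_of_nonneg_right (by linarith) (Sk.Z0 w0 _))
  rintro ρ wρ l1 l2 A a b ⟨w, rw', rfl⟩ hab ra rb ha hb lt
  have eo : ∀ v, v ≠ G.o → ({G.o} : Finset V) ∆ {v} = {G.o, v} := fun v hv => by
    ext; simp only [mem_symmDiff, mem_insert, mem_singleton]; grind
  have l3 : ∀ v, G.re v → v ≠ G.o → 4 ^ σ v * G.Z ρ {G.o, v} ≤ 2 * (4 ^ (5 * G.L) * G.Z (e2 ℓ) ∅) := by
    intro v rv hv
    have := mul_le_mul_of_nonneg_left (l2 _ ⟨v, rv, (eo v hv).symm⟩) (by positivity : (0 : ℝ) ≤ 4 ^ σ v)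
    linarith [((h.mono hs).acc v rv hv).2]
  have l4 : ∀ A, G.Z (e2 ℓ) A ≤ G.Z ρ A := Sk.Z_mono w0 fun u v _ _ _ => l1 u v
  have k1 := h.key hs hU hab
  have e1 : G.tg ℓ U σ a b + (10 * G.b + 100 * G.L) = U a b + σ a + σ b := by
    have := (pow_lt_pow_iff_right₀ (by norm_num : (1 : ℝ) < 2)).1 lt
    simp only [tg, ra, not_true, false_and, if_false, h.Us_re hU ra rb] at this k1 ⊢
    omega
  rw [e2_sq]
  have zp := G.Zpos w0
  have oc : ∀ c, G.re c → c ≠ G.o → ∀ k, k + 100 * G.L = σ c →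
      4 ^ k * G.Z ρ {G.o, c} ≤ 1 / 4 ^ (78 * G.L) * G.Z ρ ∅ := by
    intro c rc hc k hk
    have b1 := l3 c rc hc
    rw [← hk, pow_add] at b1
    rw [one_div, le_inv_mul_iff₀ (by positivity)]
    have b2 : 2 * 4 ^ (5 * G.L) * (4 : ℝ) ^ (78 * G.L) ≤ 4 ^ (100 * G.L) := by
      refine le_trans ?_ (pow_le_pow_right₀ (by norm_num) (by omega : 1 + 5 * G.L + 78 * G.L ≤ _))
      rw [pow_add, pow_add]; gcongr; norm_num
    refine le_of_mul_le_mul_left ?_ (by positivity : (0 : ℝ) < 2 * 4 ^ (5 * G.L))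
    have b3 := mul_le_mul_of_nonneg_right b2 (mul_nonneg (by positivity : (0 : ℝ) ≤ 4 ^ k)
      (Sk.Z0 (S := G.toSk) wρ {G.o, c}))
    have b4 := mul_le_mul_of_nonneg_left (l4 ∅) (by positivity : (0 : ℝ) ≤ 2 * 4 ^ (5 * G.L))
    linarith
  by_cases ao : a = G.o
  · subst ao
    obtain rfl : w = G.o := by simpa [mem_symmDiff, eq_comm] using ha
    rw [symmDiff_self, bot_eq_empty, insert_empty_eq]
    rw [U_o hU hab, h.so] at e1
    exact oc b rb hab.symm _ (by omega)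
  by_cases bo : b = G.o
  · subst bo
    obtain rfl : w = G.o := by simpa [mem_symmDiff, eq_comm] using hb
    rw [symmDiff_self, bot_eq_empty, insert_empty_eq, pair_comm]
    rw [hU.sym, U_o hU hab.symm, h.so] at e1
    exact oc a ra hab _ (by omega)
  have aw : a ≠ w := fun e => ha (by simp [mem_symmDiff, ← e, ao])
  have bw : b ≠ w := fun e => hb (by simp [mem_symmDiff, ← e, bo])
  have u0 : 0 < U a b := by
    have c1 := hU.ge a b
    have := h.sig ra ao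
    have := h.sig rb bo
    have := h.rng a b ra rb hab
    have := G.hb
    simp only [a0, if_neg hab, ra, rb, ao, bo, ne_eq, not_false_iff, and_self, if_true] at c1
    omega
  let H : SimpleGraph V := ⟨fun x y => x ≠ y ∧ U a b ≤ G.a0 ℓ σ x y,
    ⟨fun x y e => ⟨e.1.symm, a0_sym h.sym x y ▸ e.2⟩⟩, ⟨fun x e => e.1 rfl⟩⟩
  have rc : H.Reachable a b := by
    have : ∀ y, TransGen (fun x y => U a b ≤ G.a0 ℓ σ x y) a y → H.Reachable a y := by
      intro y hy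
      have st : ∀ x y, U a b ≤ G.a0 ℓ σ x y → H.Reachable x y := fun x y e => by
        by_cases c : x = y
        · rw [c]
        · exact SimpleGraph.Adj.reachable ⟨c, e⟩
      induction hy with
      | single e => exact st _ _ e
      | tail _ e ih => exact ih.trans (st _ _ e)
    exact this b (hU.rch a b)
  obtain ⟨p, hp⟩ := rc.exists_isPath
  have lp : (p.length : ℝ) ≤ Fintype.card V := by exact_mod_cast hp.length_lt.le
  have ch := Sk.chain (S := G.toSk) wρ (o := G.o) (w := w) (t := 4 ^ U a b * G.Z (e2 ℓ) ∅ ^ 2 /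
    4 ^ (10 * G.b + 10 * G.L)) (by positivity) H (fun x y e => by
      obtain ⟨c1, c2⟩ := e
      simp only [a0, if_neg c1] at c2
      split_ifs at c2 with c
      swap
      · omega
      refine ⟨c.1, c.2.2.1, ?_⟩
      have d1 := ((h.mono hs).acc x c.1 c.2.2.1).1.trans
        (mul_le_mul_of_nonneg_left (l4 _) (by positivity))
      have d2 := ((h.mono hs).acc y c.2.1 c.2.2.2).1.trans
        (mul_le_mul_of_nonneg_left (l4 _) (by positivity))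
      have d3 := mul_le_mul d1 d2 zp.le (zp.le.trans d1)
      have d4 := pow_le_pow_left₀ (w0.pos _ _).le (l1 x y) 2
      have d5 : (4 : ℝ) ^ (U a b + (σ x + 5 * G.L) + (σ y + 5 * G.L)) ≤ 4 ^ (ℓ x y + (10 * G.b + 10 * G.L)) :=
        pow_le_pow_right₀ (by norm_num) (by omega)
      have d6 := mul_nonneg (Sk.Z0 (S := G.toSk) wρ {G.o, x}) (Sk.Z0 (S := G.toSk) wρ {G.o, y})
      rw [e2_sq] at d4
      rw [pow_add, pow_add, pow_add (4 : ℝ) (ℓ x y)] at d5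
      rw [div_le_iff₀ (by positivity)]
      have d7 := mul_le_mul_of_nonneg_left d3 (by positivity : (0 : ℝ) ≤ 4 ^ U a b)
      have d8 := mul_le_mul_of_nonneg_right (d5.trans (mul_le_mul_of_nonneg_right d4 (by positivity))) d6
      linarith) p hab ao aw bo bw
  have z1 := Sk.Z0 (S := G.toSk) wρ ({G.o} ∆ {w})
  have z2 := Sk.Z0 (S := G.toSk) wρ (insert a (insert b ({G.o} ∆ {w})))
  have f1 := mul_le_mul (l3 a ra ao) (l3 b rb bo) (mul_nonneg (by positivity) (Sk.Z0 wρ _)) (by positivity)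
  generalize G.Z ρ (insert a (insert b ({G.o} ∆ {w}))) = X at *
  generalize G.Z ρ ({G.o} ∆ {w}) = Y at *
  have f2 := ch.trans (mul_le_mul_of_nonneg_right (by linarith : 2 * (p.length : ℝ) ≤ 4 ^ G.L)
    (mul_nonneg z1 (mul_nonneg (Sk.Z0 wρ _) (Sk.Z0 wρ _))))
  have f3 := mul_le_mul_of_nonneg_left f2 (by positivity : (0 : ℝ) ≤ 4 ^ σ a * 4 ^ σ b)
  have f4 := mul_le_mul_of_nonneg_left f1 (by positivity : (0 : ℝ) ≤ 4 ^ G.L * Y)
  have f5 : (4 : ℝ) ^ σ a * 4 ^ σ b * 4 ^ U a b / 4 ^ (10 * G.b + 10 * G.L)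
      = 4 ^ G.tg ℓ U σ a b * 4 ^ (90 * G.L) := by
    rw [div_eq_iff (by positivity), ← pow_add, ← pow_add, ← pow_add, ← pow_add]; congr 1; omega
  have f6 : G.Z (e2 ℓ) ∅ ^ 2 * (4 ^ G.tg ℓ U σ a b * 4 ^ (90 * G.L) * X)
      ≤ G.Z (e2 ℓ) ∅ ^ 2 * (4 * 4 ^ G.L * 4 ^ (5 * G.L) * 4 ^ (5 * G.L) * Y) := by
    rw [← f5]
    refine le_trans (le_of_eq (by ring)) (f3.trans (le_trans (le_of_eq (by ring))
      (f4.trans (le_of_eq (by ring)))))
  have f7 := le_of_mul_le_mul_left f6 (by positivity)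
  have f8 : 4 * 4 ^ G.L * 4 ^ (5 * G.L) * 4 ^ (5 * G.L) * (4 : ℝ) ^ (78 * G.L) ≤ 4 ^ (90 * G.L) := by
    rw [← pow_succ', ← pow_add, ← pow_add, ← pow_add]; exact pow_le_pow_right₀ (by norm_num) (by omega)
  rw [one_div, le_inv_mul_iff₀ (by positivity)]
  refine le_of_mul_le_mul_left ?_ (by positivity : (0 : ℝ) < 4 * 4 ^ G.L * 4 ^ (5 * G.L) * 4 ^ (5 * G.L))
  have f9 := mul_le_mul_of_nonneg_right f8 (by positivity : (0 : ℝ) ≤ 4 ^ G.tg ℓ U σ a b * X)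
  linarith

open Classical in
noncomputable def Dm (G : Gr V) (r : V → V → ℝ) : ℝ := ∏ z ∈ univ.filter (¬ G.re ·), r z (G.mt.1 z)

theorem bridge (r : V → V → ℝ) (ev : (V → V) → Prop) [DecidablePred ev] [DecidablePred G.cl] :
    ∑ T ∈ univ.filter (fun T : PM V => G.cl T ∧ ev T.1), T.wt r
      = G.Dm r * ∑ f ∈ (G.Fam ∅).filter ev, G.wt r f := by
  classical
  rw [mul_sum]
  refine sum_bij (fun T _ => T.1) (fun T hT => ?_) (fun _ _ _ _ e => Subtype.ext e) (fun f hf => ?_)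
    fun T hT => ?_
  · obtain ⟨a, b⟩ := (mem_filter.1 hT).2
    exact mem_filter.2 ⟨Sk.mem_Fam.2 ⟨T.2.1, by simp [T.2.2], a⟩, b⟩
  · obtain ⟨a, b⟩ := mem_filter.1 hf
    obtain ⟨a1, a2, a3⟩ := Sk.mem_Fam.1 a
    exact ⟨⟨f, a1, by simpa using a2⟩, mem_filter.2 ⟨mem_univ _, a3, b⟩, rfl⟩
  · rw [PM.wt, ← prod_filter_mul_prod_filter_not univ G.re, mul_comm, Dm, Sk.wt]
    congr 1
    · exact prod_congr rfl fun z hz => by rw [(mem_filter.1 hT).2.1 z (mem_filter.1 hz).2]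
    · exact prod_congr rfl fun u _ => by rw [dg, if_neg (T.2.2 u)]

theorem clean_part {r : V → V → ℝ} (w : Wt r) (cl ev : PM V → Prop) [DecidablePred cl]
    [DecidablePred ev] {k : ℕ}
    (hm : ∀ T, ¬ cl T → ev T → ∃ p q, p ≠ q ∧ 4 ^ (k + 2 * G.L) * pr r T ≤ pr r (T.cn p q) ∧ ev (T.cn p q)) :
    (1 - 1 / 4 ^ k) * ∑ T ∈ univ.filter ev, T.wt r ≤ ∑ T ∈ univ.filter (fun T => cl T ∧ ev T), T.wt r := by
  have a := dirty_le w cl ev _ hm
  simp only [pr, ← sum_div, ← mul_div_assoc] at a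
  rw [div_le_div_iff_of_pos_right (w.z_pos G.mt), pow_add] at a
  have b := sum_filter_add_sum_filter_not (univ.filter ev) cl (PM.wt r)
  rw [filter_filter, filter_filter] at b
  simp only [and_comm (a := ev _)] at b
  have p : ∀ s : Finset (PM V), 0 ≤ ∑ T ∈ s, T.wt r := fun s => sum_nonneg fun T _ => (w.wt_pos T).le
  have c := mul_le_mul_of_nonneg_right G.n3 (p (univ.filter ev))
  have d : 4 ^ k * ∑ T ∈ univ.filter (fun T => ¬ cl T ∧ ev T), T.wt r ≤ ∑ T ∈ univ.filter ev, T.wt r := by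
    refine le_of_mul_le_mul_left ?_ (by positivity : (0 : ℝ) < 4 ^ (2 * G.L))
    nlinarith [mul_nonneg (by positivity : (0 : ℝ) ≤ (Fintype.card V : ℝ) ^ 3) (p (univ.filter ev))]
  rw [← le_div_iff₀' (by positivity)] at d
  rw [sub_mul, one_mul, one_div_mul_eq_div]
  linarith

theorem St.clean (h : G.St ℓ σ s) (hs : s ≤ 5 * G.L) (hU : IsClo (G.a0 ℓ σ) U) (T : PM V) (hT : ¬ G.cl T) :
    ∃ z, ¬ G.re z ∧ 4 ^ (70 * G.L + 2 * G.L) * pr (e2 (G.tg ℓ U σ)) T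
      ≤ pr (e2 (G.tg ℓ U σ)) (T.cn z (G.mt.1 z)) := by
  obtain ⟨z, rz, hz⟩ : ∃ z, ¬ G.re z ∧ T.1 z ≠ G.mt.1 z := by simpa [cl] using hT
  exact ⟨z, rz, gain_of (tg_sym h.sym hU.sym) (G.mt.2.2 z).symm hz
    (by have := h.gain hs hU T rz hz; omega)⟩

theorem small (G : Gr V) : 1 / (4 : ℝ) ^ (70 * G.L) ≤ 1 / 1000 := by
  refine one_div_le_one_div_of_le (by norm_num) (le_trans (by norm_num)
    (pow_le_pow_right₀ (by norm_num) (by have := G.hL; omega : 5 ≤ 70 * G.L)))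

theorem St.total (h : G.St ℓ σ s) (hs : s ≤ 5 * G.L) (hU : IsClo (G.a0 ℓ σ) U) :
    G.Dm (e2 (G.tg ℓ U σ)) * G.Z (e2 ℓ) ∅ ≤ Zs (e2 (G.tg ℓ U σ)) ∧
    Zs (e2 (G.tg ℓ U σ)) ≤ (1 + 3 / 4 ^ (70 * G.L)) * (G.Dm (e2 (G.tg ℓ U σ)) * G.Z (e2 ℓ) ∅) := by
  classical
  have w := wt_e2 (tg_sym (G := G) (σ := σ) h.sym hU.sym)
  have a := clean_part (G := G) w G.cl (fun _ => True) (k := 70 * G.L) fun T hT _ => by
    obtain ⟨z, -, e⟩ := h.clean hs hU T hT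
    exact ⟨z, _, (G.mt.2.2 z).symm, e, trivial⟩
  have b := bridge (G := G) (e2 (G.tg ℓ U σ)) (fun _ => True)
  obtain ⟨c1, c2⟩ := h.slack hs hU G.ro
  rw [symmDiff_self, bot_eq_empty] at c1 c2
  have d0 : 0 ≤ G.Dm (e2 (G.tg ℓ U σ)) := prod_nonneg fun _ _ => (w.pos _ _).le
  have d1 := mul_le_mul_of_nonneg_left c1 d0
  have d2 := mul_le_mul_of_nonneg_left c2 d0
  rw [filter_true] at b
  rw [filter_true, b] at a
  have e : ∑ T ∈ univ.filter (fun T : PM V => G.cl T ∧ True), T.wt (e2 (G.tg ℓ U σ)) ≤ Zs _ :=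
    sum_le_sum_of_subset_of_nonneg (filter_subset _ _) fun T _ _ => (w.wt_pos T).le
  rw [b] at e
  refine ⟨d1.trans e, ?_⟩
  have sm := G.small
  have z0 := mul_nonneg d0 (Sk.Z0 (S := G.toSk) (wt_e2 h.sym) ∅)
  rw [show (3 : ℝ) / 4 ^ (70 * G.L) = 3 * (1 / 4 ^ (70 * G.L)) by ring]
  have x0 : (0 : ℝ) ≤ 1 / 4 ^ (70 * G.L) := by positivity
  generalize (1 : ℝ) / 4 ^ (70 * G.L) = x at *
  refine le_of_mul_le_mul_left (a.trans (d2.trans ?_)) (by linarith)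
  nlinarith [mul_nonneg z0 (mul_nonneg x0 (by linarith : 0 ≤ 1 - 3 * x))]

theorem St.prob (h : G.St ℓ σ s) (hs : s ≤ 5 * G.L) (hU : IsClo (G.a0 ℓ σ) U) {v : V} (rv : G.re v)
    (hv : v ≠ G.o) :
    4 ^ G.tg ℓ U σ G.o v * G.Z (e2 ℓ) {G.o, v} ≤ 2 * pe (e2 (G.tg ℓ U σ)) G.o v * G.Z (e2 ℓ) ∅ ∧
    pe (e2 (G.tg ℓ U σ)) G.o v * G.Z (e2 ℓ) ∅ ≤ 2 * (4 ^ G.tg ℓ U σ G.o v * G.Z (e2 ℓ) {G.o, v}) := by
  classical
  have w := wt_e2 (tg_sym (G := G) (σ := σ) h.sym hU.sym)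
  have a := clean_part (G := G) w G.cl (fun T => T.1 G.o = v) (k := 70 * G.L) fun T hT e => by
    obtain ⟨z, rz, e'⟩ := h.clean hs hU T hT
    have n : ∀ y, ¬ G.re y → G.o ≠ y ∧ G.o ≠ T.1 y := fun y ry =>
      ⟨fun c => ry (c ▸ G.ro), fun c => ry (by rw [← T.sym c.symm, e]; exact rv)⟩
    exact ⟨z, _, (G.mt.2.2 z).symm, e', by
      rw [PM.cn_other _ (n z rz).1 (n _ (G.nre rz)).1 (n z rz).2 (n _ (G.nre rz)).2, e]⟩
  have b := bridge (G := G) (e2 (G.tg ℓ U σ)) (fun f => f G.o = v)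
  rw [Sk.Z_edge w hv.symm G.ro rv (notMem_empty _) (notMem_empty _), insert_empty_eq, e2_sq] at b
  obtain ⟨c1, c2⟩ := h.slack hs hU rv
  rw [show ({G.o} : Finset V) ∆ {v} = {G.o, v} by
    ext; simp only [mem_symmDiff, mem_insert, mem_singleton]; grind] at c1 c2
  obtain ⟨t1, t2⟩ := h.total hs hU
  have e : ∑ T ∈ univ.filter (fun T : PM V => G.cl T ∧ T.1 G.o = v), T.wt (e2 (G.tg ℓ U σ))
      ≤ ∑ T ∈ univ.filter (fun T : PM V => T.1 G.o = v), T.wt (e2 (G.tg ℓ U σ)) :=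
    sum_le_sum_of_subset_of_nonneg (fun T hT => mem_filter.2 ⟨mem_univ _, (mem_filter.1 hT).2.2⟩)
      fun T _ _ => (w.wt_pos T).le
  have e1 : ∑ T ∈ univ.filter (fun T : PM V => T.1 G.o = v), T.wt (e2 (G.tg ℓ U σ))
      = pe (e2 (G.tg ℓ U σ)) G.o v * Zs (e2 (G.tg ℓ U σ)) := by
    simp only [pe, pr, ← sum_div, Zs]
    rw [div_mul_cancel₀ _ (w.z_pos G.mt).ne']
  have p0 : 0 ≤ pe (e2 (G.tg ℓ U σ)) G.o v := sum_nonneg fun T _ => (w.pr_pos T).le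
  have d0 : 0 < G.Dm (e2 (G.tg ℓ U σ)) := prod_pos fun _ _ => w.pos _ _
  have sm := G.small
  have z0 := Sk.Z0 (S := G.toSk) (wt_e2 h.sym) ∅
  have z1 := Sk.Z0 (S := G.toSk) (wt_e2 h.sym) {G.o, v}
  rw [b, e1] at a e
  rw [show (3 : ℝ) / 4 ^ (70 * G.L) = 3 * (1 / 4 ^ (70 * G.L)) by ring] at t2
  have x0 : (0 : ℝ) ≤ 1 / 4 ^ (70 * G.L) := by positivity
  have y0 : (0 : ℝ) ≤ 4 ^ G.tg ℓ U σ G.o v := by positivity
  generalize (1 : ℝ) / 4 ^ (70 * G.L) = x at *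
  generalize (4 : ℝ) ^ G.tg ℓ U σ G.o v = y at *
  have f1 := mul_le_mul_of_nonneg_left c1 (mul_nonneg d0.le y0)
  have f2 := mul_le_mul_of_nonneg_left c2 (mul_nonneg d0.le y0)
  have f3 := mul_le_mul_of_nonneg_left t1 p0
  have f4 := mul_le_mul_of_nonneg_left t2 p0
  have g1 := mul_nonneg p0 (mul_nonneg d0.le z0)
  have g2 := mul_nonneg d0.le (mul_nonneg y0 z1)
  constructor
  · refine le_of_mul_le_mul_left ?_ d0
    nlinarith
  · refine le_of_mul_le_mul_left ?_ d0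
    nlinarith

theorem St.upd (h : G.St ℓ σ s) (hs : s ≤ 5 * G.L) (hU : IsClo (G.a0 ℓ σ) U) {v : V} (rv : G.re v)
    (hv : v ≠ G.o) {c B : ℕ} (B0 : 0 < B)
    (hc : |(c : ℝ) - pe (e2 (G.tg ℓ U σ)) G.o v * B| ≤ 1 / 4 ^ (128 * G.L) * B) :
    0 < c ∧ ∀ j, B ≤ c * 4 ^ j → (j = 0 ∨ c * 4 ^ j < 4 * B) →
      G.Z (e2 ℓ) ∅ ≤ 4 ^ (G.tg ℓ U σ G.o v + j + 3) * G.Z (e2 ℓ) {G.o, v} ∧
      4 ^ (G.tg ℓ U σ G.o v + j) * G.Z (e2 ℓ) {G.o, v} ≤ 4 ^ 3 * G.Z (e2 ℓ) ∅ := by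
  obtain ⟨a1, a2⟩ := h.prob hs hU rv hv
  have w := wt_e2 (tg_sym (G := G) (σ := σ) h.sym hU.sym)
  have p1 : pe (e2 (G.tg ℓ U σ)) G.o v ≤ 1 := w.sum_pr G.mt ▸
    sum_le_sum_of_subset_of_nonneg (filter_subset _ _) fun T _ _ => (w.pr_pos T).le
  have zp := G.Zpos (wt_e2 h.sym)
  have hp := h.hpos rv hv
  have hL := G.hL
  have k1 := (h.key hs hU hv.symm).1
  rw [h.so] at k1
  have b1 : 4 * (1 / 4 ^ (128 * G.L)) ≤ pe (e2 (G.tg ℓ U σ)) G.o v := by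
    have c1 := (h.acc v rv hv).1.trans (mul_le_mul_of_nonneg_right (pow_le_pow_right₀ (by norm_num)
      (by omega : σ v + s ≤ G.tg ℓ U σ G.o v + 105 * G.L)) hp.le)
    rw [pow_add, mul_right_comm] at c1
    have c2 := c1.trans (mul_le_mul_of_nonneg_right a1 (by positivity))
    have c3 : 8 * (4 : ℝ) ^ (105 * G.L) ≤ 4 ^ (128 * G.L) := by
      refine le_trans ?_ (pow_le_pow_right₀ (by norm_num) (by omega : 2 + 105 * G.L ≤ _))
      rw [pow_add]; gcongr; norm_num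
    rw [mul_one_div, div_le_iff₀ (by positivity)]
    have c4 : 1 ≤ 2 * pe (e2 (G.tg ℓ U σ)) G.o v * 4 ^ (105 * G.L) :=
      le_of_mul_le_mul_right (by linarith) zp
    have p0 : 0 ≤ pe (e2 (G.tg ℓ U σ)) G.o v := sum_nonneg fun T _ => (w.pr_pos T).le
    nlinarith
  have x0 : (0 : ℝ) < 1 / 4 ^ (128 * G.L) := by positivity
  have B1 : (0 : ℝ) < B := by exact_mod_cast B0
  generalize (1 : ℝ) / 4 ^ (128 * G.L) = x at *
  generalize pe (e2 (G.tg ℓ U σ)) G.o v = p at *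
  obtain ⟨c1, c2⟩ := abs_le.1 hc
  have c3 : 3 / 4 * (p * B) ≤ c := by nlinarith
  have c4 : c ≤ 5 / 4 * (p * B) := by nlinarith
  have p0 : 0 < p := by linarith
  refine ⟨by exact_mod_cast (by positivity : 0 < 3 / 4 * (p * B)).trans_le c3, fun j j1 j2 => ?_⟩
  have j3 : (B : ℝ) ≤ c * 4 ^ j := by exact_mod_cast j1
  have j4 : (c : ℝ) * 4 ^ j ≤ 4 * B := by
    rcases j2 with rfl | j2
    · rw [pow_zero]; nlinarith
    · exact_mod_cast j2.le
  have y0 : (0 : ℝ) < 4 ^ j := by positivity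
  have d1 : 1 ≤ 5 / 4 * p * 4 ^ j := le_of_mul_le_mul_right (by nlinarith) B1
  have d2 : 3 / 4 * p * 4 ^ j ≤ 4 := le_of_mul_le_mul_right (by nlinarith) B1
  rw [pow_add, pow_add]
  have y1 := mul_pos (by positivity : (0 : ℝ) < 4 ^ G.tg ℓ U σ G.o v) hp
  constructor <;> nlinarith

end Gr

end Vale.Agent.P308
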