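import Vale.Agent.P308.Poin

/-! P308: near-perfect matchings, the exchange inequality, and harmless extra edges. -/

namespace Vale.Agent.P308
open Finset
open scoped symmDiff

variable {V : Type} [DecidableEq V] [Fintype V]

/-- Real vertices and a reference matching that respects them. -/
structure Sk (V : Type) where
  re : V → Prop
  mt : PM V
  hre : ∀ u, re u → re (mt.1 u)

def dg (r : V → V → ℝ) (u v : V) : ℝ := if v = u then 1 else r u v

def up (r : V → V → ℝ) (a b : V) (c : ℝ) (u v : V) : ℝ :=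
  if (u = a ∧ v = b) ∨ (u = b ∧ v = a) then c else r u v

theorem Wt.up {r : V → V → ℝ} (h : Wt r) (a b : V) {c : ℝ} (hc : 0 < c) : Wt (up r a b c) :=
  ⟨fun u v => by unfold P308.up; split_ifs; exacts [hc, h.pos u v],
    fun u v => by simp only [P308.up, h.sym u v, and_comm, or_comm]⟩

theorem prod_two (s : Finset V) {a b : V} (hab : a ≠ b) (ha : a ∈ s) (hb : b ∈ s) (F G : V → ℝ)
    (h : ∀ u, u ≠ a → u ≠ b → F u = G u) :
    (∏ u ∈ s, F u) * (G a * G b) = (∏ u ∈ s, G u) * (F a * F b) := by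
  have hb' : b ∈ s.erase a := mem_erase.2 ⟨hab.symm, hb⟩
  rw [← mul_prod_erase _ F ha, ← mul_prod_erase _ G ha, ← mul_prod_erase _ F hb',
    ← mul_prod_erase _ G hb', prod_congr rfl fun u hu =>
      h u (mem_erase.1 (mem_erase.1 hu).2).1 (mem_erase.1 hu).1]
  ring

theorem prod_up_ne (s : Finset V) (r : V → V → ℝ) {f : V → V} (hf : ∀ u, f (f u) = u) {a b : V}
    (c : ℝ) (h : f a ≠ b) : ∏ u ∈ s, up r a b c u (f u) = ∏ u ∈ s, r u (f u) :=
  prod_congr rfl fun u _ => if_neg (by
    rintro (⟨rfl, e⟩ | ⟨rfl, e⟩)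
    exacts [h e, h (by rw [← e, hf])])

namespace Sk
variable (S : Sk V)

open Classical in
noncomputable def Fam (A : Finset V) : Finset (V → V) := univ.filter fun f =>
  (∀ u, f (f u) = u) ∧ (∀ u, f u = u ↔ u ∈ A) ∧ ∀ z, ¬ S.re z → f z = S.mt.1 z

open Classical in
noncomputable def wt (r : V → V → ℝ) (f : V → V) : ℝ := ∏ u ∈ univ.filter S.re, dg r u (f u)

noncomputable def Z (r : V → V → ℝ) (A : Finset V) : ℝ := ∑ f ∈ S.Fam A, S.wt r f

variable {S} {r : V → V → ℝ}

theorem mem_Fam {A : Finset V} {f : V → V} : f ∈ S.Fam A ↔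
    (∀ u, f (f u) = u) ∧ (∀ u, f u = u ↔ u ∈ A) ∧ ∀ z, ¬ S.re z → f z = S.mt.1 z := by simp [Fam]

theorem re_of {f : V → V} (h1 : ∀ u, f (f u) = u) (h3 : ∀ z, ¬ S.re z → f z = S.mt.1 z) {u : V}
    (hu : S.re u) : S.re (f u) := by
  by_contra h
  have := S.hre _ hu
  rw [← h1 u, h3 _ h, S.mt.2.1] at this
  exact h this

theorem wt_pos (h : Wt r) (f : V → V) : 0 < S.wt r f :=
  prod_pos fun _ _ => by unfold dg; split_ifs; exacts [one_pos, h.pos _ _]

theorem Z0 (h : Wt r) (A : Finset V) : 0 ≤ S.Z r A := sum_nonneg fun f _ => (wt_pos h f).le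

theorem Z_mono (h : Wt r) {r' : V → V → ℝ} (hr : ∀ u v, S.re u → S.re v → u ≠ v → r u v ≤ r' u v)
    (A : Finset V) : S.Z r A ≤ S.Z r' A := by
  classical
  refine sum_le_sum fun f hf => prod_le_prod (fun _ _ => ?_) fun u hu => ?_
  · unfold dg; split_ifs; exacts [zero_le_one, (h.pos _ _).le]
  · have := (mem_filter.1 hu).2
    unfold dg; split_ifs with e
    exacts [le_rfl, hr _ _ this (re_of (mem_Fam.1 hf).1 (mem_Fam.1 hf).2.2 this) (Ne.symm e)]

theorem Z_edge (h : Wt r) {A : Finset V} {a b : V} (hab : a ≠ b) (ra : S.re a) (rb : S.re b)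
    (ha : a ∉ A) (hb : b ∉ A) :
    ∑ f ∈ (S.Fam A).filter (· a = b), S.wt r f = r a b ^ 2 * S.Z r (insert a (insert b A)) := by
  classical
  rw [Z, mul_sum]
  refine sum_nbij' (fun f u => if u = a ∨ u = b then u else f u)
    (fun g u => if u = a then b else if u = b then a else g u) ?_ ?_ ?_ ?_ ?_
  · intro f hf
    obtain ⟨hf, e⟩ := mem_filter.1 hf
    obtain ⟨h1, h2, h3⟩ := mem_Fam.1 hf
    have := h1 a
    refine mem_Fam.2 ⟨fun u => ?_, fun u => ?_, fun z hz => ?_⟩
    · have := h1 u; grind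
    · have := h2 u; simp only [mem_insert]; grind
    · have := h3 z hz; grind
  · intro g hg
    obtain ⟨h1, h2, h3⟩ := mem_Fam.1 hg
    have a1 := (h2 a).2 (by simp)
    have a2 := (h2 b).2 (by simp)
    refine mem_filter.2 ⟨mem_Fam.2 ⟨fun u => ?_, fun u => ?_, fun z hz => ?_⟩, by simp⟩
    · have := h1 u; grind
    · have := h2 u; simp only [mem_insert] at this; grind
    · have := h3 z hz; grind
  · intro f hf
    obtain ⟨hf, e⟩ := mem_filter.1 hf
    have := (mem_Fam.1 hf).1 a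
    funext u; grind
  · intro g hg
    obtain ⟨h1, h2, h3⟩ := mem_Fam.1 hg
    have a1 := (h2 a).2 (by simp)
    have a2 := (h2 b).2 (by simp)
    funext u; grind
  · intro f hf
    obtain ⟨hf, e⟩ := mem_filter.1 hf
    have e' : f b = a := by rw [← e, (mem_Fam.1 hf).1]
    have := prod_two (univ.filter S.re) hab (by simpa using ra) (by simpa using rb)
      (fun u => dg r u (f u)) (fun u => dg r u (if u = a ∨ u = b then u else f u))
      (fun u h1 h2 => by simp [h1, h2])
    simp only [true_or, or_true, if_true, dg, e, e', if_neg hab, if_neg hab.symm, h.sym b a,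
      mul_one] at this
    simp only [wt, dg]
    rw [this]; ring

theorem edge_le (h : Wt r) {A : Finset V} {a b : V} (hab : a ≠ b) (ra : S.re a) (rb : S.re b)
    (ha : a ∉ A) (hb : b ∉ A) : r a b ^ 2 * S.Z r (insert a (insert b A)) ≤ S.Z r A := by
  rw [← Z_edge h hab ra rb ha hb]
  exact sum_le_sum_of_subset_of_nonneg (filter_subset _ _) fun f _ _ => (wt_pos h f).le

open Classical in
theorem Z_split (h : Wt r) {A : Finset V} {a : V} (ra : S.re a) (ha : a ∉ A) :
    S.Z r A = ∑ b ∈ univ.filter (fun b => S.re b ∧ a ≠ b ∧ b ∉ A),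
      r a b ^ 2 * S.Z r (insert a (insert b A)) := by
  rw [Z, ← sum_fiberwise_of_maps_to (g := fun f => f a)
    (t := univ.filter (fun b => S.re b ∧ a ≠ b ∧ b ∉ A))]
  · exact sum_congr rfl fun b hb => by
      obtain ⟨b1, b2, b3⟩ := (mem_filter.1 hb).2
      exact Z_edge h b2 ra b1 ha b3
  · intro f hf
    obtain ⟨h1, h2, h3⟩ := mem_Fam.1 hf
    refine mem_filter.2 ⟨mem_univ _, re_of h1 h3 ra, fun e => ha ((h2 a).1 e.symm), fun e => ha ?_⟩
    have := (h2 _).2 e
    rw [h1] at this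
    exact this ▸ e

theorem Z_low (h : Wt r) {o v : V} (ro : S.re o) (rv : S.re v) (hov : o ≠ v) {lo hi : ℝ}
    (l0 : 0 < lo) (hl : ∀ x y, S.re x → S.re y → x ≠ y → lo ≤ r x y ∧ r x y ≤ hi) :
    lo ^ 2 * S.Z r ∅ ≤ Fintype.card V * hi ^ 4 * S.Z r {o, v} := by
  classical
  have l1 := (hl o v ro rv hov).1.trans (hl o v ro rv hov).2
  have key : ∀ u, S.re u → o ≠ u → lo ^ 2 * S.Z r {o, u} ≤ hi ^ 2 * S.Z r {o, v} := by
    intro u ru hu
    by_cases e : u = v
    · rw [e]; exact mul_le_mul_of_nonneg_right (pow_le_pow_left₀ l0.le l1 2) (Z0 h _)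
    rw [Z_split h rv (by simp [hov.symm, Ne.symm e]), Z_split h (A := {o, v}) ru (by simp [hu.symm, e]),
      mul_sum, mul_sum]
    refine le_trans (sum_le_sum fun y hy => ?_) (le_of_eq (sum_congr ?_ fun _ _ => rfl))
    · simp only [mem_filter, mem_univ, true_and, mem_insert, mem_singleton, not_or] at hy
      have a1 := pow_le_pow_left₀ (h.pos _ _).le (hl v y rv hy.1 hy.2.1).2 2
      have a2 := pow_le_pow_left₀ l0.le (hl u y ru hy.1 (Ne.symm hy.2.2.2)).1 2
      rw [show insert v (insert y {o, u}) = insert u (insert y ({o, v} : Finset V)) by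
        ext; simp only [mem_insert, mem_singleton]; tauto, ← mul_assoc, ← mul_assoc]
      refine mul_le_mul_of_nonneg_right ?_ (Z0 h _)
      rw [mul_comm]
      exact mul_le_mul a1 a2 (by positivity) (by positivity)
    · ext y; simp only [mem_filter, mem_univ, true_and, mem_insert, mem_singleton, not_or]; grind
  rw [Z_split h ro (notMem_empty _), mul_sum, mul_assoc, ← card_univ, ← nsmul_eq_mul]
  refine le_trans (sum_le_card_nsmul _ _ (hi ^ 4 * S.Z r {o, v}) fun u hu => ?_)
    (nsmul_le_nsmul_left (mul_nonneg (by positivity) (Z0 h _)) (card_filter_le _ _))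
  obtain ⟨b1, b2, -⟩ := (mem_filter.1 hu).2
  have a1 := pow_le_pow_left₀ (h.pos _ _).le (hl o u ro b1 b2).2 2
  have a2 := mul_le_mul a1 (key u b1 b2) (mul_nonneg (by positivity) (Z0 h _)) (by positivity)
  rw [insert_empty_eq]
  linarith

theorem exch (h : Wt r) {A B : Finset V} {y : V} (hA : y ∉ A) (hB : y ∈ B) :
    S.Z r A * S.Z r B ≤ ∑ e ∈ (A ∆ B).erase y, S.Z r (A ∆ {y, e}) * S.Z r (B ∆ {y, e}) := by
  classical
  have eZ : ∀ A B, S.Z r A * S.Z r B = ∑ Q : Bool → V → V,
      if Q false ∈ S.Fam A ∧ Q true ∈ S.Fam B then S.wt r (Q false) * S.wt r (Q true) else 0 := by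
    intro A B
    refine Eq.trans ?_ (Fintype.sum_equiv (Equiv.boolArrowEquivProd (V → V)) _ (fun z =>
      if z.1 ∈ S.Fam A ∧ z.2 ∈ S.Fam B then S.wt r z.1 * S.wt r z.2 else 0) fun _ => rfl).symm
    rw [← sum_filter, Z, Z, sum_mul_sum, ← sum_product']
    exact sum_congr (by ext; simp) fun _ _ => rfl
  simp only [eZ]
  rw [sum_comm, ← sum_invol (F := fun Q : Bool → V → V => swS (Cy Q y) Q)
    (fun Q => by rw [cy_swS, swS_swS]) (fun Q => ∑ e ∈ (A ∆ B).erase y, _)]
  refine sum_le_sum fun Q _ => ?_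
  have n0 : ∀ e ∈ (A ∆ B).erase y, 0 ≤ (if swS (Cy Q y) Q false ∈ S.Fam (A ∆ {y, e}) ∧
      swS (Cy Q y) Q true ∈ S.Fam (B ∆ {y, e}) then
      S.wt r (swS (Cy Q y) Q false) * S.wt r (swS (Cy Q y) Q true) else 0) := fun e _ => by
    split_ifs; exacts [(mul_pos (wt_pos h _) (wt_pos h _)).le, le_rfl]
  split_ifs with hQ
  swap
  · exact sum_nonneg n0
  obtain ⟨⟨f1, f2, f3⟩, g1, g2, g3⟩ := And.intro (mem_Fam.1 hQ.1) (mem_Fam.1 hQ.2)
  have i2 : Inv2 Q := fun c => by cases c; exacts [f1, g1]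
  have y1 := (g2 y).2 hB
  have y0 : Q false y ≠ y := fun e => hA ((f2 y).1 e)
  obtain ⟨e, e1, e2, ⟨c, e3, e4⟩, e5⟩ := path_exists i2 y1 y0
  have e6 : e ∈ A ↔ e ∉ B := by
    rw [← f2, ← g2]; cases c <;> simp only [Bool.not_true, Bool.not_false] at e4 <;> tauto
  refine le_trans (le_of_eq ?_) (single_le_sum n0 (mem_erase.2 ⟨e2, by
    rw [mem_symmDiff]; tauto⟩))
  have inv := swS_inv i2 (cl_cy Q y)
  rw [if_pos, wt, wt, wt, wt, prod_swS]
  refine ⟨mem_Fam.2 ⟨inv false, fun u => ?_, fun z hz => ?_⟩, mem_Fam.2 ⟨inv true, fun u => ?_,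
    fun z hz => ?_⟩⟩
  · have := e5 u
    simp only [mem_symmDiff, mem_insert, mem_singleton]
    by_cases hu : Cy Q y u
    · rw [swS, glue_in hu, Bool.not_false, g2]
      have a1 := f2 u; have a2 := g2 u; grind
    · rw [swS, glue_out hu, f2]
      have := Cy.refl Q y; grind
  · by_cases hu : Cy Q y z
    · rw [swS, glue_in hu]; exact g3 z hz
    · rw [swS, glue_out hu]; exact f3 z hz
  · have := e5 u
    simp only [mem_symmDiff, mem_insert, mem_singleton]
    by_cases hu : Cy Q y u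
    · rw [swS, glue_in hu, Bool.not_true, f2]
      have a1 := f2 u; have a2 := g2 u; grind
    · rw [swS, glue_out hu, g2]
      have := Cy.refl Q y; grind
  · by_cases hu : Cy Q y z
    · rw [swS, glue_in hu]; exact f3 z hz
    · rw [swS, glue_out hu]; exact g3 z hz

theorem chain (h : Wt r) {o w : V} {t : ℝ} (t0 : 0 < t) (G : SimpleGraph V)
    (hG : ∀ x y, G.Adj x y → S.re x ∧ x ≠ o ∧ t ≤ r x y ^ 2 * (S.Z r {o, x} * S.Z r {o, y}))
    {a b : V} (p : G.Walk a b) : a ≠ b → a ≠ o → a ≠ w → b ≠ o → b ≠ w →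
    t * S.Z r (insert a (insert b ({o} ∆ {w}))) ≤
      2 * p.length * (S.Z r ({o} ∆ {w}) * (S.Z r {o, a} * S.Z r {o, b})) := by
  induction p with
  | nil => intro e; exact absurd rfl e
  | @cons a y b hay p ih =>
    intro n1 n2 n3 n4 n5
    obtain ⟨ra, -, ht⟩ := hG a y hay
    obtain ⟨ry, n6, -⟩ := hG y a hay.symm
    have n7 := hay.ne
    have key : ∀ A : Finset V, a ∉ A → y ∉ A → t * S.Z r (insert a (insert y A))
        ≤ S.Z r A * (S.Z r {o, a} * S.Z r {o, y}) := fun A h1 h2 => by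
      have a1 := mul_le_mul_of_nonneg_right (edge_le h n7 ra ry h1 h2)
        (mul_nonneg (Z0 (S := S) h {o, a}) (Z0 (S := S) h {o, y}))
      have a2 := mul_le_mul_of_nonneg_right ht (Z0 (S := S) h (insert a (insert y A)))
      linarith
    have z0 : 0 ≤ S.Z r ({o} ∆ {w}) * (S.Z r {o, a} * S.Z r {o, b}) :=
      mul_nonneg (Z0 h _) (mul_nonneg (Z0 h _) (Z0 h _))
    have l0 : (0 : ℝ) ≤ p.length := by positivity
    rw [SimpleGraph.Walk.length_cons]
    push_cast
    by_cases e1 : y = b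
    · subst e1
      have := key ({o} ∆ {w}) (by simp [mem_symmDiff, n2, n3]) (by simp [mem_symmDiff, n4, n5])
      nlinarith
    by_cases e2 : y = w
    · subst e2
      have := key {o, b} (by simp [n1, n2]) (by simp [n6, e1])
      have e3 : ({o} : Finset V) ∆ {y} = {o, y} := by ext; simp only [mem_symmDiff, mem_insert, mem_singleton]; grind
      rw [e3] at z0 ⊢
      rw [show insert a (insert b {o, y}) = insert a (insert y ({o, b} : Finset V)) by
        ext; simp only [mem_insert, mem_singleton]; tauto]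
      nlinarith
    have i := ih e1 n6 e2 n4 n5
    have x := exch (S := S) h (A := insert a (insert b ({o} ∆ {w}))) (B := {o, y}) (y := y)
      (by simp [mem_symmDiff, n7.symm, e1, n6, e2]) (by simp)
    rw [show ((insert a (insert b ({o} ∆ {w}))) ∆ ({o, y} : Finset V)).erase y = {a, b, w} by
        ext; simp only [mem_erase, mem_symmDiff, mem_insert, mem_singleton]; grind,
      sum_insert (by simp [n1, n3]), sum_insert (by simp [n5]), sum_singleton,
      show (insert a (insert b ({o} ∆ {w}))) ∆ ({y, a} : Finset V) = insert y (insert b ({o} ∆ {w})) by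
        ext; simp only [mem_symmDiff, mem_insert, mem_singleton]; grind,
      show (insert a (insert b ({o} ∆ {w}))) ∆ ({y, b} : Finset V) = insert a (insert y ({o} ∆ {w})) by
        ext; simp only [mem_symmDiff, mem_insert, mem_singleton]; grind,
      show (insert a (insert b ({o} ∆ {w}))) ∆ ({y, w} : Finset V) = insert a (insert y {o, b}) by
        ext; simp only [mem_symmDiff, mem_insert, mem_singleton]; grind,
      show ({o, y} : Finset V) ∆ {y, a} = {o, a} by
        ext; simp only [mem_symmDiff, mem_insert, mem_singleton]; grind,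
      show ({o, y} : Finset V) ∆ {y, b} = {o, b} by
        ext; simp only [mem_symmDiff, mem_insert, mem_singleton]; grind,
      show ({o, y} : Finset V) ∆ {y, w} = {o} ∆ {w} by
        ext; simp only [mem_symmDiff, mem_insert, mem_singleton]; grind] at x
    have k1 := key ({o} ∆ {w}) (by simp [mem_symmDiff, n2, n3]) (by simp [mem_symmDiff, n6, e2])
    have k2 := key {o, b} (by simp [n1, n2]) (by simp [n6, e1])
    have p1 : 0 < S.Z r {o, y} := (Z0 h _).lt_of_ne fun e => by rw [← e] at ht; simp at ht; linarith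
    refine le_of_mul_le_mul_right ?_ p1
    have b1 := mul_le_mul_of_nonneg_left x t0.le
    have b2 := mul_le_mul_of_nonneg_right i (Z0 (S := S) h {o, a})
    have b3 := mul_le_mul_of_nonneg_right k1 (Z0 (S := S) h {o, b})
    have b4 := mul_le_mul_of_nonneg_right k2 (Z0 (S := S) h ({o} ∆ {w}))
    linarith

theorem dg_up (r : V → V → ℝ) {a b : V} (hab : a ≠ b) (c : ℝ) : dg (up r a b c) = up (dg r) a b c := by
  funext u v; simp only [dg, up]; grind

theorem Z_up_eq (A : Finset V) {a b : V} (c : ℝ) (hab : a = b ∨ ¬ S.re a ∨ ¬ S.re b ∨ a ∈ A ∨ b ∈ A) :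
    S.Z (up r a b c) A = S.Z r A := by
  classical
  refine sum_congr rfl fun f hf => prod_congr rfl fun u hu => ?_
  obtain ⟨h1, h2, h3⟩ := mem_Fam.1 hf
  have a1 := (mem_filter.1 hu).2
  have a2 := re_of h1 h3 a1
  have a3 := h2 u
  have a4 := h2 (f u)
  have a5 := h1 u
  simp only [dg, up]; grind

theorem Z_up (h : Wt r) {A : Finset V} {a b : V} {c : ℝ} (hc : 0 < c) (hab : a ≠ b) (ra : S.re a)
    (rb : S.re b) (ha : a ∉ A) (hb : b ∉ A) :
    S.Z (up r a b c) A = S.Z r A + (c ^ 2 - r a b ^ 2) * S.Z r (insert a (insert b A)) := by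
  have e1 := Z_edge (h.up a b hc) hab ra rb ha hb
  have e2 := Z_edge h hab ra rb ha hb
  rw [Z_up_eq _ _ (by simp), show up r a b c a b = c by simp [up]] at e1
  rw [sub_mul, ← e1, ← e2, Z, Z, ← sum_filter_add_sum_filter_not _ (· a = b),
    ← sum_filter_add_sum_filter_not (S.Fam A) (· a = b) (S.wt r),
    sum_congr rfl (g := S.wt r) (s₁ := filter (fun f => ¬ f a = b) _) fun f hf => by
      rw [wt, wt, dg_up r hab, prod_up_ne _ _ (mem_Fam.1 (mem_filter.1 hf).1).1 _ (mem_filter.1 hf).2]]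
  ring

theorem slack (h : Wt r) {r' : V → V → ℝ} (h' : Wt r') (hr : ∀ u v, r u v ≤ r' u v) (𝒜 : Finset V → Prop)
    {η : ℝ} (η0 : 0 ≤ η) (η1 : (1 + η) ^ Fintype.card (V × V) ≤ 2)
    (H : ∀ ρ, Wt ρ → (∀ u v, r u v ≤ ρ u v) → (∀ A, 𝒜 A → S.Z ρ A ≤ 2 * S.Z r A) →
      ∀ A a b, 𝒜 A → a ≠ b → S.re a → S.re b → a ∉ A → b ∉ A → r a b < r' a b →
        r' a b ^ 2 * S.Z ρ (insert a (insert b A)) ≤ η * S.Z ρ A) (A : Finset V) (hA : 𝒜 A) :
    S.Z r' A ≤ (1 + η) ^ Fintype.card (V × V) * S.Z r A := by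
  have key : ∀ s : Finset (V × V), ∀ A, 𝒜 A → S.Z (fun u v => if (u, v) ∈ s ∨ (v, u) ∈ s then r' u v
      else r u v) A ≤ (1 + η) ^ s.card * S.Z r A := by
    intro s
    induction s using Finset.induction_on with
    | empty => intro A _; simp
    | insert z s hz ih =>
      obtain ⟨a, b⟩ := z
      intro A hA
      set ρ : V → V → ℝ := fun u v => if (u, v) ∈ s ∨ (v, u) ∈ s then r' u v else r u v with hρ
      have w : Wt ρ := ⟨fun u v => by simp only [hρ]; split_ifs; exacts [h'.pos _ _, h.pos _ _],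
        fun u v => by simp only [hρ, or_comm, h.sym u, h'.sym u]⟩
      have l : ∀ u v, r u v ≤ ρ u v := fun u v => by simp only [hρ]; split_ifs; exacts [hr _ _, le_rfl]
      have e : (fun u v => if (u, v) ∈ insert (a, b) s ∨ (v, u) ∈ insert (a, b) s then r' u v
          else r u v) = up ρ a b (r' a b) := by
        funext u v
        have := h'.sym a b
        simp only [mem_insert, Prod.mk.injEq, up, hρ]; grind
      have s1 : S.Z (up ρ a b (r' a b)) A ≤ (1 + η) * S.Z ρ A := by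
        have z0 := mul_nonneg η0 (Z0 (S := S) w A)
        by_cases c : a = b ∨ ¬ S.re a ∨ ¬ S.re b ∨ a ∈ A ∨ b ∈ A
        · rw [Z_up_eq _ _ c]; linarith
        push Not at c
        rw [Z_up w (h'.pos a b) c.1 c.2.1 c.2.2.1 c.2.2.2.1 c.2.2.2.2]
        have z1 := Z0 (S := S) w (insert a (insert b A))
        rcases (hr a b).eq_or_lt with c1 | c1
        · have := pow_le_pow_left₀ (h.pos _ _).le (l a b) 2
          rw [← c1]; nlinarith
        · have := H ρ w l (fun A hA => (ih A hA).trans (mul_le_mul_of_nonneg_right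
            ((pow_le_pow_right₀ (by linarith) (card_le_univ _)).trans η1) (Z0 h A))) A a b hA
            c.1 c.2.1 c.2.2.1 c.2.2.2.1 c.2.2.2.2 c1
          nlinarith [sq_nonneg (ρ a b)]
      rw [e, card_insert_of_notMem hz, pow_succ', mul_assoc]
      exact s1.trans (mul_le_mul_of_nonneg_left (ih A hA) (by linarith))
  simpa using key univ A hA

end Sk

end Vale.Agent.P308
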