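import Vale.Agent.P308.Poin2
import Vale.Agent.P308.Anova
import Vale.Agent.P328.Mix

/-! P308: the population chain forgets the value of one coordinate. -/

namespace Vale.Agent.P308
open Finset Vale.Agent.P317 Vale.Agent.P328 Function
open scoped RealInnerProductSpace

section stp
variable {α M : Type} [Fintype M] [Fintype α] {θ : ℝ} {mv : M → α → α} {acc : α → α → ℝ} {W : α → ℝ}

theorem stp_pair (hsw : ∀ F : α → α → ℝ, ∑ x, ∑ k, F x (mv k x) = ∑ x, ∑ k, F (mv k x) x)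
    (hacc : ∀ σ σ', W σ * acc σ σ' = min (W σ) (W σ')) (f g : α → ℝ) :
    2 * ∑ σ, W σ * (g σ * (stp θ mv acc f σ - f σ))
      = -θ * ∑ σ, ∑ k, min (W σ) (W (mv k σ)) * ((g σ - g (mv k σ)) * (f σ - f (mv k σ))) := by
  have e1 : ∑ σ, W σ * (g σ * (stp θ mv acc f σ - f σ)) = θ * ∑ σ, ∑ k,
      min (W σ) (W (mv k σ)) * (g σ * (f (mv k σ) - f σ)) := by
    rw [mul_sum]
    refine sum_congr rfl fun σ _ => ?_
    rw [stp, add_sub_cancel_left]
    simp only [mul_sum, ← hacc]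
    exact sum_congr rfl fun m _ => by ring
  have e2 := hsw (fun σ σ' => min (W σ) (W σ') * (g σ * (f σ' - f σ)))
  have e3 : ∑ σ, ∑ k, min (W σ) (W (mv k σ)) * ((g σ - g (mv k σ)) * (f σ - f (mv k σ)))
      = -(∑ σ, ∑ k, min (W σ) (W (mv k σ)) * (g σ * (f (mv k σ) - f σ))
        + ∑ σ, ∑ k, min (W (mv k σ)) (W σ) * (g (mv k σ) * (f σ - f (mv k σ)))) := by
    rw [← sum_add_distrib, ← sum_neg_distrib]
    refine sum_congr rfl fun σ _ => ?_
    rw [← sum_add_distrib, ← sum_neg_distrib]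
    refine sum_congr rfl fun m _ => ?_
    rw [min_comm (W (mv m σ))]
    ring
  rw [e1, e3, ← e2]
  ring

theorem stp_jump (hθ : 0 ≤ θ) (hθ1 : θ * Fintype.card M ≤ 1 / 2) (h0 : ∀ x y, 0 ≤ acc x y)
    (h1 : ∀ x y, acc x y ≤ 1) (hW : ∀ σ, 0 ≤ W σ)
    (hacc : ∀ σ σ', W σ * acc σ σ' = min (W σ) (W σ')) (f : α → ℝ) :
    ∑ σ, W σ * (stp θ mv acc f σ - f σ) ^ 2 ≤ θ / 2 * dir univ mv W f := by
  rw [dir, mul_sum]
  refine sum_le_sum fun σ _ => ?_
  rw [stp, add_sub_cancel_left]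
  have a1 := sum_sq_le_sum_mul_sum_of_sq_le_mul (univ : Finset M)
    (r := fun m => acc σ (mv m σ) * (f (mv m σ) - f σ))
    (f := fun m => acc σ (mv m σ))
    (g := fun m => acc σ (mv m σ) * (f (mv m σ) - f σ) ^ 2)
    (fun m _ => h0 _ _) (fun m _ => mul_nonneg (h0 _ _) (sq_nonneg _))
    (fun m _ => le_of_eq (by ring))
  have a2 := acc_le θ mv acc hθ hθ1 h1 σ
  set A := ∑ m, acc σ (mv m σ)
  set C := ∑ m, acc σ (mv m σ) * (f (mv m σ) - f σ) ^ 2 with hC
  have hB0 : 0 ≤ C := sum_nonneg fun m _ => mul_nonneg (h0 _ _) (sq_nonneg _)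
  have a3 : ∑ m, min (W σ) (W (mv m σ)) * (f σ - f (mv m σ)) ^ 2 = W σ * C := by
    rw [hC, mul_sum]
    exact sum_congr rfl fun m _ => by rw [← hacc]; ring
  rw [a3, mul_pow]
  have a4 := mul_le_mul_of_nonneg_left a1 (sq_nonneg θ)
  have a5 := mul_le_mul_of_nonneg_right a2 (mul_nonneg hθ hB0)
  have a6 : θ ^ 2 * (∑ m, acc σ (mv m σ) * (f (mv m σ) - f σ)) ^ 2 ≤ θ / 2 * C := by nlinarith
  have a7 := mul_le_mul_of_nonneg_left a6 (hW σ)
  linarith

end stp

def L2 {α : Type} (_ : α → ℝ) : Type := α → ℝ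

section L2
variable {α : Type} [Fintype α] (μ : α → ℝ)

noncomputable instance : AddCommGroup (L2 μ) := inferInstanceAs (AddCommGroup (α → ℝ))
noncomputable instance : Module ℝ (L2 μ) := inferInstanceAs (Module ℝ (α → ℝ))

@[reducible] noncomputable def L2.core : PreInnerProductSpace.Core ℝ (L2 μ) where
  inner f g := ∑ x, |μ x| * (f x * g x)
  conj_inner_symm f g := by simp [mul_comm]
  re_inner_nonneg f := sum_nonneg fun x _ => mul_nonneg (abs_nonneg _) (mul_self_nonneg _)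
  add_left f g h := by
    rw [← sum_add_distrib]
    exact sum_congr rfl fun x _ => by show _ * ((f x + g x) * _) = _; ring
  smul_left f g c := by
    rw [mul_sum]
    exact sum_congr rfl fun x _ => by show _ * ((c * f x) * _) = c * _; ring

noncomputable instance : SeminormedAddCommGroup (L2 μ) :=
  @InnerProductSpace.Core.toSeminormedAddCommGroup ℝ (L2 μ) _ _ _ (L2.core μ)
noncomputable instance : InnerProductSpace ℝ (L2 μ) := .ofCore (L2.core μ)

variable {μ}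
theorem L2.inn (h : ∀ x, 0 ≤ μ x) (f g : L2 μ) : ⟪f, g⟫ = ∑ x, μ x * (f x * g x) :=
  sum_congr rfl fun x _ => by rw [abs_of_nonneg (h x)]

theorem L2.nrm (h : ∀ x, 0 ≤ μ x) (f : L2 μ) : ‖f‖ ^ 2 = ∑ x, μ x * f x ^ 2 := by
  rw [← real_inner_self_eq_norm_sq, L2.inn h]; simp only [sq]

/-- A Markov operator as a linear map. -/
def L2.lin (μ : α → ℝ) {T : (α → ℝ) → α → ℝ} (h : Markov T) : L2 μ →ₗ[ℝ] L2 μ where
  toFun := T
  map_add' f g := funext (h.add f g)
  map_smul' c f := funext (h.smul c f)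

structure ANp {ι : Type} (μ : α → ℝ) (E : ι → (α → ℝ) → α → ℝ) (P : ι → ι → (α → ℝ) → α → ℝ)
    (K : ℝ) : Prop where
  pos : ∀ x, 0 ≤ μ x
  mE : ∀ i, Markov (E i)
  mP : ∀ i j, Markov (P i j)
  comm : ∀ i j f, E i (E j f) = E j (E i f)
  idem : ∀ i f, E i (E i f) = E i f
  esym : ∀ i f g, ∑ x, μ x * (E i f x * g x) = ∑ x, μ x * (f x * E i g x)
  psym : ∀ i j f g, ∑ x, μ x * (P i j f x * g x) = ∑ x, μ x * (f x * P i j g x)
  pnrm : ∀ i j f, ∑ x, μ x * P i j f x ^ 2 ≤ ∑ x, μ x * (f x * P i j f x)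
  pcom : ∀ i j k f, k ≠ i → k ≠ j → E k (P i j f) = P i j (E k f)
  pfix : ∀ i j f, E i f = f → E j f = f → P i j f = f
  gap : ∀ i j f, i ≠ j → (∀ x, f x - E i f x - E j f x + E i (E j f) x = 0) →
    ∑ x, μ x * (f x - E i f x) ^ 2 ≤ K * (∑ x, μ x * f x ^ 2 - ∑ x, μ x * (f x * P i j f x))

theorem ANp.forget {ι : Type} [Fintype ι] [DecidableEq ι] [Nonempty ι] {E : ι → (α → ℝ) → α → ℝ}
    {P : ι → ι → (α → ℝ) → α → ℝ} {K : ℝ} (h : ANp μ E P K) (hK : 1 ≤ K) (k : ℕ)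
    (hk : 2 * (1 + 2 * K) * k ≤ Fintype.card ι)
    (γ : ℝ) (γ0 : 0 ≤ γ) (hγ : 2 * ((k : ℝ) + 1) ^ 3 ≤ γ ^ 2 * Fintype.card ι ^ 3)
    (t : ℕ) (ht : t * γ ≤ 1 / 2) {i0 : ι} {f : α → ℝ} (h1 : ∀ x, E i0 f x = 0)
    (h2 : ∀ i, i ≠ i0 → E i f = f) {A : ℝ} (A0 : 0 ≤ A) (hA : ∑ x, μ x * f x ^ 2 ≤ A ^ 2) (ψ : α → ℝ)
    (hψ : ∑ x, μ x * ψ x ^ 2 ≤ 1) {R : (α → ℝ) → α → ℝ}
    (hR : ∀ g x, R g x = 1 / (Fintype.card ι : ℝ) ^ 2 * ∑ q : ι × ι, P q.1 q.2 g x) :
    |∑ x, μ x * (f x * R^[t] ψ x)| ≤ ((1 - 1 / (8 * K * Fintype.card ι)) ^ t + t / 2 ^ k) * A := by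
  have p := h.pos
  have N1 : (1 : ℝ) ≤ Fintype.card ι := by exact_mod_cast Fintype.card_pos
  have an : AN (fun i => L2.lin μ (h.mE i)) (fun i j => L2.lin μ (h.mP i j)) K :=
    ⟨h.comm, h.idem, fun i f g => (L2.inn p _ _).trans ((h.esym i f g).trans (L2.inn p _ _).symm),
      fun i j f g => (L2.inn p _ _).trans ((h.psym i j f g).trans (L2.inn p _ _).symm),
      fun i j f => (L2.nrm p _).trans_le ((h.pnrm i j f).trans_eq (L2.inn p _ _).symm), h.pcom, h.pfix,
      fun i j f hij hf => (L2.nrm p _).trans_le ((h.gap i j f hij (congrFun hf)).trans_eq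
        (by rw [L2.nrm p, L2.inn p]; rfl))⟩
  let ι0 : (α → ℝ) → L2 μ := id
  have hf : In (fun i => L2.lin μ (h.mE i)) {i0} (ι0 f) := fun i => by
    by_cases e : i = i0
    · rw [if_pos (mem_singleton.2 e), e]; exact funext h1
    · rw [if_neg (by simpa using e)]; exact h2 i e
  have eR : ∀ g, Pav (fun i j => L2.lin μ (h.mP i j)) (ι0 g) = ι0 (R g) := fun g => by
    simp only [Pav, LinearMap.smul_apply, LinearMap.sum_apply]
    funext x
    exact (congrArg (_ * ·) (Finset.sum_apply x univ fun q : ι × ι => P q.1 q.2 g)).trans (hR g x).symm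
  have sy : ∀ (s : ℕ) g, ⟪(Pav fun i j => L2.lin μ (h.mP i j))^[s] (ι0 f), ι0 g⟫
      = ⟪ι0 f, ι0 (R^[s] g)⟫ := by
    intro s
    induction s with
    | zero => intro g; rfl
    | succ s ih =>
      intro g
      rw [iterate_succ_apply', iterate_succ_apply, ← ih, ← eR, real_inner_comm, AN.av_inner,
        AN.av_inner]
      exact congrArg _ (sum_congr rfl fun q _ => by rw [← an.psym, real_inner_comm])
  have d := an.decay hK k hk γ γ0 hγ hf t ht
  have c1 := abs_real_inner_le_norm ((Pav fun i j => L2.lin μ (h.mP i j))^[t] (ι0 f)) (ι0 ψ)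
  rw [sy, L2.inn p] at c1
  have n1 : ‖ι0 f‖ ≤ A :=
    (pow_le_pow_iff_left₀ (norm_nonneg _) A0 two_ne_zero).1 ((L2.nrm p _).trans_le hA)
  have c2 : ‖ι0 ψ‖ ≤ 1 := (pow_le_pow_iff_left₀ (norm_nonneg _) zero_le_one two_ne_zero).1
    ((L2.nrm p _).trans_le (hψ.trans_eq (one_pow 2).symm))
  have ρ1 : 1 / (8 * K * Fintype.card ι) ≤ 1 := by rw [div_le_one (by positivity)]; nlinarith
  have c3 := mul_le_mul d c2 (norm_nonneg _) (mul_nonneg (add_nonneg (pow_nonneg (by linarith) _)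
    (by positivity)) (norm_nonneg _))
  have c4 := mul_le_mul_of_nonneg_left n1 (add_nonneg (pow_nonneg (sub_nonneg.2 ρ1) t)
    (by positivity : 0 ≤ (t : ℝ) / 2 ^ k))
  exact c1.trans (by linarith)

end L2

variable {V : Type} [DecidableEq V] [Fintype V] {ι : Type} [Fintype ι] [DecidableEq ι]

noncomputable def mvQ (k : Bool × V × V) (Q : Pr V) : Pr V :=
  if k.1 then swx Q k.2.1 else cnP Q false k.2.1 k.2.2

noncomputable def wQ (r r' : V → V → ℝ) (Q : Pr V) : ℝ := pr r (Q false) * pr r' (Q true)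

noncomputable def acQ (r r' : V → V → ℝ) (Q Q' : Pr V) : ℝ := min 1 (wQ r r' Q' / wQ r r' Q)

def put (x : ι → PM V) (i j : ι) (Q : Pr V) : ι → PM V := update (update x j (Q true)) i (Q false)

noncomputable def Pij (θ : ℝ) (ω : ι → V → V → ℝ) (i j : ι) (f : (ι → PM V) → ℝ) (x : ι → PM V) : ℝ :=
  if i = j then f x
  else stp θ mvQ (acQ (ω i) (ω j)) (fun Q => f (put x i j Q)) (mk2 (x i) (x j))

noncomputable def Rop (θ : ℝ) (ω : ι → V → V → ℝ) (f : (ι → PM V) → ℝ) (x : ι → PM V) : ℝ :=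
  1 / (Fintype.card ι : ℝ) ^ 2 * ∑ q : ι × ι, Pij θ ω q.1 q.2 f x

noncomputable def mu (ω : ι → V → V → ℝ) (x : ι → PM V) : ℝ := ∏ i, pr (ω i) (x i)

noncomputable def Eo (ω : ι → V → V → ℝ) (i : ι) (f : (ι → PM V) → ℝ) (x : ι → PM V) : ℝ :=
  ∑ m, pr (ω i) m * f (update x i m)

theorem mvQ_swap (F : Pr V → Pr V → ℝ) :
    ∑ x, ∑ k, F x (mvQ k x) = ∑ x, ∑ k, F (mvQ k x) x := by
  refine swap_of_inv univ mvQ (fun Q k => if k.1 = true ∨ k.2.1 = k.2.2 then k
    else (false, k.2.1, (Q false).1 k.2.1)) (fun _ _ _ => mem_univ _) ?_ ?_ F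
  · rintro Q - ⟨c, a, b⟩
    cases c
    · by_cases e : a = b
      · simp [mvQ, e, cnP, PM.cn_self]
      · simp [mvQ, e, cnP, PM.cn_cn _ e]
    · simp [mvQ, swx_swx]
  · rintro Q - ⟨c, a, b⟩
    cases c
    · by_cases e : a = b
      · simp [e]
      · simp [mvQ, e, cnP, PM.cn_a _ e, ((Q false).2.2 a).symm]
    · simp

theorem put_put (x : ι → PM V) {i j : ι} (h : i ≠ j) (Q Q' : Pr V) :
    put (put x i j Q) i j Q' = put x i j Q' := by
  simp only [put, update_comm h, update_idem]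

theorem mk2_put (x : ι → PM V) {i j : ι} (h : i ≠ j) (Q : Pr V) :
    mk2 (put x i j Q i) (put x i j Q j) = Q := by
  funext c; cases c <;> simp [mk2, put, h.symm]

theorem put_mk2 (x : ι → PM V) (i j : ι) : put x i j (mk2 (x i) (x j)) = x := by simp [put, mk2]

theorem mu_update (ω : ι → V → V → ℝ) (x : ι → PM V) (i : ι) (m : PM V) :
    mu ω (update x i m) * pr (ω i) (x i) = mu ω x * pr (ω i) m := by
  simp only [mu]
  rw [← mul_prod_erase _ _ (mem_univ i), ← mul_prod_erase _ _ (mem_univ i), update_self,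
    prod_congr rfl fun k hk => by rw [update_of_ne (mem_erase.1 hk).1]]
  ring

theorem mu_swap (ω : ι → V → V → ℝ) (i : ι) (G : (ι → PM V) → (ι → PM V) → ℝ) :
    ∑ x, mu ω x * ∑ m, pr (ω i) m * G x (update x i m)
      = ∑ x, mu ω x * ∑ m, pr (ω i) m * G (update x i m) x := by
  simp only [mul_sum]
  rw [← Fintype.sum_prod_type', ← Fintype.sum_prod_type',
    ← sum_invol (F := fun z : (ι → PM V) × PM V => (update z.1 i z.2, z.1 i)) (fun z => by simp)]
  refine sum_congr rfl fun z _ => ?_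
  rw [← mul_assoc, mu_update, mul_assoc, update_idem, update_eq_self]

structure Ty (ω : ι → V → V → ℝ) (θ K : ℝ) : Prop where
  wt : ∀ i, Wt (ω i)
  nice : ∀ i, Nice (ω i) K
  near : ∀ i j T, pr (ω i) T ≤ 4 * pr (ω j) T
  t0 : 0 < θ
  t1 : θ * Fintype.card (Bool × V × V) ≤ 1 / 2

theorem acQ_facts {r r' : V → V → ℝ} (h : Wt r) (h' : Wt r') : (∀ Q, 0 < wQ r r' Q) ∧
    (∀ Q Q', 0 ≤ acQ r r' Q Q') ∧ (∀ Q Q', acQ r r' Q Q' ≤ 1) ∧
    ∀ Q Q', wQ r r' Q * acQ r r' Q Q' = min (wQ r r' Q) (wQ r r' Q') := by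
  have p : ∀ Q, 0 < wQ r r' Q := fun Q => mul_pos (h.pr_pos _) (h'.pr_pos _)
  refine ⟨p, fun Q Q' => le_min zero_le_one (div_pos (p _) (p _)).le, fun _ _ => min_le_left _ _,
    fun Q Q' => ?_⟩
  rw [acQ, mul_min_of_nonneg _ _ (p Q).le, mul_one, mul_div_cancel₀ _ (p Q).ne']

theorem mu_pos {ω : ι → V → V → ℝ} (h : ∀ i, Wt (ω i)) (x : ι → PM V) : 0 < mu ω x :=
  prod_pos fun i _ => (h i).pr_pos _

theorem avg1 {ω : ι → V → V → ℝ} (h : ∀ i, Wt (ω i)) (i : ι) (F : (ι → PM V) → ℝ) :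
    ∑ x, mu ω x * Eo ω i F x = ∑ x, mu ω x * F x := by
  refine (mu_swap ω i fun _ y => F y).trans (sum_congr rfl fun x _ => ?_)
  rw [← sum_mul, (h i).sum_pr (x i), one_mul]

theorem avg2 {ω : ι → V → V → ℝ} (h : ∀ i, Wt (ω i)) (i j : ι) (F : (ι → PM V) → ℝ) :
    ∑ x, mu ω x * F x = ∑ x, mu ω x * ∑ Q, wQ (ω i) (ω j) Q * F (put x i j Q) := by
  rw [← avg1 h i, ← avg1 h j]
  refine sum_congr rfl fun x _ => ?_
  rw [sum_pr, sum_comm]
  simp only [Eo, mul_sum]
  refine sum_congr rfl fun C _ => sum_congr rfl fun T _ => ?_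
  show _ = _ * (pr (ω i) T * pr (ω j) C * F (update (update x j C) i T))
  ring

theorem markov_Eo {ω : ι → V → V → ℝ} (h : ∀ i, Wt (ω i)) (i : ι) : Markov (Eo ω i) :=
  ⟨fun f g x => by simp only [Eo, mul_add, sum_add_distrib],
    fun c f x => by simp only [Eo, mul_sum, mul_left_comm],
    fun f g hfg x => sum_le_sum fun m _ => mul_le_mul_of_nonneg_left (hfg _) ((h i).pr_pos m).le,
    fun x => by simp only [Eo, mul_one, (h i).sum_pr (x i)]⟩

theorem Eo_up (ω : ι → V → V → ℝ) (i : ι) (f : (ι → PM V) → ℝ) (x : ι → PM V) (m : PM V) :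
    Eo ω i f (update x i m) = Eo ω i f x := by simp only [Eo, update_idem]

theorem Eo_comm (ω : ι → V → V → ℝ) (i j : ι) (f : (ι → PM V) → ℝ) :
    Eo ω i (Eo ω j f) = Eo ω j (Eo ω i f) := by
  by_cases e : i = j
  · rw [e]
  funext x
  simp only [Eo, mul_sum]
  rw [sum_comm]
  exact sum_congr rfl fun _ _ => sum_congr rfl fun _ _ => by rw [update_comm e, mul_left_comm]

namespace Ty
variable {ω : ι → V → V → ℝ} {θ K : ℝ} (h : Ty ω θ K)
include h

theorem mK (i j : ι) : Markov (stp θ mvQ (acQ (ω i) (ω j))) :=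
  markov_stp _ _ _ h.t0.le h.t1 (acQ_facts (h.wt i) (h.wt j)).2.1 (acQ_facts (h.wt i) (h.wt j)).2.2.1

theorem mP (i j : ι) : Markov (Pij θ ω i j) := by
  refine ⟨fun f g x => ?_, fun c f x => ?_, fun f g hfg x => ?_, fun x => ?_⟩ <;>
    simp only [Pij] <;> split_ifs
  exacts [rfl, (h.mK i j).add _ _ _, rfl, (h.mK i j).smul _ _ _, hfg x,
    (h.mK i j).mono _ _ (fun _ => hfg _) _, rfl, (h.mK i j).one _]

theorem mR [Nonempty ι] : Markov (Rop θ ω) := by
  have N0 : (0 : ℝ) < Fintype.card ι := by exact_mod_cast Fintype.card_pos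
  refine ⟨fun f g x => ?_, fun c f x => ?_, fun f g hfg x => ?_, fun x => ?_⟩
  · simp only [Rop, (h.mP _ _).add, sum_add_distrib, mul_add]
  · simp only [Rop, (h.mP _ _).smul, ← mul_sum]; ring
  · exact mul_le_mul_of_nonneg_left (sum_le_sum fun q _ => (h.mP _ _).mono _ _ hfg x) (by positivity)
  · simp only [Rop, (h.mP _ _).one, sum_const, card_univ, Fintype.card_prod, nsmul_eq_mul]
    push_cast; field_simp

theorem dirP {i j : ι} (hij : i ≠ j) (f g : (ι → PM V) → ℝ) :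
    2 * ∑ x, mu ω x * (g x * (Pij θ ω i j f x - f x)) = -θ * ∑ x, mu ω x * ∑ Q, ∑ k,
      min (wQ (ω i) (ω j) Q) (wQ (ω i) (ω j) (mvQ k Q)) * ((g (put x i j Q) - g (put x i j (mvQ k Q)))
        * (f (put x i j Q) - f (put x i j (mvQ k Q)))) := by
  rw [avg2 h.wt i j, mul_sum, mul_sum]
  refine sum_congr rfl fun x _ => ?_
  rw [mul_left_comm, mul_left_comm (-θ), ← stp_pair (θ := θ) mvQ_swap
    (acQ_facts (h.wt i) (h.wt j)).2.2.2 (fun Q => f (put x i j Q)) (fun Q => g (put x i j Q))]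
  simp only [Pij, if_neg hij, put_put _ hij, mk2_put _ hij]

theorem gapQ (hK : 0 ≤ K) (i j : ι) (F : Pr V → ℝ) (a b : PM V → ℝ) (C0 : PM V)
    (e : ∀ Q, F Q = a (Q false) + b (Q true)) :
    ∑ Q, wQ (ω i) (ω j) Q * (F Q - ∑ T, pr (ω i) T * F (mk2 T (Q true))) ^ 2
      ≤ 4 * K * dir univ mvQ (wQ (ω i) (ω j)) F := by
  obtain ⟨c, hc⟩ := h.nice i a b
  have s1 := (h.wt i).sum_pr C0
  have s2 := (h.wt j).sum_pr C0
  have e1 : ∀ Q : Pr V, F Q - ∑ T, pr (ω i) T * F (mk2 T (Q true))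
      = a (Q false) - ∑ T, pr (ω i) T * a T := fun Q => by
    simp only [e, mul_add, sum_add_distrib, mk2, if_true, ← sum_mul, s1, Bool.false_eq_true, if_false]
    ring
  have ew : ∀ T C, wQ (ω i) (ω j) (mk2 T C) = pr (ω i) T * pr (ω j) C := fun _ _ => rfl
  have a1 : ∑ Q, wQ (ω i) (ω j) Q * (F Q - ∑ T, pr (ω i) T * F (mk2 T (Q true))) ^ 2
      ≤ ∑ T, pr (ω i) T * (a T - c) ^ 2 := by
    simp only [e1]
    rw [sum_pr]
    simp only [ew, show ∀ T C : PM V, mk2 T C false = T from fun _ _ => rfl, mul_right_comm _ (pr _ _),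
      ← mul_sum, s2, mul_one]
    generalize hm : ∑ T, pr (ω i) T * a T = m
    have : ∀ T, pr (ω i) T * (a T - c) ^ 2 = pr (ω i) T * (a T - m) ^ 2
        + 2 * (m - c) * (pr (ω i) T * a T) + ((m - c) ^ 2 - 2 * (m - c) * m) * pr (ω i) T :=
      fun T => by ring
    simp only [this, sum_add_distrib, ← mul_sum, hm, s1]
    nlinarith [sq_nonneg (m - c)]
  have a2 : dir univ mvQ (wQ (ω i) (ω j)) F = Dloc (ω i) a + ∑ x, ∑ _y : V, ∑ Q,
      min (wQ (ω i) (ω j) Q) (wQ (ω i) (ω j) (swx Q x)) * lin a b Q x ^ 2 := by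
    simp only [dir, Fintype.sum_prod_type, Fintype.sum_bool, mvQ, if_true, Bool.false_eq_true, if_false,
      sum_add_distrib]
    rw [add_comm]
    congr 1
    · rw [sum_pr]
      refine sum_congr rfl fun T _ => ?_
      rw [sum_comm]
      refine sum_congr rfl fun p _ => ?_
      rw [sum_comm]
      refine sum_congr rfl fun q _ => ?_
      have : ∀ C, cnP (mk2 T C) false p q = mk2 (T.cn p q) C := fun C => by
        funext c; cases c <;> simp [cnP, mk2]
      simp only [this, ew, e, mk2, if_true, Bool.false_eq_true, if_false, add_sub_add_right_eq_sub,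
        ← min_mul_of_nonneg _ _ ((h.wt j).pr_pos _).le, mul_right_comm _ (pr (ω j) _), ← mul_sum, s2,
        mul_one]
    · rw [sum_comm]
      refine sum_congr rfl fun x _ => ?_
      rw [sum_comm]
      exact sum_congr rfl fun _ _ => sum_congr rfl fun Q _ => by rw [e, e, lin]; ring
  have a3 : Dlin (ω i) a b ≤ 4 * ∑ x, ∑ _y : V, ∑ Q,
      min (wQ (ω i) (ω j) Q) (wQ (ω i) (ω j) (swx Q x)) * lin a b Q x ^ 2 := by
    rw [Dlin, mul_sum]
    refine sum_le_sum fun x _ => ?_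
    have p := (acQ_facts (h.wt i) (h.wt j)).1
    refine le_trans ?_ (mul_le_mul_of_nonneg_left (single_le_sum (fun _ _ => sum_nonneg fun Q _ =>
      mul_nonneg (le_min (p _).le (p _).le) (sq_nonneg _)) (mem_univ x)) (by norm_num))
    rw [mul_sum]
    refine sum_le_sum fun Q _ => ?_
    rw [← mul_assoc]
    refine mul_le_mul_of_nonneg_right ?_ (sq_nonneg _)
    have : ∀ Q, w2 (ω i) Q ≤ 4 * wQ (ω i) (ω j) Q := fun Q => by
      rw [w2, wQ, mul_left_comm]
      exact mul_le_mul_of_nonneg_left (h.near i j _) ((h.wt i).pr_pos _).le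
    rw [mul_min_of_nonneg _ _ (by norm_num)]
    exact le_min (this Q) (by rw [← w2_swP (cl_cy (raw Q) x)]; exact this _)
  have a4 := (h.wt i).Dloc0 a
  refine a1.trans (hc.trans ?_)
  rw [a2, mul_comm 4 K, mul_assoc]
  exact mul_le_mul_of_nonneg_left (by linarith) hK

theorem an (hK : 0 ≤ K) : ANp (mu ω) (Eo ω) (Pij θ ω) (8 * K / θ) := by
  have p := fun x => (mu_pos h.wt x).le
  have dd : ∀ {i j : ι}, i ≠ j → ∀ f : (ι → PM V) → ℝ,
      ∑ x, mu ω x * f x ^ 2 - ∑ x, mu ω x * (f x * Pij θ ω i j f x)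
        = θ / 2 * ∑ x, mu ω x * dir univ mvQ (wQ (ω i) (ω j)) (fun Q => f (put x i j Q)) := by
    intro i j hij f
    have := h.dirP hij f f
    simp only [mul_sub, sum_sub_distrib] at this
    simp only [dir, sq, mul_sub, sum_sub_distrib]
    linarith
  refine ⟨p, markov_Eo h.wt, h.mP, Eo_comm ω, fun i f => ?_, fun i f g => ?_, fun i j f g => ?_,
    fun i j f => ?_, fun i j k f hi hj => ?_, fun i j f hi hj => ?_, fun i j f hij hf => ?_⟩
  · funext x
    show ∑ m, _ * Eo ω i f _ = Eo ω i f x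
    simp only [Eo_up, ← sum_mul, (h.wt i).sum_pr (x i), one_mul]
  · have := mu_swap ω i fun x y => f y * g x
    simpa only [Eo, sum_mul, mul_sum, mul_assoc, mul_left_comm (f _)] using this
  · by_cases hij : i = j
    · simp only [Pij, if_pos hij]
    have a1 := h.dirP hij f g
    have a2 := h.dirP hij g f
    simp only [mul_comm (g _ - g _)] at a1
    rw [← a1] at a2
    simp only [mul_sub, sum_sub_distrib] at a2
    simp only [mul_comm (g _)] at a2
    linarith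
  · by_cases hij : i = j
    · simp only [Pij, if_pos hij, sq, le_refl]
    have a1 := dd hij f
    have a2 : ∑ x, mu ω x * (Pij θ ω i j f x - f x) ^ 2
        ≤ θ / 2 * ∑ x, mu ω x * dir univ mvQ (wQ (ω i) (ω j)) (fun Q => f (put x i j Q)) := by
      rw [avg2 h.wt i j, mul_sum]
      refine sum_le_sum fun x _ => ?_
      obtain ⟨b1, b2, b3, b4⟩ := acQ_facts (h.wt i) (h.wt j)
      rw [mul_left_comm]
      refine mul_le_mul_of_nonneg_left ?_ (p x)
      simp only [Pij, if_neg hij, put_put _ hij, mk2_put _ hij]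
      exact stp_jump h.t0.le h.t1 b2 b3 (fun Q => (b1 Q).le) b4 _
    have a3 : ∀ x, mu ω x * (Pij θ ω i j f x - f x) ^ 2 = mu ω x * Pij θ ω i j f x ^ 2
        - 2 * (mu ω x * (f x * Pij θ ω i j f x)) + mu ω x * f x ^ 2 := fun x => by ring
    simp only [a3, sum_add_distrib, sum_sub_distrib, ← mul_sum] at a2
    linarith
  · funext x
    simp only [Eo, Pij]
    split_ifs with hij
    · rfl
    rw [(h.mK i j).sum]
    refine sum_congr rfl fun m _ => ?_
    rw [(h.mK i j).smul, update_of_ne hi.symm, update_of_ne hj.symm]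
    simp only [put, update_comm hi, update_comm hj]
  · funext x
    have a1 : ∀ y, Eo ω i f y = f y := congrFun hi
    have a2 : ∀ y, Eo ω j f y = f y := congrFun hj
    simp only [Pij]
    split_ifs
    · rfl
    have : ∀ Q, f (put x i j Q) = f x := fun Q => by rw [put, ← a1, Eo_up, a1, ← a2, Eo_up, a2]
    simp only [this]
    exact (h.mK i j).const _ _
  · rw [dd hij, avg2 h.wt i j, ← mul_assoc, mul_sum]
    refine sum_le_sum fun x _ => ?_
    rw [mul_left_comm]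
    refine mul_le_mul_of_nonneg_left ?_ (p x)
    have := h.gapQ hK i j (fun Q => f (put x i j Q)) (fun T => Eo ω j f (update x i T))
      (fun C => Eo ω i f (update x j C) - Eo ω i (Eo ω j f) x) (x i) (fun Q => by
        have a := hf (put x i j Q)
        have b1 : Eo ω i (Eo ω j f) (put x i j Q) = Eo ω i (Eo ω j f) x := by
          rw [put, Eo_up, Eo_comm, Eo_up, Eo_comm]
        have b2 : Eo ω j f (put x i j Q) = Eo ω j f (update x i (Q false)) := by
          rw [put, update_comm hij.symm, Eo_up]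
        have b3 : Eo ω i f (put x i j Q) = Eo ω i f (update x j (Q true)) := by rw [put, Eo_up]
        rw [b1, b2, b3] at a
        linarith)
    rw [show 8 * K / θ * (θ / 2) = 4 * K by have := h.t0.ne'; field_simp; ring]
    refine le_trans (le_of_eq (sum_congr rfl fun Q _ => ?_)) this
    simp only [Eo, put, update_idem]; rfl

theorem remix [Nonempty ι] (hK : θ ≤ 8 * K) (k : ℕ)
    (hk : 2 * (1 + 2 * (8 * K / θ)) * k ≤ Fintype.card ι)
    (γ : ℝ) (γ0 : 0 ≤ γ) (hγ : 2 * ((k : ℝ) + 1) ^ 3 ≤ γ ^ 2 * Fintype.card ι ^ 3)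
    (t : ℕ) (ht : t * γ ≤ 1 / 2) (i0 : ι) (m : PM V) (A : ℝ) (A0 : 0 ≤ A)
    (hA : 1 ≤ A ^ 2 * pr (ω i0) m) (ψ : (ι → PM V) → ℝ) (ψ0 : ∀ x, 0 ≤ ψ x) (ψ1 : ∀ x, ψ x ≤ 1) :
    ∑ x, mu ω x * ψ x - ((1 - 1 / (8 * (8 * K / θ) * Fintype.card ι)) ^ t + t / 2 ^ k) * A
      ≤ ∑ x, mu ω x * (Rop θ ω)^[t] ψ (update x i0 m) := by
  have t0 := h.t0
  have an := h.an (by linarith)
  have p := fun x => (mu_pos h.wt x).le
  have pm := (h.wt i0).pr_pos m
  have N1 : (1 : ℝ) ≤ Fintype.card ι := by exact_mod_cast Fintype.card_pos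
  have K1 : 1 ≤ 8 * K / θ := by rw [le_div_iff₀ t0]; linarith
  let f : (ι → PM V) → ℝ := fun x => (if x i0 = m then 1 / pr (ω i0) m else 0) - 1
  have ef : ∀ g : (ι → PM V) → ℝ, ∑ x, mu ω x * (f x * g x)
      = ∑ x, mu ω x * g (update x i0 m) - ∑ x, mu ω x * g x := by
    intro g
    rw [← avg1 h.wt i0, ← avg1 h.wt i0 g, ← sum_sub_distrib]
    refine sum_congr rfl fun x _ => ?_
    simp only [Eo, f, update_self, sub_mul, mul_sub, one_mul, ite_mul, zero_mul, mul_ite, mul_zero,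
      sum_sub_distrib, sum_ite_eq', mem_univ, if_true]
    field_simp
  have s1 : ∑ x, mu ω x = 1 := by
    simp only [mu]
    rw [← Fintype.piFinset_univ, ← prod_univ_sum]
    exact prod_eq_one fun i _ => (h.wt i).sum_pr m
  have inv : ∀ (s : ℕ) (g : (ι → PM V) → ℝ), ∑ x, mu ω x * (Rop θ ω)^[s] g x = ∑ x, mu ω x * g x := by
    intro s
    induction s with
    | zero => intro g; rfl
    | succ s ih =>
      intro g
      rw [iterate_succ_apply, ih]
      have e : ∀ q : ι × ι, ∑ x, mu ω x * Pij θ ω q.1 q.2 g x = ∑ x, mu ω x * g x := fun q => by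
        simpa only [(h.mP _ _).one, mul_one] using an.psym q.1 q.2 g (fun _ => 1)
      simp only [Rop, mul_left_comm (mu ω _), mul_sum _ _ (mu ω _)]
      rw [← mul_sum, sum_comm]
      simp only [e, sum_const, card_univ, Fintype.card_prod, nsmul_eq_mul]
      push_cast; field_simp
  have := an.forget K1 k hk γ γ0 hγ t ht (i0 := i0) (f := f) (fun x => by
      simp only [Eo, f, update_self, mul_sub, mul_one, mul_ite, mul_zero, sum_sub_distrib, sum_ite_eq',
        mem_univ, if_true, (h.wt i0).sum_pr m]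
      field_simp; ring)
    (fun i e => funext fun x => by
      simp only [Eo, f, update_of_ne (Ne.symm e), ← sum_mul, (h.wt i).sum_pr m, one_mul]) A0
    (by
      have a1 := ef fun _ => 1
      simp only [mul_one, sub_self] at a1
      simp only [sq]
      rw [ef, a1]
      simp only [f, update_self, if_true, ← sum_mul, s1]
      rw [← div_le_iff₀ pm] at hA
      linarith) ψ
    (s1 ▸ sum_le_sum fun x _ => mul_le_of_le_one_right (p x) (by nlinarith [ψ0 x, ψ1 x]))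
    (R := Rop θ ω) (fun _ _ => rfl)
  rw [ef, inv] at this
  linarith [(abs_le.1 this).1]

end Ty

end Vale.Agent.P308
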