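import Vale.Agent.P308.Est
import Vale.Agent.P308.Mix

/-! P308: initial state, numerical parameters, running estimate and final accuracy. -/

namespace Vale.Agent.P308
open Finset Relation Function Vale.Agent.P317

variable {V : Type} [DecidableEq V] [Fintype V]

theorem pw2 {a b : ℕ} (h : a ≤ b) : (2 : ℝ) ^ a ≤ 2 ^ b := pow_le_pow_right₀ (by norm_num) h

theorem four_pow (a : ℕ) : (4 : ℝ) ^ a = 2 ^ (2 * a) := by rw [pow_mul]; norm_num

namespace Gr
variable (G : Gr V)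

open Classical in
noncomputable def l0 (u v : V) : ℕ :=
  if G.re u ∧ G.re v then (if v = G.mt.1 u then 2 * G.b else 2 * G.b - 3 * G.L) else 0

open Classical in
noncomputable def s0 (v : V) : ℕ := if v = G.o then 10 * G.b else if G.re v then 2 * G.b else 12 * G.b

def N : ℕ := 2 ^ (32768 * G.L)
def B : ℕ := 2 ^ (4096 * G.L)
def t : ℕ := 2 ^ (40960 * G.L)
noncomputable def th : ℝ := 1 / (2 * 4 ^ G.L)
noncomputable def e0 : ℝ := 1 / 4 ^ G.b
noncomputable def al : ℝ := 1 / 4 ^ (128 * G.L)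

structure Good (W : V → V → ℕ) : Prop where
  sym : ∀ u v, W u v = W v u
  nice : Nice (e2 W) G.K
  bd : ∀ p q, p ≠ q → W p q ≤ 28 * G.b

theorem st0 : G.St G.l0 G.s0 (5 * G.L) := by
  have hb := G.hb
  have sy : ∀ u v, G.l0 u v = G.l0 v u := fun u v => by
    have := G.mt.2.1 u; have := G.mt.2.1 v
    simp only [l0]; grind
  have w := wt_e2 sy
  have rng : ∀ u v, G.re u → G.re v → 2 * G.b - 3 * G.L ≤ G.l0 u v ∧ G.l0 u v ≤ 2 * G.b :=
    fun u v ru rv => by simp only [l0, ru, rv, and_self, if_true]; split_ifs <;> omega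
  refine ⟨sy, fun u v ru rv _ => by have := rng u v ru rv; omega, fun u v h => if_neg h, if_pos rfl,
    fun z hz => by rw [s0, if_neg (fun e : z = G.o => hz (e ▸ G.ro)), if_neg hz], fun v rv hv => ?_⟩
  rw [s0, if_neg hv, if_pos rv]
  have z := Sk.Z0 (S := G.toSk) w {G.o, v}
  constructor
  · have := Sk.Z_low (S := G.toSk) w G.ro rv hv.symm (lo := 2 ^ (2 * G.b - 3 * G.L))
      (hi := 2 ^ (2 * G.b)) (by positivity) fun x y rx ry _ => ⟨pw2 (rng x y rx ry).1, pw2 (rng x y rx ry).2⟩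
    refine le_of_mul_le_mul_left (this.trans ?_) (by positivity)
    rw [← mul_assoc]
    refine mul_le_mul_of_nonneg_right ?_ z
    refine (mul_le_mul_of_nonneg_right (by linarith [G.nR, (by positivity : (0 : ℝ) ≤ Fintype.card V)] :
      (Fintype.card V : ℝ) ≤ 2 ^ G.L) (by positivity)).trans ?_
    rw [four_pow, ← pow_mul, ← pow_mul, ← pow_add, ← pow_add]
    exact pw2 (by omega)
  · have := Sk.edge_le (S := G.toSk) w hv.symm G.ro rv (notMem_empty _) (notMem_empty _)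
    rw [e2_sq, insert_empty_eq] at this
    refine le_trans ?_ (mul_le_mul_of_nonneg_left this (by positivity))
    rw [← mul_assoc, ← pow_add]
    exact mul_le_mul_of_nonneg_right (pow_le_pow_right₀ (by norm_num)
      (by have := rng _ _ G.ro rv; omega)) z

variable {G} {U W : V → V → ℕ}

theorem tg0 (hU : IsClo (G.a0 G.l0 G.s0) U) {p q : V} (rp : G.re p) (rq : G.re q) (h : p ≠ q) :
    G.tg G.l0 U G.s0 p q = G.l0 p q := by
  have hb := G.hb
  have a1 : G.l0 p q ≥ 2 * G.b - 3 * G.L := by simp only [l0, rp, rq, and_self, if_true]; split_ifs <;> omega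
  simp only [tg, rp, not_true, false_and, if_false, G.st0.Us_re hU rp rq, add_zero]
  by_cases e1 : p = G.o
  · subst e1; rw [U_o hU h]; simp only [s0, if_true, if_neg h.symm, rq]; omega
  by_cases e2 : q = G.o
  · subst e2; rw [hU.sym, U_o hU h.symm]; simp only [s0, if_true, if_neg h, rp]; omega
  obtain ⟨y, n, e⟩ : ∃ x y, x ≠ y ∧ U p q ≤ G.a0 G.l0 G.s0 x y := by
    obtain ⟨y, n, e⟩ := tg_step (hU.rch p q) h; exact ⟨_, y, n, e⟩
  obtain ⟨n', e⟩ := e
  simp only [a0, if_neg n'] at e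
  simp only [s0, e1, e2, rp, rq, if_true, if_false]
  split_ifs at e with c
  · have := G.st0.rng _ _ c.1 c.2.1 n'
    simp only [s0, c.1, c.2.1, c.2.2.1, c.2.2.2, if_true, if_false] at e
    omega
  · omega

theorem gain0 (hU : IsClo (G.a0 G.l0 G.s0) U) {k : ℕ} (hd : ∀ p q, p ≠ q →
    if q = G.mt.1 p then W p q = G.tg G.l0 U G.s0 p q
    else W p q + k ≤ G.tg G.l0 U G.s0 p q ∧ G.tg G.l0 U G.s0 p q ≤ W p q + k + 1)
    (T : PM V) (hT : T ≠ G.mt) : ∃ p, T.1 p ≠ G.mt.1 p ∧ W p (T.1 p) + W (G.mt.1 p) (T.1 (G.mt.1 p))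
      + (k + 2 * G.L) ≤ W p (G.mt.1 p) + W (T.1 p) (T.1 (G.mt.1 p)) := by
  have hL := G.hL
  have hb := G.hb
  obtain ⟨p, h1, h2⟩ : ∃ p, T.1 p ≠ G.mt.1 p ∧ G.tg G.l0 U G.s0 p (T.1 p)
      + G.tg G.l0 U G.s0 (G.mt.1 p) (T.1 (G.mt.1 p)) + 3 * G.L ≤
      G.tg G.l0 U G.s0 p (G.mt.1 p) + G.tg G.l0 U G.s0 (T.1 p) (T.1 (G.mt.1 p)) := by
    by_cases hc : G.cl T
    · obtain ⟨p, hp⟩ : ∃ p, T.1 p ≠ G.mt.1 p := by
        by_contra e; push Not at e; exact hT (Subtype.ext (funext e))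
      have rp : G.re p := by by_contra e; exact hp (hc p e)
      have r1 := G.hre p rp
      have r2 := Sk.re_of T.2.1 hc rp
      have r3 := Sk.re_of T.2.1 hc r1
      have n1 := (G.mt.2.2 p).symm
      have n2 : T.1 (G.mt.1 p) ≠ G.mt.1 (G.mt.1 p) := fun e => hp (T.sym (by rw [e, G.mt.2.1]))
      refine ⟨p, hp, ?_⟩
      rw [tg0 hU rp r2 (T.2.2 p).symm, tg0 hU r1 r3 (T.2.2 _).symm, tg0 hU rp r1 n1,
        tg0 hU r2 r3 fun e => n1 (T.inj e)]
      simp only [l0, rp, r1, r2, r3, and_self, if_true, if_neg hp, if_neg n2]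
      split_ifs <;> omega
    · obtain ⟨z, rz, hz⟩ : ∃ z, ¬ G.re z ∧ T.1 z ≠ G.mt.1 z := by simpa [cl] using hc
      exact ⟨z, hz, by have := G.st0.gain le_rfl hU T rz hz; omega⟩
  refine ⟨p, h1, ?_⟩
  have n1 := (G.mt.2.2 p).symm
  have a1 := hd _ _ (T.2.2 p).symm
  have a2 := hd _ _ (T.2.2 (G.mt.1 p)).symm
  have a3 := hd _ _ n1
  have a4 := hd _ _ fun e => n1 (T.inj e)
  rw [if_neg h1] at a1
  rw [if_neg fun e => h1 (T.sym (by rw [e, G.mt.2.1]))] at a2
  rw [if_pos rfl] at a3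
  split_ifs at a4 <;> omega

theorem init_mass (hW : ∀ u v, W u v = W v u) (hg : ∀ T : PM V, T ≠ G.mt → ∃ p, T.1 p ≠ G.mt.1 p ∧
    W p (T.1 p) + W (G.mt.1 p) (T.1 (G.mt.1 p)) + (G.b + 2 * G.L)
      ≤ W p (G.mt.1 p) + W (T.1 p) (T.1 (G.mt.1 p))) : 1 - G.e0 ≤ pr (e2 W) G.mt := by
  classical
  have w := wt_e2 hW
  have := clean_part (G := G) w (· = G.mt) (fun _ => True) (k := G.b) fun T hT _ => by
    obtain ⟨p, h1, h2⟩ := hg T hT
    exact ⟨p, _, (G.mt.2.2 p).symm, gain_of hW (G.mt.2.2 p).symm h1 h2, trivial⟩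
  rw [filter_true, show univ.filter (fun T : PM V => T = G.mt ∧ True) = {G.mt} by ext; simp,
    sum_singleton] at this
  rw [pr, le_div_iff₀ (w.z_pos G.mt)]
  exact this

theorem P1024 (G : Gr V) : 1024 ≤ 2 ^ G.L :=
  le_trans (by norm_num) (Nat.pow_le_pow_right (by norm_num) G.hL)

theorem b_eq (G : Gr V) : G.b = 2 ^ G.L * 2 ^ G.L := by rw [b, ← mul_pow]; rfl

theorem ty_of {ι : Type} {ω : ι → V → V → ℕ} (h : ∀ i, G.Good (ω i))
    (hn : ∀ i j T, pr (e2 (ω i)) T ≤ 4 * pr (e2 (ω j)) T) : Ty (fun i => e2 (ω i)) G.th G.K := by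
  refine ⟨fun i => wt_e2 (h i).sym, fun i => (h i).nice, hn, by unfold th; positivity, ?_⟩
  have := mul_le_mul G.nR G.nR (by positivity) (by positivity)
  rw [← mul_pow] at this
  simp only [th, Fintype.card_prod, Fintype.card_bool]
  rw [one_div_mul_eq_div, div_le_iff₀ (by positivity)]
  push_cast
  norm_num at this
  nlinarith

theorem mixes {ω : Fin G.N → V → V → ℕ} (h : ∀ i, G.Good (ω i))
    (hn : ∀ i j T, pr (e2 (ω i)) T ≤ 4 * pr (e2 (ω j)) T) (i0 : Fin G.N) (m : PM V)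
    (ψ : (Fin G.N → PM V) → ℝ) (ψ0 : ∀ x, 0 ≤ ψ x) (ψ1 : ∀ x, ψ x ≤ 1) :
    ∑ x, mu (fun i => e2 (ω i)) x * ψ x - G.e0
      ≤ ∑ x, mu (fun i => e2 (ω i)) x * (Rop G.th fun i => e2 (ω i))^[G.t] ψ (update x i0 m) := by
  haveI : Nonempty (Fin G.N) := ⟨i0⟩
  haveI : Nonempty V := ⟨G.o⟩
  have hL := G.hL
  have hb := G.hb
  have hP := G.P1024
  have be := G.b_eq
  have n1 : (1 : ℝ) ≤ Fintype.card V := by exact_mod_cast Fintype.card_pos
  have n2 : (Fintype.card V : ℝ) ≤ 2 ^ G.L := by linarith [G.nR]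
  have k1 : 8 * G.K / G.th = 16 * 4 ^ G.L * G.K := by unfold th; field_simp; ring
  have k2 : 1 ≤ G.K := one_le_mul_of_one_le_of_one_le (one_le_mul_of_one_le_of_one_le (by norm_num)
    (one_le_pow₀ (one_le_pow₀ (by norm_num)))) (one_le_pow₀ n1)
  have k3 : 8 * G.K / G.th ≤ 2 ^ (2421 * G.L) := by
    rw [k1, K]
    calc (16 : ℝ) * 4 ^ G.L * (10 ^ 6 * (4 ^ (300 * G.L)) ^ 4 * Fintype.card V ^ 16)
        ≤ 2 ^ 4 * 4 ^ G.L * (2 ^ 20 * (4 ^ (300 * G.L)) ^ 4 * (2 ^ G.L) ^ 16) := by gcongr <;> norm_num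
      _ ≤ _ := by
        rw [four_pow, four_pow, ← pow_mul, ← pow_mul, ← pow_add, ← pow_add, ← pow_add, ← pow_add]
        exact pw2 (by omega)
  have k4 : 1 ≤ 8 * G.K / G.th := by
    rw [k1]; exact one_le_mul_of_one_le_of_one_le (one_le_mul_of_one_le_of_one_le (by norm_num)
      (one_le_pow₀ (by norm_num))) k2
  have t0 : 0 < G.th := by unfold th; positivity
  have := (ty_of h hn).remix (by rw [le_div_iff₀ t0] at k4; linarith) (2 ^ (4 * G.L)) ?_
    (1 / (2 * G.t)) (by positivity) ?_ G.t (by unfold t; field_simp; rfl) i0 m (2 ^ (15 * G.b * 2 ^ G.L))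
    (by positivity) ?_ ψ ψ0 ψ1
  · refine le_trans (sub_le_sub_left ?_ _) this
    generalize 8 * G.K / G.th = K' at *
    have r1 : (1 - 1 / (8 * K' * Fintype.card (Fin G.N))) ^ G.t ≤ 1 / 2 ^ 2 ^ (4 * G.L) := by
      have N1 : (1 : ℝ) ≤ Fintype.card (Fin G.N) := by exact_mod_cast Fintype.card_pos
      have ρ1 : 1 / (8 * K' * Fintype.card (Fin G.N)) ≤ 1 := by rw [div_le_one (by positivity)]; nlinarith
      refine (pow_le_pow_left₀ (by linarith) (Real.one_sub_le_exp_neg _) _).trans ?_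
      rw [← Real.exp_nat_mul, one_div ((2 : ℝ) ^ _), ← inv_pow]
      refine le_trans (Real.exp_le_exp.2 (?_ : _ ≤ (2 ^ (4 * G.L) : ℕ) * (-1 : ℝ))) ?_
      · rw [mul_neg, mul_neg, neg_le_neg_iff, mul_one, mul_one_div, le_div_iff₀ (by positivity),
          Fintype.card_fin]
        unfold N t
        push_cast
        calc (2 : ℝ) ^ (4 * G.L) * (8 * K' * 2 ^ (32768 * G.L))
            ≤ 2 ^ (4 * G.L) * (2 ^ 3 * 2 ^ (2421 * G.L) * 2 ^ (32768 * G.L)) := by gcongr; norm_num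
          _ ≤ _ := by rw [← pow_add, ← pow_add, ← pow_add]; exact pw2 (by omega)
      · rw [Real.exp_nat_mul]
        refine pow_le_pow_left₀ (Real.exp_pos _).le ?_ _
        rw [Real.exp_neg]
        exact inv_anti₀ (by norm_num) (by linarith [Real.add_one_le_exp (1 : ℝ)])
    have r2 : (1 : ℝ) ≤ G.t := by unfold t; exact_mod_cast Nat.one_le_two_pow
    refine (mul_le_mul_of_nonneg_right (add_le_add (r1.trans (div_le_div_of_nonneg_right r2
      (by positivity))) le_rfl) (by positivity)).trans ?_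
    rw [← two_mul, e0, ← mul_div_assoc, div_mul_eq_mul_div, div_le_div_iff₀ (by positivity) (by positivity),
      one_mul, four_pow]
    unfold t
    push_cast
    rw [← pow_succ', ← pow_add, ← pow_add]
    refine pw2 ?_
    rw [show 2 ^ (4 * G.L) = G.b * (2 ^ G.L * 2 ^ G.L) by rw [be]; ring]
    nlinarith [Nat.mul_le_mul_left (G.b * 2 ^ G.L) hP, Nat.mul_le_mul_left G.b hP]
  · rw [Fintype.card_fin]
    unfold N
    push_cast
    calc 2 * (1 + 2 * (8 * G.K / G.th)) * 2 ^ (4 * G.L) ≤ (2 ^ 3 * 2 ^ (2421 * G.L)) * 2 ^ (4 * G.L) :=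
          mul_le_mul_of_nonneg_right (by linarith) (by positivity)
      _ ≤ _ := by rw [← pow_add, ← pow_add]; exact pw2 (by omega)
  · rw [Fintype.card_fin, div_pow, one_pow, one_div_mul_eq_div, le_div_iff₀ (by unfold t; positivity)]
    unfold N t
    push_cast
    calc 2 * ((2 : ℝ) ^ (4 * G.L) + 1) ^ 3 * (2 * 2 ^ (40960 * G.L)) ^ 2
        ≤ 2 * (2 * 2 ^ (4 * G.L)) ^ 3 * (2 * 2 ^ (40960 * G.L)) ^ 2 := by
          gcongr; linarith [one_le_pow₀ (by norm_num : (1 : ℝ) ≤ 2) (n := 4 * G.L)]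
      _ ≤ _ := by
        rw [← pow_succ', ← pow_succ', ← pow_mul, ← pow_mul, ← pow_mul, ← pow_succ', ← pow_add]
        exact pw2 (by omega)
  · refine (pr_low (h i0).sym (h i0).bd m).trans (mul_le_mul_of_nonneg_right ?_
      ((wt_e2 (h i0).sym).pr_pos m).le)
    refine (pow_le_pow_left₀ (by positivity) (mul_le_mul_of_nonneg_right n2 (by positivity)) _).trans ?_
    rw [← pow_add, ← pow_mul, ← pow_mul]
    refine pw2 ((Nat.mul_le_mul (by omega : _ ≤ 30 * G.b) (by have := G.hn; omega : _ ≤ 2 ^ G.L)).trans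
      (le_of_eq (by ring)))

theorem cher (G : Gr V) : 2 * Real.exp (-(G.B * G.al ^ 2 / 4)) ≤ G.e0 := by
  have hL := G.hL
  have a : ((2 * G.b + 1 : ℕ) : ℝ) ≤ G.B * G.al ^ 2 / 4 := by
    unfold B al b
    rw [div_pow, one_pow, mul_one_div, div_div, le_div_iff₀ (by positivity)]
    push_cast
    calc (2 * (4 : ℝ) ^ G.L + 1) * ((4 ^ (128 * G.L)) ^ 2 * 4)
        ≤ (2 ^ 2 * 4 ^ G.L) * ((4 ^ (128 * G.L)) ^ 2 * 2 ^ 2) := by
          gcongr <;> linarith [one_le_pow₀ (by norm_num : (1 : ℝ) ≤ 4) (n := G.L)]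
      _ ≤ _ := by
        rw [four_pow, four_pow, ← pow_mul, ← pow_add, ← pow_add, ← pow_add]; exact pw2 (by omega)
  have b := Real.exp_le_exp.2 (neg_le_neg a)
  rw [← mul_neg_one ((2 * G.b + 1 : ℕ) : ℝ), Real.exp_nat_mul] at b
  have c : Real.exp (-1) ≤ 1 / 2 := by
    rw [Real.exp_neg, one_div]; exact inv_anti₀ (by norm_num) (by linarith [Real.add_one_le_exp (1 : ℝ)])
  have d := b.trans (pow_le_pow_left₀ (Real.exp_pos _).le c _)
  rw [pow_succ (1 / 2 : ℝ), pow_mul] at d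
  rw [e0, ← one_div_pow]
  norm_num at d ⊢
  linarith

/-- The running estimate of the partition function. -/
def Est (G : Gr V) (W : V → V → ℕ) (k x y : ℕ) : Prop :=
  0 < y ∧ (1 - 3 * G.al) ^ k * (Zs (e2 W) * y) ≤ x ∧ x ≤ (1 + 3 * G.al) ^ k * (Zs (e2 W) * y)

theorem al_le (G : Gr V) : 0 < G.al ∧ G.al ≤ 1 / 1000 :=
  ⟨by unfold al; positivity, le_trans (one_div_le_one_div_of_le (by positivity)
    (pow_le_pow_right₀ (by norm_num) (by omega))) G.small⟩

theorem Est.mono (hW : ∀ u v, W u v = W v u) {k k' x y : ℕ} (h : G.Est W k x y) (hk : k ≤ k') :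
    G.Est W k' x y := by
  have := G.al_le
  have z : 0 ≤ Zs (e2 W) * y := mul_nonneg ((wt_e2 hW).z_pos G.mt).le (by positivity)
  exact ⟨h.1, (mul_le_mul_of_nonneg_right (pow_le_pow_of_le_one (by linarith) (by linarith) hk) z).trans
    h.2.1, h.2.2.trans (mul_le_mul_of_nonneg_right (pow_le_pow_right₀ (by linarith) hk) z)⟩

theorem Est.step (hW : ∀ u v, W u v = W v u) {k x y : ℕ} (h : G.Est W k x y) {p q : V} (hpq : p ≠ q)
    {c w m : ℕ} (hc : |(c : ℝ) - pe (e2 W) p q * G.B| ≤ G.al * G.B)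
    (hw : (w = W p q + 1 ∧ m = 4 * G.B + 12 * c) ∨ (w + 1 = W p q ∧ m = 4 * G.B - 3 * c)) :
    G.Est (upN W p q w) (k + 1) (x * m) (y * (4 * G.B)) ∧ m ≤ 28 * G.B := by
  obtain ⟨a0, a1⟩ := G.al_le
  have wt := wt_e2 hW
  have B0 : (0 : ℝ) < G.B := by unfold B; positivity
  have p0 : 0 ≤ pe (e2 W) p q := sum_nonneg fun T _ => (wt.pr_pos T).le
  have p1 : pe (e2 W) p q ≤ 1 := wt.sum_pr G.mt ▸
    sum_le_sum_of_subset_of_nonneg (filter_subset _ _) fun T _ _ => (wt.pr_pos T).le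
  obtain ⟨c1, c2⟩ := abs_le.1 hc
  have c3 : (3 * c : ℝ) ≤ 4 * G.B := by nlinarith
  have c4 : 3 * c ≤ 4 * G.B := by exact_mod_cast c3
  obtain ⟨f, f1, f2, f3⟩ : ∃ f : ℝ, Zs (e2 (upN W p q w)) = Zs (e2 W) * f ∧
      (1 - 3 * G.al) * (f * (4 * G.B)) ≤ m ∧ m ≤ (1 + 3 * G.al) * (f * (4 * G.B)) := by
    rcases hw with ⟨rfl, rfl⟩ | ⟨e, rfl⟩
    · refine ⟨_, by rw [e2_upN, pow_succ', ← Zs_up wt hpq 2 G.mt]; rfl, ?_, ?_⟩ <;> push_cast <;>
        nlinarith [mul_nonneg (mul_nonneg a0.le p0) B0.le]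
    · refine ⟨_, by rw [e2_upN, ← Zs_up wt hpq (1 / 2) G.mt, e2, ← e, pow_succ]; congr 2; ring, ?_, ?_⟩ <;>
        rw [Nat.cast_sub c4] <;> push_cast <;>
        nlinarith [mul_nonneg (mul_nonneg a0.le (sub_nonneg.2 p1)) B0.le]
  refine ⟨⟨Nat.mul_pos h.1 (by unfold B; positivity), ?_, ?_⟩, by rcases hw with ⟨-, e⟩ | ⟨-, e⟩ <;> omega⟩
  · have := mul_le_mul h.2.1 f2 (by
      have := (wt_e2 (upN_sym hW p q w)).z_pos G.mt
      change 0 < Zs _ at this
      rw [f1] at this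
      exact mul_nonneg (by linarith) (mul_nonneg (pos_of_mul_pos_right this (wt.z_pos G.mt).le).le
        (by positivity))) (by positivity)
    rw [f1, pow_succ]; push_cast; linarith
  · have := mul_le_mul h.2.2 f3 (by positivity) (le_trans (by positivity) h.2.2)
    rw [f1, pow_succ]; push_cast; linarith

theorem near_step (hW : ∀ u v, W u v = W v u) {p q : V} (hpq : p ≠ q) {w : ℕ}
    (hw : w = W p q + 1 ∨ w + 1 = W p q) (T : PM V) :
    pr (e2 W) T ≤ 4 * pr (e2 (upN W p q w)) T ∧ pr (e2 (upN W p q w)) T ≤ 4 * pr (e2 W) T := by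
  have key : ∀ W : V → V → ℕ, (∀ u v, W u v = W v u) → pr (e2 W) T ≤ 4 * pr (e2 (upN W p q (W p q + 1))) T
      ∧ pr (e2 (upN W p q (W p q + 1))) T ≤ 4 * pr (e2 W) T := by
    intro W hW
    have e : ∀ T : PM V, T.wt (e2 (upN W p q (W p q + 1))) = (if T.1 p = q then 2 ^ 2 else 1) * T.wt (e2 W) :=
      fun T => by rw [e2_upN, pow_succ', ← wt_up (wt_e2 hW) hpq 2]; rfl
    refine near_of (wt_e2 hW) (wt_e2 (upN_sym hW _ _ _)) (fun T => ?_) (fun T => ?_) T <;> rw [e] <;>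
      have := (wt_e2 hW).wt_pos T <;> split_ifs <;> linarith
  rcases hw with rfl | e
  · exact key W hW
  · have := key _ (upN_sym hW p q w)
    rw [show upN (upN W p q w) p q (upN W p q w p q + 1) = W by
      funext u v; have := hW p q; simp only [upN]; grind] at this
    exact this.symm

open Classical in
theorem Z_fin {ℓ : V → V → ℕ} (adj : V → V → Prop)
    (h : ∀ u v, G.re u → G.re v → u ≠ v → ℓ u v = if adj u v then 2 * G.b else G.b) :
    (∏ _u ∈ univ.filter G.re, (2 : ℝ) ^ (2 * G.b))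
        * ((G.Fam ∅).filter fun f => ∀ u, G.re u → adj u (f u)).card ≤ G.Z (e2 ℓ) ∅ ∧
    G.Z (e2 ℓ) ∅ ≤ (∏ _u ∈ univ.filter G.re, (2 : ℝ) ^ (2 * G.b))
        * (((G.Fam ∅).filter fun f => ∀ u, G.re u → adj u (f u)).card + 1 / 4 ^ (70 * G.L)) := by
  have e : ∀ f ∈ G.Fam ∅, ∀ u, G.re u → dg (e2 ℓ) u (f u) = 2 ^ if adj u (f u) then 2 * G.b else G.b := by
    intro f hf u ru
    obtain ⟨a1, a2, a3⟩ := Sk.mem_Fam.1 hf
    have n : f u ≠ u := by simp [a2]
    rw [dg, if_neg n, e2, h _ _ ru (Sk.re_of a1 a3 ru) n.symm]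
  generalize hD : ∏ _u ∈ univ.filter G.re, (2 : ℝ) ^ (2 * G.b) = D
  have D0 : 0 < D := hD ▸ prod_pos fun _ _ => by positivity
  rw [Sk.Z, ← sum_filter_add_sum_filter_not _ (fun f => ∀ u, G.re u → adj u (f u)),
    sum_congr rfl (g := fun _ => D) fun f hf => by
      rw [Sk.wt, ← hD]
      exact prod_congr rfl fun u hu => by
        rw [e f (mem_filter.1 hf).1 u (mem_filter.1 hu).2, if_pos ((mem_filter.1 hf).2 u (mem_filter.1 hu).2)],
    sum_const, nsmul_eq_mul, mul_add, mul_comm D]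
  refine ⟨le_add_of_nonneg_right (sum_nonneg fun f hf => prod_nonneg fun u hu => by
    rw [e f (mem_filter.1 hf).1 u (mem_filter.1 hu).2]; positivity), add_le_add le_rfl ?_⟩
  refine (sum_le_card_nsmul _ _ (D / 2 ^ G.b) fun f hf => ?_).trans ?_
  · obtain ⟨u, ru, hu⟩ : ∃ u, G.re u ∧ ¬ adj u (f u) := by simpa using (mem_filter.1 hf).2
    have m : u ∈ univ.filter G.re := by simpa using ru
    rw [Sk.wt, ← hD, ← mul_prod_erase _ _ m, ← mul_prod_erase _ _ m, e f (mem_filter.1 hf).1 u ru, if_neg hu,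
      two_mul, pow_add, mul_assoc, mul_div_cancel_left₀ _ (by positivity), ← pow_add, ← two_mul]
    refine mul_le_mul_of_nonneg_left (prod_le_prod (fun v hv => ?_) fun v hv => ?_) (by positivity) <;>
      rw [e f (mem_filter.1 hf).1 v (mem_filter.1 (mem_erase.1 hv).2).2]
    · positivity
    · exact pw2 (by split_ifs <;> omega)
  · have c : (((G.Fam ∅).filter fun f => ¬ ∀ u, G.re u → adj u (f u)).card : ℝ)
        ≤ 2 ^ (G.L * Fintype.card V) := by
      have := card_le_univ ((G.Fam ∅).filter fun f => ¬ ∀ u, G.re u → adj u (f u))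
      rw [Fintype.card_fun] at this
      refine le_trans (by exact_mod_cast this) (?_ : (Fintype.card V : ℝ) ^ Fintype.card V ≤ _)
      rw [pow_mul]
      exact pow_le_pow_left₀ (by positivity) (by linarith [G.nR, (by positivity : (0 : ℝ) ≤ Fintype.card V)]) _
    rw [nsmul_eq_mul, mul_div_left_comm]
    refine mul_le_mul_of_nonneg_left ?_ D0.le
    rw [div_le_div_iff₀ (by positivity) (by positivity), one_mul, four_pow]
    refine (mul_le_mul_of_nonneg_right c (by positivity)).trans ?_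
    rw [← pow_add]
    refine pw2 ?_
    have := G.hb
    have := Nat.mul_le_mul (Nat.lt_two_pow_self (n := G.L)).le G.hn
    rw [← G.b_eq] at this
    nlinarith

open Classical in
theorem final {ℓ : V → V → ℕ} {σ : V → ℕ} (adj : V → V → Prop) (hs : G.St ℓ σ (5 * G.L))
    (hU : IsClo (G.a0 ℓ σ) U) (hW : ∀ p q, p ≠ q → W p q = G.tg ℓ U σ p q)
    (h : ∀ u v, G.re u → G.re v → u ≠ v → ℓ u v = if adj u v then 2 * G.b else G.b)
    {k x y : ℕ} (he : G.Est W k x y) (hk : k ≤ 2 ^ (10 * G.L)) {ε : ℝ} (hε : 1 ≤ ε * 2 ^ G.L) {d c : ℕ}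
    (hd : d = y * 2 ^ ∑ p, if G.re p then 2 * G.b else W p (G.mt.1 p))
    (hc : c = ((G.Fam ∅).filter fun f => ∀ u, G.re u → adj u (f u)).card) :
    (2 * x < d → c = 0) ∧ (d ≤ 2 * x → (1 - ε) * c * d ≤ x ∧ x ≤ (1 + ε) * c * d) := by
  obtain ⟨z1, z2⟩ := Z_fin adj h
  obtain ⟨t1, t2⟩ := hs.total le_rfl hU
  obtain ⟨y0, e1, e3⟩ := he
  obtain ⟨a0, a1⟩ := G.al_le
  have hL := G.hL
  rw [show Zs (e2 W) = Zs (e2 (G.tg ℓ U σ)) from sum_congr rfl fun T _ => wt_congr hW T] at e1 e3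
  have ed : (d : ℝ) = y * (G.Dm (e2 (G.tg ℓ U σ)) * ∏ _u ∈ univ.filter G.re, (2 : ℝ) ^ (2 * G.b)) := by
    rw [hd]; push_cast
    rw [← prod_pow_eq_pow_sum, ← prod_filter_mul_prod_filter_not univ G.re, mul_comm (G.Dm _), Dm]
    congr 2
    · exact prod_congr rfl fun u hu => by rw [if_pos (mem_filter.1 hu).2]
    · exact prod_congr rfl fun u hu => by rw [if_neg (mem_filter.1 hu).2, hW _ _ (G.mt.2.2 u).symm, e2]
  have k1 : k * (3 * G.al) ≤ 1 / 4 ^ (70 * G.L) / 2 := by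
    have : (k : ℝ) ≤ 2 ^ (10 * G.L) := by exact_mod_cast hk
    refine (mul_le_mul this (by linarith : _ ≤ 2 ^ 2 * G.al) (by positivity) (by positivity)).trans ?_
    rw [al, mul_one_div, ← mul_div_assoc, div_div, div_le_div_iff₀ (by positivity) (by positivity), one_mul,
      four_pow, four_pow, ← pow_succ, ← pow_add, ← pow_add]
    exact pw2 (by omega)
  have k2 : 6 * (1 / 4 ^ (70 * G.L)) ≤ ε := by
    refine le_of_mul_le_mul_right (le_trans ?_ hε) (by positivity)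
    rw [mul_one_div, div_mul_eq_mul_div, div_le_one (by positivity), four_pow]
    refine (mul_le_mul_of_nonneg_right (by norm_num : (6 : ℝ) ≤ 2 ^ 3) (by positivity)).trans ?_
    rw [← pow_add]; exact pw2 (by omega)
  have sm := G.small
  have u0 : (0 : ℝ) < 1 / 4 ^ (70 * G.L) := by positivity
  have k3 := one_add_pow (by linarith : 0 ≤ 3 * G.al) k (by linarith)
  have k4 := one_add_mul_le_pow (by linarith : -2 ≤ -(3 * G.al)) k
  rw [← sub_eq_add_neg, mul_neg] at k4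
  rw [show (3 : ℝ) / 4 ^ (70 * G.L) = 3 * (1 / 4 ^ (70 * G.L)) by ring] at t2
  rw [← hc] at z1 z2
  have d0 : 0 < G.Dm (e2 (G.tg ℓ U σ)) := prod_pos fun _ _ => by unfold e2; positivity
  have d1 : 0 < ∏ _u ∈ univ.filter G.re, (2 : ℝ) ^ (2 * G.b) := prod_pos fun _ _ => by positivity
  have y1 : (0 : ℝ) < y := by exact_mod_cast y0
  have zz := mul_nonneg ((wt_e2 (tg_sym (G := G) (σ := σ) hs.sym hU.sym)).z_pos G.mt).le y1.le
  generalize (1 : ℝ) / 4 ^ (70 * G.L) = u at *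
  have dp : (0 : ℝ) < d := by rw [ed]; positivity
  have f1 : (1 - u) * (c * d) ≤ x := by
    refine le_trans ?_ e1
    refine mul_le_mul (by linarith) ?_ (by positivity) (by linarith)
    have := mul_le_mul_of_nonneg_right ((mul_le_mul_of_nonneg_left z1 d0.le).trans t1) y1.le
    rw [ed]; linarith
  have f2 : x ≤ (1 + u) * ((1 + 3 * u) * ((c + u) * d)) := by
    refine e3.trans (mul_le_mul (by linarith) ?_ zz (by linarith))
    have := mul_le_mul_of_nonneg_right (t2.trans (mul_le_mul_of_nonneg_left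
      (mul_le_mul_of_nonneg_left z2 d0.le) (by linarith))) y1.le
    rw [ed]; linarith
  rcases Nat.eq_zero_or_pos c with c0 | c0
  · refine ⟨fun _ => c0, fun hx => absurd (by exact_mod_cast hx : (d : ℝ) ≤ 2 * x) (not_le.2 ?_)⟩
    rw [c0, Nat.cast_zero, zero_add, ← mul_assoc, ← mul_assoc] at f2
    have : (1 + u) * (1 + 3 * u) * u ≤ 1 / 4 := by nlinarith [mul_pos u0 u0]
    nlinarith
  have c1 : (1 : ℝ) ≤ c := by exact_mod_cast c0
  have cd := mul_le_mul_of_nonneg_right c1 dp.le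
  refine ⟨fun hx => absurd (by exact_mod_cast hx : (2 * x : ℝ) < d) (not_lt.2 (by nlinarith)),
    fun _ => ⟨by nlinarith, f2.trans ?_⟩⟩
  have g1 : (c + u) * d ≤ (1 + u) * (c * d) := by nlinarith
  have g2 : (1 + u) * ((1 + 3 * u) * (1 + u)) ≤ 1 + ε := by nlinarith [mul_pos u0 u0]
  have g3 := mul_le_mul_of_nonneg_right g2 (by positivity : (0 : ℝ) ≤ c * d)
  have g4 := mul_le_mul_of_nonneg_left g1 (by positivity : 0 ≤ (1 + u) * (1 + 3 * u))
  linarith

end Gr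

end Vale.Agent.P308
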