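import Vale.Agent.P308.Code

/-! P308: program logic: reads, noninterference, and loop rules for abstract judgements. -/

namespace Vale.Agent.P308
open Finset Vale.Agent.P317 Vale.Agent.P328

variable {k0 : ℕ} {O : Bool → Set (Fin k0) → Prop}

@[simp] theorem mulE_val (k : ℕ) (e : Expr) (m : Mem) : (mulE k e).val m = k * e.val m := by
  induction k with
  | zero => simp [mulE, Expr.val]
  | succ k ih => simp [mulE, Expr.val, ih]; ring
@[simp] theorem mx_val (x y : Expr) (m : Mem) : (mx x y).val m = max (x.val m) (y.val m) := by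
  simp only [mx, Expr.val]; omega
@[simp] theorem mn_val (x y : Expr) (m : Mem) : (mn x y).val m = min (x.val m) (y.val m) := by
  simp only [mn, Expr.val]; omega
@[simp] theorem V_val (a : ℕ) (m : Mem) : (V a).val m = m a 0 := rfl
@[simp] theorem ix_val (u v : Expr) (m : Mem) : (ix u v).val m = m 16 (u.val m) + v.val m := rfl
@[simp] theorem c2_val (a : ℕ) (u v : Expr) (m : Mem) :
    (c2 a u v).val m = m a (m 16 (u.val m) + v.val m) := rfl
theorem ltE_ne (x y : Expr) (m : Mem) : (ltE x y).val m ≠ 0 ↔ x.val m < y.val m := by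
  simp only [ltE, Expr.val]; omega
@[simp] theorem ltE_eq (x y : Expr) (m : Mem) : (ltE x y).val m = 0 ↔ y.val m ≤ x.val m := by
  simp only [ltE, Expr.val]; omega
@[simp] theorem neE_eq (x y : Expr) (m : Mem) : (neE x y).val m = 0 ↔ x.val m = y.val m := by
  simp only [neE, Expr.val]; omega

def rdE : Expr → List ℕ
  | .lit _ => []
  | .get a i => a :: rdE i
  | .add x y => rdE x ++ rdE y
  | .sub x y => rdE x ++ rdE y

def rdP : Prog → List ℕ
  | .set _ i e => rdE i ++ rdE e
  | .coin _ i => rdE i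
  | .ask _ b _ i => b :: rdE i
  | .seq p q => rdP p ++ rdP q
  | .ite c p q => rdE c ++ (rdP p ++ rdP q)
  | .loop k c p => rdE k ++ (rdE c ++ rdP p)

theorem val_agree {S : List ℕ} {C M : Mem} (h : Agree S C M) (e : Expr) (he : ∀ a ∈ rdE e, a ∉ S) :
    e.val M = e.val C := by
  induction e with
  | lit c => rfl
  | get a i ih =>
    simp only [rdE, List.forall_mem_cons] at he
    simp only [Expr.val, ih he.2, h a he.1]
  | add x y ihx ihy =>
    simp only [rdE, List.forall_mem_append] at he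
    simp only [Expr.val, ihx he.1, ihy he.2]
  | sub x y ihx ihy =>
    simp only [rdE, List.forall_mem_append] at he
    simp only [Expr.val, ihx he.1, ihy he.2]

theorem put_agree {S : List ℕ} {C M : Mem} (h : Agree S C M) (a i x : ℕ) :
    Agree S (C.put a i x) (M.put a i x) := fun b hb => by
  funext j; simp only [Mem.put_apply, h b hb]

theorem exec_ni {S : List ℕ} (p : Prog) (hp : ∀ a ∈ rdP p, a ∉ S) :
    ∀ C M, Agree S C M → Agree S (exec O p C) (exec O p M) := by
  induction p with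
  | set a i e =>
    intro C M h
    simp only [rdP, List.forall_mem_append] at hp
    simp only [exec, val_agree h i hp.1, val_agree h e hp.2]
    exact put_agree h _ _ _
  | coin a i => intro C M h; simp only [exec, val_agree h i hp]; exact put_agree h _ _ _
  | ask w b a i =>
    intro C M h
    simp only [rdP, List.forall_mem_cons] at hp
    simp only [exec]
    rw [val_agree h i hp.2, h b hp.1]
    exact put_agree h _ _ _
  | seq p q ihp ihq =>
    intro C M h
    simp only [rdP, List.forall_mem_append] at hp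
    exact ihq hp.2 _ _ (ihp hp.1 _ _ h)
  | ite c p q ihp ihq =>
    intro C M h
    simp only [rdP, List.forall_mem_append] at hp
    simp only [exec, val_agree h c hp.1]
    split_ifs
    exacts [ihq hp.2.2 _ _ h, ihp hp.2.1 _ _ h]
  | loop k c p ih =>
    intro C M h
    simp only [rdP, List.forall_mem_append] at hp
    simp only [exec, val_agree h k hp.1]
    generalize k.val C = j
    induction j generalizing C M with
    | zero => exact h
    | succ j ihj =>
      simp only [execLoop, val_agree h c hp.2.1]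
      split_ifs
      exacts [h, ihj _ _ (ih hp.2.2 _ _ h)]

theorem ex_mono (p : Prog) : ∀ φ ψ : Mem → ℝ, (∀ m, φ m ≤ ψ m) → ∀ m, ex O p φ m ≤ ex O p ψ m := by
  induction p with
  | set a i e => intro φ ψ h m; exact h _
  | coin a i => intro φ ψ h m; exact div_le_div_of_nonneg_right (add_le_add (h _) (h _)) (by norm_num)
  | ask w b a i => intro φ ψ h m; exact h _
  | seq p q ihp ihq => intro φ ψ h m; exact ihp _ _ (ihq _ _ h) m
  | ite c p q ihp ihq =>
    intro φ ψ h m; simp only [ex]; split_ifs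
    exacts [ihq _ _ h m, ihp _ _ h m]
  | loop k c p ih =>
    intro φ ψ h m
    simp only [ex]
    generalize k.val m = j
    induction j generalizing m with
    | zero => exact h m
    | succ j ihj =>
      simp only [exLoop]; split_ifs
      exacts [h m, ih _ _ ihj m]

theorem Impl.le {A B : Type} {W : List ℕ} {p : Prog} {RA : A → Mem → Prop} {RB : B → Mem → Prop}
    {T : (B → ℝ) → A → ℝ} (h : Impl O W p RA RB T) (hu : ∀ b b' m, RB b m → RB b' m → b = b')
    {a : A} {m : Mem} (ha : RA a m) (φ : Mem → ℝ) (ψ : B → ℝ) (hφ : ∀ b m', RB b m' → ψ b ≤ φ m') :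
    T ψ a ≤ ex O p φ m := by
  classical
  rw [← h a m ha (fun m' => if e : ∃ b, RB b m' then ψ e.choose else φ m') ψ fun b m' hb _ => by
    have e : ∃ b, RB b m' := ⟨b, hb⟩
    rw [dif_pos e, hu _ b m' e.choose_spec hb]]
  refine ex_mono p _ _ (fun m' => ?_) m
  split_ifs with e
  exacts [hφ _ _ e.choose_spec, le_rfl]

/-- Rules shared by the deterministic and the probabilistic judgement. -/
structure Lg (ok : ℕ → Prop) (J : Prog → Mem → (Mem → Prop) → ℕ → Prop) : Prop where
  mono : ∀ {p C Q Q' e e'}, J p C Q e → (∀ C', Q C' → Agree p.wr C C' → Q' C') → e ≤ e' → J p C Q' e'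
  seq : ∀ {p q C Q Q' e e'}, J p C Q e → (∀ C', Q C' → J q C' Q' e') → J (.seq p q) C Q' (e + e')
  zero : ∀ {i} C, ok i → J (asg i (.lit 0)) C (· = C.put i 0 0) 0
  inc : ∀ {i} C, ok i → J (inc i) C (· = C.put i 0 (C i 0 + 1)) 0
  loop : ∀ {k p C e} (I : ℕ → Mem → Prop), ok k → I 0 C →
    (∀ i < C k 0, ∀ C', I i C' → J p C' (I (i + 1)) e) →
    J (.loop (V k) (.lit 1) p) C (I (C k 0)) (C k 0 * e)

namespace Lg
variable {ok : ℕ → Prop} {J : Prog → Mem → (Mem → Prop) → ℕ → Prop} (L : Lg ok J)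
include L

theorem forI {i k m e : ℕ} {body : Prog} {C : Mem} (I : ℕ → Mem → Prop) (oi : ok i) (ok' : ok k)
    (hk : C k 0 = m) (ki : k ≠ i) (hi : i ∉ body.wr) (st : ∀ s C x, I s C → I s (C.put i 0 x))
    (h0 : I 0 C) (h : ∀ s < m, ∀ C', C' i 0 = s → I s C' → J body C' (I (s + 1)) e) :
    J (forI i k body) C (I m) (m * e) := by
  have := L.seq (L.zero C oi) (Q' := fun C' => C' i 0 = m ∧ I m C') (e' := m * e)
    (q := .loop (V k) (.lit 1) (.seq body (P328.inc i))) (by
      rintro _ rfl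
      have e1 : C.put i 0 0 k 0 = m := by simp [ki, hk]
      have := L.loop (k := k) (p := .seq body (P328.inc i)) (C := C.put i 0 0) (e := e + 0)
        (fun s C' => C' i 0 = s ∧ I s C') ok' ⟨by simp, st _ _ _ h0⟩ (by
          rw [e1]
          intro s hs C' ⟨a1, a2⟩
          refine L.seq (L.mono (h s hs C' a1 a2) (Q' := fun C'' => C'' i 0 = s ∧ I (s + 1) C'')
            (fun C'' b1 b2 => ⟨by rw [b2 i hi, a1], b1⟩) le_rfl) fun C'' b => ?_
          exact L.mono (L.inc C'' oi) (by rintro _ rfl _; exact ⟨by simp [b.1], st _ _ _ b.2⟩) le_rfl)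
      rwa [e1] at this)
  exact L.mono this (fun _ a _ => a.2) (by omega)

theorem for2 {i j k m e : ℕ} {body : Prog} {C : Mem} (I : Finset (ℕ × ℕ) → Mem → Prop) (oi : ok i)
    (oj : ok j) (ok' : ok k) (hk : C k 0 = m) (ki : k ≠ i) (kj : k ≠ j) (ij : i ≠ j)
    (hi : i ∉ body.wr) (hj : j ∉ body.wr) (hk' : k ∉ body.wr)
    (si : ∀ s C x, I s C → I s (C.put i 0 x)) (sj : ∀ s C x, I s C → I s (C.put j 0 x))
    (h0 : I ∅ C) (h : ∀ D, D ⊆ range m ×ˢ range m → ∀ p < m, ∀ q < m, (p, q) ∉ D → ∀ C', C' i 0 = p →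
      C' j 0 = q → I D C' → J body C' (I (insert (p, q) D)) e) :
    J (for2 i j k body) C (I (range m ×ˢ range m)) (m * (m * e)) := by
  refine L.mono (L.forI (fun p C' => C' k 0 = m ∧ I (range p ×ˢ range m) C') oi ok' hk ki
    (by simp [P308.forI, asg, P328.inc, Prog.wr, hi, ij])
    (fun s C x a => ⟨by simp [ki, a.1], si _ _ _ a.2⟩) ⟨hk, by simpa using h0⟩ ?_) (fun _ a _ => a.2) le_rfl
  intro p hp C' a1 ⟨a2, a3⟩
  refine L.mono (L.forI (fun q C'' => C'' i 0 = p ∧ I (range p ×ˢ range m ∪ {p} ×ˢ range q) C'') oj ok' a2 kj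
    hj (fun s C x a => ⟨by simp [ij, a.1], sj _ _ _ a.2⟩) ⟨a1, by simpa using a3⟩ ?_) ?_ le_rfl
  · intro q hq C'' b1 ⟨b2, b3⟩
    refine L.mono (h _ (fun z hz => ?_) p hp q hq (by simp) C'' b2 b1 b3)
      (fun C3 c1 c2 => ⟨by rw [c2 i hi, b2], ?_⟩) le_rfl
    · simp only [mem_union, mem_product, mem_range, mem_singleton] at hz ⊢; omega
    · convert c1 using 1
      ext z; simp only [mem_union, mem_product, mem_range, mem_singleton, mem_insert, Prod.ext_iff]; omega
  · intro C'' b1 b2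
    refine ⟨by rw [b2 k (by simp [P308.forI, asg, P328.inc, Prog.wr, hk', kj]), a2], ?_⟩
    convert b1.2 using 1
    ext z; simp only [mem_union, mem_product, mem_range, mem_singleton]; omega

end Lg

/-- The deterministic judgement. -/
def DT (O : Bool → Set (Fin k0) → Prop) (p : Prog) (C : Mem) (Q : Mem → Prop) (_ : ℕ) : Prop :=
  Q (exec O p C)

theorem lgD : Lg (fun _ => True) (DT O) :=
  ⟨fun h h' _ => h' _ h (exec_agree _ _ _), fun h h' => h' _ h, fun _ _ => rfl, fun _ _ => rfl,
    fun I _ h0 h => execLoop_inv _ I _ h _ h0⟩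

theorem rept_inv {r m : ℕ} {body : Prog} {C : Mem} (I : ℕ → Mem → Prop) (hr : C r 0 = m)
    (hm : m ≤ C 13 0) (hb : r ∉ body.wr) (st : ∀ s C x, I s C → I s (C.put r 0 x)) (h0 : I 0 C)
    (h : ∀ s < m, ∀ C', I s C' → I (s + 1) (exec O body C')) : I m (exec O (rept r body) C) := by
  obtain ⟨i, h1, ⟨h2, h3, h4⟩, h5⟩ := execLoop_guard (V r) (exec O (.seq body (asg r (.sub (V r) (.lit 1)))))
    (fun i C' => i ≤ m ∧ C' r 0 = m - i ∧ I i C') (C 13 0) (by
      intro i _ C' ⟨a1, a2, a3⟩ a4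
      rw [V_val] at a4
      have e : exec O body C' r 0 = m - i := by rw [exec_frame O body C' r hb, a2]
      exact ⟨by omega, by simp [exec, asg, Expr.val, e]; omega, st _ _ _ (h i (by omega) C' a3)⟩)
    C ⟨Nat.zero_le _, hr, h0⟩
  have : i = m := by
    rcases h5 with h5 | h5
    · omega
    · rw [V_val, h3] at h5; omega
  exact this ▸ h4

theorem cell_inj {P p q p' q' : ℕ} (h : q < P) (h' : q' < P) : p * P + q = p' * P + q' ↔ p = p' ∧ q = q' := by
  refine ⟨fun e => ?_, fun e => by rw [e.1, e.2]⟩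
  have a := congrArg (· % P) e
  simp only [Nat.mul_add_mod_of_lt h, Nat.mul_add_mod_of_lt h'] at a
  subst a
  exact ⟨Nat.eq_of_mul_eq_mul_right (by omega) (by omega : p * P = p' * P), rfl⟩

theorem fill1 {a i k m o : ℕ} {body : Prog} {C : Mem} (W : List ℕ) (F : ℕ → ℕ) (hk : C k 0 = m)
    (ki : k ≠ i) (ai : a ≠ i) (hi : i ∉ body.wr) (iW : i ∈ W) (hW : ∀ x ∈ body.wr, x ∈ W)
    (h : ∀ s < m, ∀ C', Agree W C C' → C' i 0 = s → C' a (o + s) = C a (o + s) →
      exec O body C' a = Function.update (C' a) (o + s) (F s)) :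
    ∀ x, exec O (forI i k body) C a x = if o ≤ x ∧ x < o + m then F (x - o) else C a x :=
  (lgD.forI (e := 0) (fun s C' => Agree W C C' ∧ ∀ x, C' a x = if o ≤ x ∧ x < o + s then F (x - o) else C a x)
    trivial trivial hk ki hi (fun s C' x b => ⟨agree_put' b.1 iW _ _, by simpa [ai] using b.2⟩)
    ⟨Agree.refl _ _, fun x => by rw [if_neg (by omega)]⟩ (fun s hs C' b1 ⟨b2, b3⟩ =>
      ⟨agree_exec b2 O _ hW, fun x => by
        rw [h s hs C' b2 b1 (by rw [b3, if_neg (by omega)]), Function.update_apply, b3]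
        by_cases e : x = o + s
        · simp [e]
        · rw [if_neg e]; exact if_congr (by omega) rfl rfl⟩)).2

theorem fill2 {a i j k m o P : ℕ} {body : Prog} {C : Mem} (W : List ℕ) (F : ℕ → ℕ → ℕ) (hk : C k 0 = m)
    (hm : m ≤ P) (ki : k ≠ i) (kj : k ≠ j) (ij : i ≠ j) (ai : a ≠ i) (aj : a ≠ j) (hi : i ∉ body.wr)
    (hj : j ∉ body.wr) (hk' : k ∉ body.wr) (iW : i ∈ W) (jW : j ∈ W) (hW : ∀ x ∈ body.wr, x ∈ W)
    (h : ∀ p < m, ∀ q < m, ∀ C', Agree W C C' → C' i 0 = p → C' j 0 = q →
      C' a (o + (p * P + q)) = C a (o + (p * P + q)) →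
      (∀ p' < m, ∀ q' < m, C' a (o + (p' * P + q')) = F p' q' ∨
        C' a (o + (p' * P + q')) = C a (o + (p' * P + q'))) →
      exec O body C' a = Function.update (C' a) (o + (p * P + q)) (F p q)) :
    (∀ p < m, ∀ q < m, exec O (for2 i j k body) C a (o + (p * P + q)) = F p q) ∧
      ∀ x, x < o ∨ o + P * P ≤ x → exec O (for2 i j k body) C a x = C a x := by
  have := (lgD (O := O)).for2 (e := 0) (fun D C' => Agree W C C' ∧ (∀ p < m, ∀ q < m, C' a (o + (p * P + q))
      = if (p, q) ∈ D then F p q else C a (o + (p * P + q))) ∧ ∀ x, x < o ∨ o + P * P ≤ x → C' a x = C a x)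
    trivial trivial trivial hk ki kj ij hi hj hk'
    (fun s C' x b => ⟨agree_put' b.1 iW _ _, by simpa [ai] using b.2⟩)
    (fun s C' x b => ⟨agree_put' b.1 jW _ _, by simpa [aj] using b.2⟩)
    ⟨Agree.refl _ _, by simp, fun _ _ => rfl⟩ (fun D _ p hp q hq hD C' b1 b2 ⟨b3, b4, b5⟩ => by
      have e := h p hp q hq C' b3 b1 b2 (by rw [b4 p hp q hq, if_neg hD]) fun p' hp' q' hq' => by
        rw [b4 p' hp' q' hq']; split_ifs <;> simp
      refine ⟨agree_exec b3 O _ hW, fun p' hp' q' hq' => ?_, fun x hx => ?_⟩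
      · rw [e, Function.update_apply, b4 p' hp' q' hq']
        simp only [Nat.add_left_cancel_iff, cell_inj (hq'.trans_le hm) (hq.trans_le hm), mem_insert,
          Prod.mk.injEq]
        by_cases c : p' = p ∧ q' = q
        · simp [c]
        · simp [c]
      · rw [e, Function.update_of_ne, b5 x hx]
        have := Nat.mul_le_mul_right P (show p + 1 ≤ P by omega)
        rw [add_mul] at this
        omega)
  exact ⟨fun p hp q hq => by rw [this.2.1 p hp q hq, if_pos (by simp [hp, hq])], this.2.2⟩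

end Vale.Agent.P308
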