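import Vale.Agent.P308.Conc

/-! P308: parameters, running time, and the final theorems. -/

namespace Vale.Agent.P308
open Finset Function Vale.Agent.P317 Vale.Agent.P328

theorem pow_le_of {a d i N : ℕ} (hN : d ≤ a * 2 ^ N) (h : i = 0 ∨ a * 2 ^ i < 2 * d) : i ≤ N := by
  rcases h with h | h
  · omega
  · by_contra hcon
    have := Nat.mul_le_mul_left a (Nat.pow_le_pow_right (show 0 < 2 by norm_num) (show N + 1 ≤ i by omega))
    rw [pow_succ, ← mul_assoc] at this
    omega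

structure Ph0 {n : ℕ} (G : SimpleGraph (Fin n)) (ε δ : ℚ) (T L : ℕ) (M : Mem) : Prop where
  ag : Agree [8, 65, 1, 66, 3, 67, 10, 47, 9] (ginput G ε δ) M
  r8 : M 8 0 = n + 2 * (n * n)
  r9 : M 9 0 = L
  r10 : M 10 0 = 2 ^ L
  r65 : M 65 0 = n % 2
  lo : 2 * (n + 2 * (n * n)) + 1024 ≤ 2 ^ L
  hi : 2 ^ L ≤ 2 * T
  he : ε.den ≤ ε.num.toNat * 2 ^ L
  hd : δ.den ≤ δ.num.toNat * 2 ^ 2 ^ L

variable {n : ℕ} (G : SimpleGraph (Fin n)) {ε δ : ℚ}

theorem phase0_tb (hε : 0 < ε) (hδ : 0 < δ) {E K T : ℕ} (hE : ε.den ≤ ε.num.toNat * E)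
    (hK : δ.den ≤ δ.num.toNat * 2 ^ K) (hT : T = 2 * (n + 2 * (n * n)) + E + K + 1024) :
    TB noOracle phase0 (ginput G ε δ) (3 * T ^ 5) (fun M => ∃ L, Ph0 G ε δ T L M) := by
  have t1 := (TB_static noOracle [0] n findS (by decide) (ginput G ε δ) (by simp [ginput, input])).det (by decide)
  have f1 := (lgD (O := noOracle)).loop (k := 0) (e := 0) (C := (ginput G ε δ).put 8 0 n)
    (p := .seq (acc 8 (mulE 2 (V 0))) (asg 65 (.sub (.lit 1) (V 65))))
    (fun s M => M 0 0 = n ∧ M 8 0 = n + 2 * (s * n) ∧ M 65 0 = s % 2) trivial (by simp [ginput, input])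
    fun s _ M ⟨a, b, c⟩ => by simp [DT, exec, acc, asg, Expr.val, a, b, c, add_mul]; omega
  have f2 : exec noOracle findS (ginput G ε δ) 8 0 = n + 2 * (n * n) ∧
      exec noOracle findS (ginput G ε δ) 65 0 = n % 2 := by
    rw [findS, exec_seq, show exec noOracle (asg 8 (V 0)) _ = (ginput G ε δ).put 8 0 n by
      simp [exec, asg, Expr.val, ginput, input]]
    simpa [ginput, input] using f1.2
  have a1 := exec_agree noOracle findS (ginput G ε δ)
  generalize exec noOracle findS (ginput G ε δ) = M1 at *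
  have e0 := (rat_num_den ε hε).1
  have hE' : ε.den ≤ ε.num.toNat * 2 ^ E := hE.trans (Nat.mul_le_mul_left _ Nat.lt_two_pow_self.le)
  refine (t1.seq (B' := 1 + (E + 1) * 3 + (1 + (K + 1) * 3 + (1 + ((E + 0 + 2) ^ 3 + (1 + (1 + (T + 1) * 3 + 1))))))
    fun M' h => ?_).mono ?_ fun _ h => h
  swap
  · have b1 : (n + 0 + 2) ^ findS.deg ≤ T ^ 5 := Nat.pow_le_pow_left (by omega) 5
    have b2 : (E + 0 + 2) ^ 3 ≤ T ^ 5 := (Nat.pow_le_pow_left (by omega) 3).trans
      (Nat.pow_le_pow_right (by omega) (by omega))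
    have b3 : T ^ 2 ≤ T ^ 5 := Nat.pow_le_pow_right (by omega) (by omega)
    have b4 : 1024 * T ≤ T ^ 2 := by rw [sq]; exact Nat.mul_le_mul_right _ (by omega)
    omega
  subst h
  refine (dblLoop_tb noOracle 1 66 2 (by decide) (by decide) (by decide) M' _ ε.den E e0
    (by rw [a1 _ (by decide)]; simp [ginput, input]) (by rw [a1 _ (by decide)]; simp [ginput, input])
    (by rw [a1 _ (by decide)]; simp [ginput, input]) hE').seq fun M2 ⟨a2, _, g2, g3⟩ => ?_
  refine (dblLoop_tb noOracle 3 67 4 (by decide) (by decide) (by decide) M2 _ δ.den K (rat_num_den δ hδ).1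
    (by rw [a2 _ (by decide), a1 _ (by decide)]; simp [ginput, input])
    (by rw [a2 _ (by decide), a1 _ (by decide)]; simp [ginput, input])
    (by rw [a2 _ (by decide), a1 _ (by decide)]; simp [ginput, input]) hK).seq fun M3 ⟨a3, _, g4, g5⟩ => ?_
  have g6 := pow_le_of hE' g3
  have g7 := pow_le_of hK g5
  refine (TB.set _ 10 (.lit 0) (.lit 1) M3).seq fun M4 h4 => ((TB_static noOracle [66] E (dbl 10 66) (by decide) M4
    (by simpa [h4, a3 66] using g6)).det (by decide)).seq fun M5 h5 => (TB.set _ 47 (.lit 0) _ M5).seq fun M6 h6 => ?_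
  have a4 : Agree [10] M3 M4 := h4 ▸ agree_put _ _ _ _
  have a5 : Agree [10] M3 M5 := h5 ▸ agree_exec a4 _ _ (by decide)
  have a6 : Agree [47] M5 M6 := h6 ▸ agree_put _ _ _ _
  have b6 : Agree [8, 65, 1, 66, 3, 67, 10, 47, 9] (ginput G ε δ) M6 := ((((a1.mono (by decide)).trans
    (a2.mono (by decide))).trans (a3.mono (by decide))).trans (a5.mono (by decide))).trans (a6.mono (by decide))
  have c6 : Agree [1, 66, 3, 67, 10, 47, 9] M' M6 := (((a2.mono (by decide)).trans (a3.mono (by decide))).trans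
    (a5.mono (by decide))).trans (a6.mono (by decide))
  refine (dblLoop_tb noOracle 10 9 47 (by decide) (by decide) (by decide) M6 (2 ^ M2 66 0)
    (2 * (n + 2 * (n * n)) + M3 67 0 + 1024) T (Nat.two_pow_pos _)
    (by rw [a6 _ (by decide), h5, dbl_spec]; simp [h4, Expr.val, a3 66])
    (by rw [a6 _ (by decide), a5 _ (by decide), a3 _ (by decide), a2 _ (by decide), a1 _ (by decide)]
        simp [ginput, input])
    (by simp [h6, Expr.val, a5 8, a3 8, a2 8, f2.1, a5 67])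
    ((show _ ≤ T by omega).trans (Nat.lt_two_pow_self.le.trans (Nat.le_mul_of_pos_left _ (Nat.two_pow_pos _))))).seq
    fun M7 ⟨a7, g8, g9, g10⟩ => (TB.set _ 9 (.lit 0) _ M7).mono le_rfl fun M8 h8 => ?_
  have a8 : Agree [9] M7 M8 := h8 ▸ agree_put _ _ _ _
  have c8 := (c6.trans (a7.mono (by decide))).trans (a8.mono (by decide))
  rw [← pow_add] at g8 g9 g10
  refine ⟨M2 66 0 + M7 9 0, (b6.trans (a7.mono (by decide))).trans (a8.mono (by decide)),
    by rw [c8 8 (by decide), f2.1], by simp [h8, Expr.val, a7 66, a6 66, a5 66, a3 66, add_comm],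
    by rw [a8 10 (by decide), g8], by rw [c8 65 (by decide), f2.2], by omega, ?_,
    g2.trans (Nat.mul_le_mul_left _ (Nat.pow_le_pow_right (by norm_num) (by omega))),
    g4.trans (Nat.mul_le_mul_left _ (Nat.pow_le_pow_right (by norm_num) (by omega)))⟩
  rcases g10 with h | h
  · rw [h, add_zero]
    rcases g3 with h | h
    · rw [h]; omega
    · have : 2 ^ M2 66 0 < 2 * E := Nat.lt_of_mul_lt_mul_left (a := ε.num.toNat) (by nlinarith)
      omega
  · omega

variable {G} {T L : ℕ} {M : Mem}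

theorem pars_spec (h : Ph0 G ε δ T L M) : Par0 n L (exec noOracle (.seq logs pows) M) ∧
    exec noOracle logs M 68 0 = 4096 * L ∧ exec noOracle logs M 69 0 = 40960 * L ∧
    exec noOracle logs M 15 0 = 32768 * L := by
  have s1 : exec noOracle logs M 68 0 = 4096 * L ∧ exec noOracle logs M 69 0 = 40960 * L ∧
      exec noOracle logs M 15 0 = 32768 * L ∧ exec noOracle logs M 20 0 = 4096 * L + 2 := by
    simp only [logs, exec, asg, Expr.val, mulE_val, V_val, Mem.put_apply, h.r9]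
    norm_num
    omega
  refine ⟨?_, s1.1, s1.2.1, s1.2.2.1⟩
  have a1 := exec_agree noOracle logs M
  rw [exec_seq]
  generalize exec noOracle logs M = M1 at *
  have a := exec_agree noOracle pows M1
  have key : ∀ x k M, k ≠ x → exec noOracle (pw2P x k) M x 0 = 2 ^ M k 0 := fun x k M e => by
    rw [pw2P, exec_seq, dbl_spec]; simp [exec, asg, Expr.val, e]
  have fr := fun x k => exec_frame noOracle (pw2P x k)
  refine ⟨by rw [a 0 (by decide), a1 0 (by decide), h.ag 0 (by decide)]; simp [ginput, input],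
    by rw [a 8 (by decide), a1 8 (by decide), h.r8], by rw [a 9 (by decide), a1 9 (by decide), h.r9],
    by rw [a 10 (by decide), a1 10 (by decide), h.r10], ?_, ?_, ?_, ?_, by rw [a 15 (by decide), s1.2.2.1],
    by rw [a 20 (by decide), s1.2.2.2]⟩ <;> simp only [pows, exec_seq]
  · rw [dbl_spec]
    simp only [exec, asg, Expr.val, V_val, Mem.put_apply, fr _ _ _ 10 (by decide : 10 ∉ (pw2P 14 68).wr),
      fr _ _ _ 10 (by decide : 10 ∉ (pw2P 13 69).wr), fr _ _ _ 10 (by decide : 10 ∉ (pw2P 12 15).wr),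
      fr _ _ _ 9 (by decide : 9 ∉ (pw2P 14 68).wr), fr _ _ _ 9 (by decide : 9 ∉ (pw2P 13 69).wr),
      fr _ _ _ 9 (by decide : 9 ∉ (pw2P 12 15).wr), a1 9 (by decide), a1 10 (by decide), h.r9, h.r10]
    norm_num [← mul_pow]
  · rw [exec_frame _ _ _ 12 (by decide), exec_frame _ _ _ 12 (by decide), fr _ _ _ 12 (by decide),
      fr _ _ _ 12 (by decide), key _ _ _ (by decide), s1.2.2.1]
  · rw [exec_frame _ _ _ 13 (by decide), exec_frame _ _ _ 13 (by decide), fr _ _ _ 13 (by decide),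
      key _ _ _ (by decide), fr _ _ _ 69 (by decide), s1.2.1]
  · rw [exec_frame _ _ _ 14 (by decide), exec_frame _ _ _ 14 (by decide), key _ _ _ (by decide),
      fr _ _ _ 68 (by decide), fr _ _ _ 68 (by decide), s1.1]

theorem L10 (h : 1024 ≤ 2 ^ L) : 10 ≤ L := by
  by_contra hc
  have : 2 ^ L ≤ 2 ^ 9 := Nat.pow_le_pow_right (by norm_num) (by omega)
  omega

theorem rest_tb (h : Ph0 G ε δ T L M) : TB noOracle (.seq logs (.seq pows main)) M
    (3 * (3 * (2 * T) ^ 40960) ^ (logs.deg + pows.deg + main.deg)) fun _ => True := by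
  obtain ⟨p, s1, s2, s3⟩ := pars_spec h
  have hL := L10 (by have := h.lo; omega : 1024 ≤ 2 ^ L)
  have m : ∀ a, a ≤ 40960 * L → 2 ^ a ≤ 2 ^ (40960 * L) := fun a h => Nat.pow_le_pow_right (by norm_num) h
  have b1 : 40960 * L < 2 ^ (40960 * L) := Nat.lt_two_pow_self
  have b2 := m L (by omega)
  have b3 := m (2 * L) (by omega)
  have b4 := m (32768 * L) (by omega)
  have b5 := m (4096 * L) (by omega)
  have b6 := h.lo
  have b7 : 2 ^ (40960 * L) ≤ (2 * T) ^ 40960 := by rw [mul_comm, pow_mul]; exact Nat.pow_le_pow_left h.hi _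
  rw [pow_mul, show 2 ^ 2 = 4 from rfl] at b3
  have t1 := (TB_static noOracle [] (2 ^ (40960 * L)) logs (by decide +kernel) M (by simp)).det (by decide)
  have t2 := (TB_static noOracle [15, 69, 68, 9] (2 ^ (40960 * L)) pows (by decide) (exec noOracle logs M) (by
    simp only [List.forall_mem_cons, s1, s2, s3, exec_frame noOracle logs M 9 (by decide), h.r9]
    simp; omega)).det (by decide)
  have t3 := TB_static noOracle [0, 8, 9, 10, 11, 12, 13, 14, 15, 20] (2 ^ (40960 * L)) main (by decide +kernel)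
    (exec noOracle (.seq logs pows) M) (by
      simp only [List.forall_mem_cons, p.r0, p.r8, p.r9, p.r10, p.r11, p.r12, p.r13, p.r14, p.r15, p.r20]
      simp; omega)
  refine (t1.seq fun m' h => h ▸ t2.seq fun m' h => h ▸ t3).mono ?_ fun _ _ => trivial
  generalize 2 ^ (40960 * L) = B at *
  generalize (2 * T) ^ 40960 = B' at *
  have c : ∀ d, d ≤ logs.deg + pows.deg + main.deg → (B + 0 + 2) ^ d ≤ (3 * B') ^ (logs.deg + pows.deg + main.deg) :=
    fun d hd => (Nat.pow_le_pow_left (by omega) _).trans (Nat.pow_le_pow_right (by omega) hd)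
  have := c logs.deg (by omega)
  have := c pows.deg (by omega)
  have := c main.deg (by omega)
  omega

theorem time_num (e D c : ℕ) (he : 1 ≤ e) : ∃ C d : ℕ, ∀ (T t : ℕ) (x : ℝ), 1 ≤ T → (2 * T : ℝ) ≤ c * x ^ 2 →
    t ≤ 3 * T ^ 5 + 3 * (3 * (2 * T) ^ e) ^ D → (t : ℝ) ≤ C * x ^ d := by
  refine ⟨6 * (3 * c ^ e) ^ (D + 5), 2 * e * (D + 5), fun T t x hT b1 ht => ?_⟩
  have h0 : T ≤ 3 * (2 * T) ^ e := by
    have := Nat.le_self_pow (n := e) (by omega) (2 * T)
    omega
  have k0 : T ^ 5 ≤ (3 * (2 * T) ^ e) ^ (D + 5) :=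
    (Nat.pow_le_pow_left h0 _).trans (Nat.pow_le_pow_right (by omega) (by omega))
  have k2 : (3 * (2 * T) ^ e) ^ D ≤ (3 * (2 * T) ^ e) ^ (D + 5) := Nat.pow_le_pow_right (by omega) (by omega)
  have k4 : (t : ℝ) ≤ 6 * (3 * (2 * (T : ℝ)) ^ e) ^ (D + 5) := by
    exact_mod_cast (by omega : t ≤ 6 * (3 * (2 * T) ^ e) ^ (D + 5))
  refine k4.trans ?_
  push_cast
  calc 6 * (3 * (2 * (T : ℝ)) ^ e) ^ (D + 5) ≤ 6 * (3 * (c * x ^ 2) ^ e) ^ (D + 5) := by gcongr
    _ = _ := by
      rw [mul_pow (c : ℝ), ← mul_assoc 3, mul_pow _ ((x ^ 2) ^ e), ← pow_mul, ← pow_mul, mul_assoc, mul_assoc 2]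

theorem exists_log (h0 : 0 < δ) (h1 : δ < 1) : 0 ≤ Real.log (1 / (δ : ℝ)) ∧ ∃ K : ℕ, δ.den ≤ δ.num.toNat * 2 ^ K ∧
    (K : ℝ) ≤ 2 * Real.log (1 / (δ : ℝ)) + 1 := by
  have hR : (0 : ℝ) < δ := by exact_mod_cast h0
  have hR1 : (δ : ℝ) < 1 := by exact_mod_cast h1
  have hlog : 0 ≤ Real.log (1 / (δ : ℝ)) := Real.log_nonneg (by rw [le_div_iff₀ hR]; linarith)
  refine ⟨hlog, ⌈2 * Real.log (1 / (δ : ℝ))⌉₊, ?_, (Nat.ceil_lt_add_one (by positivity)).le⟩
  have h1 : 2 * Real.log (1 / (δ : ℝ)) ≤ ⌈2 * Real.log (1 / (δ : ℝ))⌉₊ := Nat.le_ceil _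
  generalize ⌈2 * Real.log (1 / (δ : ℝ))⌉₊ = N at h1
  have h2 : Real.log (1 / (δ : ℝ)) ≤ Real.log (2 ^ N) := by
    rw [Real.log_pow]
    have := Real.log_two_gt_d9
    nlinarith
  have h3 : 1 / (δ : ℝ) ≤ 2 ^ N := (Real.log_le_log_iff (by positivity) (by positivity)).1 h2
  rw [div_le_iff₀ hR] at h3
  have h4 : (δ.num.toNat : ℝ) = δ * δ.den := by exact_mod_cast (rat_num_den δ h0).2
  have h5 : (δ.den : ℝ) ≤ δ.num.toNat * 2 ^ N := by
    rw [h4]
    have : (0 : ℝ) ≤ δ.den := by positivity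
    nlinarith
  exact_mod_cast h5

theorem one_le_of (h0 : 0 < ε) {k : ℕ} (h : ε.den ≤ ε.num.toNat * k) : 1 ≤ (ε : ℝ) * k := by
  have h4 : (ε.num.toNat : ℝ) = ε * ε.den := by exact_mod_cast (rat_num_den ε h0).2
  have h5 : (ε.den : ℝ) ≤ ε.num.toNat * k := by exact_mod_cast h
  have hd : (0 : ℝ) < ε.den := by exact_mod_cast ε.den_pos
  rw [h4] at h5
  nlinarith

theorem exists_inv (h0 : 0 < ε) : ∃ E : ℕ, ε.den ≤ ε.num.toNat * E ∧ (E : ℝ) ≤ 1 / (ε : ℝ) + 1 := by
  have hR : (0 : ℝ) < ε := by exact_mod_cast h0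
  refine ⟨⌈1 / (ε : ℝ)⌉₊, ?_, (Nat.ceil_lt_add_one (by positivity)).le⟩
  have h1 := Nat.le_ceil (1 / (ε : ℝ))
  rw [div_le_iff₀ hR] at h1
  have h4 : (ε.num.toNat : ℝ) = ε * ε.den := by exact_mod_cast (rat_num_den ε h0).2
  have h5 : (ε.den : ℝ) ≤ ε.num.toNat * ⌈1 / (ε : ℝ)⌉₊ := by
    rw [h4]
    have : (0 : ℝ) ≤ ε.den := by positivity
    nlinarith
  exact_mod_cast h5

open Classical in
theorem success (h : Ph0 G ε δ T L M) (hε : 0 < ε) (hδ : 0 < δ) : 1 - (δ : ℝ) ≤ ex noOracle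
    (.seq logs (.seq pows main)) (fun m => if Accurate (pmCount G) ε m then 1 else 0) M := by
  have p := (pars_spec h).1
  have a := exec_agree noOracle (.seq logs pows) M
  rw [ex, ex_det _ logs (by decide), ex, ex_det _ pows (by decide), ← exec_seq]
  generalize exec noOracle (.seq logs pows) M = M1 at *
  have d0 : (0 : ℝ) < δ := by exact_mod_cast hδ
  have e65 : M1 65 0 = n % 2 := by rw [a 65 (by decide), h.r65]
  have e5 : M1 5 0 = 0 := by rw [a 5 (by decide), h.ag 5 (by decide)]; simp [ginput, input]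
  simp only [main, ex, V_val, e65, p.r0, asg]
  split_ifs with h2 h0 c c
  · linarith
  · refine (c ?_).elim
    subst h0
    have : pmCount G = 1 := by
      rw [pmCount, Set.ncard_eq_one]
      exact ⟨⊥, Set.eq_singleton_iff_unique_mem.2 ⟨SimpleGraph.Subgraph.isPerfectMatching_iff.2 fun v => v.elim0,
        fun M _ => SimpleGraph.Subgraph.ext (Set.ext fun v => v.elim0) (funext fun v => v.elim0)⟩⟩
    simp [Accurate, this, Expr.val, hε.le]
  · have lo := h.lo
    have hP := tables_par (O := noOracle) G (Nat.pos_of_ne_zero h0) h2 (L10 (by omega)) (by omega) p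
      (ε := ε) (δ := δ) (by rw [a 7 (by decide), h.ag 7 (by decide)])
    refine le_trans ?_ (Cf.core_ex hP (by rw [a 19 (by decide), h.ag 19 (by decide)]; simp [ginput, input])
      (fun u v ⟨x, y, h1, h2, h3⟩ => ⟨y, x, h2, h1, h3.symm⟩) (ε := ε)
      ((one_le_of hε h.he).trans_eq (by push_cast; rfl)) _ (fun m => by split_ifs <;> norm_num) fun m ⟨f1, f2, f3⟩ => ?_)
    · have := one_le_of hδ h.hd
      rw [sub_le_sub_iff_left, div_le_iff₀ (by positivity)]
      exact this.trans_eq (by push_cast; rfl)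
    · rw [cnt_eq G _ rfl rfl] at f2 f3
      have f4 : (0 : ℚ) < m 6 0 := by exact_mod_cast Nat.pos_of_ne_zero f1
      rw [if_pos ⟨f1, (le_div_iff₀ f4).2 (by exact_mod_cast f2), (div_le_iff₀ f4).2 (by exact_mod_cast f3)⟩]
  · linarith
  · refine (c ?_).elim
    have : pmCount G = 0 := by
      rw [pmCount, Set.ncard_eq_zero, Set.eq_empty_iff_forall_notMem]
      intro M hM
      have := SimpleGraph.Subgraph.IsPerfectMatching.even_card hM
      rw [Fintype.card_fin, Nat.even_iff] at this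
      exact h2 this
    simp [Accurate, this, Expr.val, e5]

theorem main_theorem : ∃ (P : Prog) (C d : ℕ), ∀ (n : ℕ) (G : SimpleGraph (Fin n)) (ε δ : ℚ),
    0 < ε → ε < 1 → 0 < δ → δ < 1 →
      (∀ s ∈ (P.run noOracle (ginput G ε δ, 0)).support,
        (s.2 : ℝ) ≤ C * ((n : ℝ) + 1 / (ε : ℝ) + Real.log (1 / (δ : ℝ)) + 1) ^ d) ∧
      1 - (δ : ℝ) ≤ ((P.run noOracle (ginput G ε δ, 0)).toOuterMeasure
        {s | Accurate (pmCount G) ε s.1}).toReal := by
  obtain ⟨C, d, H⟩ := time_num 40960 (logs.deg + pows.deg + main.deg) 2100 (by norm_num)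
  refine ⟨fpras, C, d, fun n G ε δ h0 _ h2 h3 => ?_⟩
  obtain ⟨E, e1, e2⟩ := exists_inv h0
  obtain ⟨l0, K, k1, k2⟩ := exists_log h2 h3
  have t0 := phase0_tb G h0 h2 e1 k1 rfl
  constructor
  · intro s hs
    refine H (2 * (n + 2 * (n * n)) + E + K + 1024) _ _ (by omega) ?_
      (((t0.seq fun M ⟨L, h⟩ => rest_tb h) 0 s hs).1.trans_eq (zero_add _))
    have n0 : (0 : ℝ) ≤ n := by positivity
    have i0 : (0 : ℝ) < 1 / (ε : ℝ) := by have : (0 : ℝ) < ε := by exact_mod_cast h0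
                                          positivity
    push_cast
    generalize 1 / (ε : ℝ) = a at *
    generalize Real.log (1 / (δ : ℝ)) = b at *
    nlinarith [mul_nonneg n0 i0.le, mul_nonneg n0 l0, mul_nonneg i0.le l0, sq_nonneg a, sq_nonneg b]
  · obtain ⟨L, h⟩ := t0.exec (by decide)
    rw [run_prob noOracle fpras (Accurate (pmCount G) ε), fpras, ex, ex_det _ phase0 (by decide)]
    exact success h h0 h2

theorem ginput_bits (G : SimpleGraph (Fin n)) (h1 : ε < 1) (h3 : δ < 1) :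
    Bits (n + Nat.size ε.den + Nat.size δ.den) (ginput G ε δ) := by
  have mono : ∀ a b : ℕ, a ≤ b → 2 ^ a ≤ 2 ^ b := fun a b h => Nat.pow_le_pow_right (by norm_num) h
  have a1 : n < 2 ^ (n + Nat.size ε.den + Nat.size δ.den) := Nat.lt_two_pow_self.trans_le (mono _ _ (by omega))
  have a2 : ε.den < 2 ^ (n + Nat.size ε.den + Nat.size δ.den) := (Nat.lt_size_self _).trans_le (mono _ _ (by omega))
  have a3 : δ.den < 2 ^ (n + Nat.size ε.den + Nat.size δ.den) := (Nat.lt_size_self _).trans_le (mono _ _ (by omega))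
  have a4 := Rat.num_lt_denom_iff.2 h1
  have a5 := Rat.num_lt_denom_iff.2 h3
  have a6 := ε.den_pos
  intro a i
  unfold ginput input
  split_ifs <;> omega

theorem main_bit : ∃ (P : Prog) (C d : ℕ), ∀ (n : ℕ) (G : SimpleGraph (Fin n)) (ε δ : ℚ),
    0 < ε → ε < 1 → 0 < δ → δ < 1 →
      (∀ s ∈ (P.runBit noOracle (ginput G ε δ, 0)).support,
        (s.2 : ℝ) ≤ C * ((n : ℝ) + 1 / (ε : ℝ) + Real.log (1 / (δ : ℝ)) +
          Nat.size ε.den + Nat.size δ.den + 1) ^ d) ∧
      1 - (δ : ℝ) ≤ ((P.runBit noOracle (ginput G ε δ, 0)).toOuterMeasure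
        {s | Accurate (pmCount G) ε s.1}).toReal := by
  obtain ⟨P, C, d, H⟩ := main_theorem
  refine ⟨P, C * (2 * ((P.sz + 1) + 1) * ((P.sz + 1) * C + (P.sz + 1) + 3)), 2 * d + 1,
    fun n G ε δ h0 h1 h2 h3 => ?_⟩
  obtain ⟨H1, H2⟩ := H n G ε δ h0 h1 h2 h3
  have l0 := (exists_log h2 h3).1
  have i0 : (0 : ℝ) < 1 / (ε : ℝ) := by have : (0 : ℝ) < ε := by exact_mod_cast h0
                                        positivity
  constructor
  · intro s hs
    obtain ⟨u, k1, -, k3⟩ := runBit_rel noOracle (P.sz + 1) (by omega) P (by omega) _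
      (ginput G ε δ, 0) (ginput_bits G h1 h3) s hs
    have hu := H1 _ (k1 0)
    simp only [zero_add] at hu k3
    have hn0 : (0 : ℝ) ≤ n := by positivity
    have s1 : (0 : ℝ) ≤ Nat.size ε.den := by positivity
    have s2 : (0 : ℝ) ≤ Nat.size δ.den := by positivity
    refine (Nat.cast_le.2 k3).trans (bit_num u C _ d 0 _ _ _ (by linarith) (by linarith) ?_
      (by push_cast; linarith) hu)
    push_cast
    linarith
  · rw [runBit_prob noOracle P (Accurate (pmCount G) ε), ← run_prob noOracle P (Accurate (pmCount G) ε)]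
    exact H2

end Vale.Agent.P308
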