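import Vale.Agent.P308.Poin

/-! P308: the Poincare inequality for additive functions of a pair of matchings. -/

namespace Vale.Agent.P308
open Finset

variable {V : Type} [DecidableEq V] [Fintype V] {r : V → V → ℝ}

noncomputable def Dloc (r : V → V → ℝ) (a : PM V → ℝ) : ℝ :=
  ∑ T, ∑ p, ∑ q, min (pr r T) (pr r (T.cn p q)) * (a T - a (T.cn p q)) ^ 2

noncomputable def Dlin (r : V → V → ℝ) (a b : PM V → ℝ) : ℝ :=
  ∑ x, ∑ Q, w2 r Q * lin a b Q x ^ 2

/-- The Poincare inequality for additive functions. -/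
def Nice (r : V → V → ℝ) (K : ℝ) : Prop :=
  ∀ a b : PM V → ℝ, ∃ c, ∑ T, pr r T * (a T - c) ^ 2 ≤ K * (Dloc r a + Dlin r a b)

theorem Wt.dloc0 (h : Wt r) (a : PM V → ℝ) (T : PM V) (p q : V) :
    0 ≤ min (pr r T) (pr r (T.cn p q)) * (a T - a (T.cn p q)) ^ 2 :=
  mul_nonneg (le_min (h.pr_pos _).le (h.pr_pos _).le) (sq_nonneg _)

theorem Wt.Dloc0 (h : Wt r) (a : PM V → ℝ) : 0 ≤ Dloc r a :=
  sum_nonneg fun _ _ => sum_nonneg fun _ _ => sum_nonneg fun _ _ => h.dloc0 _ _ _ _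

theorem Wt.Dlin0 (h : Wt r) (a b : PM V → ℝ) : 0 ≤ Dlin r a b :=
  sum_nonneg fun _ _ => sum_nonneg fun _ _ => mul_nonneg (h.w2_pos _).le (sq_nonneg _)

theorem dfc_eq {Gd : PM V → V → V → Prop} (a b : PM V → ℝ) {Q : Pr V} {p q : V}
    (h : Spl Gd Q true p q) : dfc (Bv r b) Q true p q =
      a (swx Q p false) - a ((swx Q p false).cn p q) - err r a b Q p + err r a b (cnP Q true p q) p
        + err r a b (swx (cnP Q true p q) p) ((Q true).1 p) := by
  classical
  obtain ⟨⟨h1, h2, -⟩, h3, h4⟩ := h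
  set Q' := cnP Q true p q with hQ
  have f0 : Q' false = Q false := cnP_ne _ (by simp) _ _
  have t0 : Q' true = (Q true).cn p q := cnP_same _ _ _ _
  have t1 : (Q' true).1 p = q := by rw [t0, PM.cn_a _ h1]
  have t2 : (Q' true).1 ((Q true).1 p) = (Q true).1 q := by
    rw [t0]; exact (PM.cn_fa _ h1).resolve_right h2
  have dis : ∀ u, Cy (raw Q') ((Q true).1 p) u → ¬ Cy (raw Q') p u := fun u a1 a2 =>
    h4 (a2.trans (a1.symm (raw_inv _)))
  have s1 : Cy (raw Q) p ((Q true).1 p) := cy_of rfl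
  have s2 : Cy (raw Q) p ((Q true).1 q) := h3.step true
  have cl1 : Cl (raw Q') (Cy (raw Q) p) := by
    intro c u hu
    cases c
    · show Cy _ _ ((Q' false).1 u); rw [f0]; exact hu.step false
    · show Cy _ _ ((Q' true).1 u)
      rw [t0]
      simp only [PM.cn, P308.cn]
      split_ifs
      exacts [hu.step true, h3, Cy.refl _ _, s2, s1, hu.step true]
  have cl2 : Cl (raw Q) (fun u => Cy (raw Q') p u ∨ Cy (raw Q') ((Q true).1 p) u) := by
    intro c u hu
    cases c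
    · show _ ∨ _
      rw [show raw Q false u = (Q' false).1 u by rw [f0]; rfl]
      exact hu.imp (·.step false) (·.step false)
    · show Cy _ _ ((Q true).1 u) ∨ Cy _ _ ((Q true).1 u)
      by_cases e1 : u = p
      · rw [e1]; exact Or.inr (Cy.refl _ _)
      by_cases e2 : u = q
      · rw [e2]; exact Or.inr (cy_of t2)
      by_cases e3 : u = (Q true).1 p
      · rw [e3, (Q true).2.1]; exact Or.inl (Cy.refl _ _)
      by_cases e4 : u = (Q true).1 q
      · rw [e4, (Q true).2.1]; exact Or.inl (cy_of t1)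
      rw [← PM.cn_other _ e1 e2 e3 e4, ← t0]
      exact hu.imp (·.step true) (·.step true)
  have eS : ∀ u, Cy (raw Q) p u ↔ Cy (raw Q') p u ∨ Cy (raw Q') ((Q true).1 p) u := fun u =>
    ⟨Cy.min cl2 (Or.inl (Cy.refl _ _)), fun hu => hu.elim (Cy.min cl1 (Cy.refl _ _)) (Cy.min cl1 s1)⟩
  have g1 : (swx Q p false).1 p = (Q true).1 p := swP_in (cl_cy _ _) _ (Cy.refl _ _)
  have g2 : (swx Q p false).1 q = (Q true).1 q := swP_in (cl_cy _ _) _ h3
  have key : swx (swx Q' p) ((Q true).1 p) false = (swx Q p false).cn p q := by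
    apply Subtype.ext; funext u
    have e : Cy (raw (swx Q' p)) ((Q true).1 p) = Cy (raw Q') ((Q true).1 p) :=
      cy_swP (cl_cy _ _) _
    have l : (swx (swx Q' p) ((Q true).1 p) false).1 u
        = if Cy (raw Q) p u then (Q' true).1 u else (Q false).1 u := by
      by_cases a2 : Cy (raw Q') ((Q true).1 p) u
      · rw [swx, swP_in (cl_cy _ _) _ (e ▸ a2), swx, swP_out (cl_cy _ _) _ (dis u a2),
          if_pos ((eS u).2 (Or.inr a2))]; rfl
      · rw [swx, swP_out (cl_cy _ _) _ (e ▸ a2), swx]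
        by_cases a1 : Cy (raw Q') p u
        · rw [swP_in (cl_cy _ _) _ a1, if_pos ((eS u).2 (Or.inl a1))]; rfl
        · rw [swP_out (cl_cy _ _) _ a1, if_neg (by rw [eS]; tauto), f0]
    rw [l, t0]
    simp only [PM.cn, P308.cn, g1, g2, if_neg h1]
    by_cases a : Cy (raw Q) p u
    · rw [if_pos a, swx, swP_in (cl_cy _ _) _ a]; rfl
    · have n : ∀ w, Cy (raw Q) p w → u ≠ w := fun w hw e => a (e ▸ hw)
      rw [if_neg a, if_neg (n _ (Cy.refl _ _)), if_neg (n _ h3), if_neg (n _ s1), if_neg (n _ s2), swx,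
        swP_out (cl_cy _ _) _ a]
  have loc : Bv r b (swx Q' p) ((Q true).1 p) = Bv r b Q' ((Q true).1 p) :=
    (bf_Bv b).loc _ _ _ fun c u hu => swP_out (cl_cy _ _) _ (dis u hu)
  simp only [dfc, err, key, loc, f0, ← hQ]
  ring

theorem sq4 (a b c d : ℝ) : (a - b + c + d) ^ 2 ≤ 4 * (a ^ 2 + b ^ 2 + c ^ 2 + d ^ 2) := by
  nlinarith [sq_nonneg (a + b), sq_nonneg (a - c), sq_nonneg (a - d), sq_nonneg (b + c),
    sq_nonneg (b + d), sq_nonneg (c - d)]

theorem err_sum (h : Wt r) (a b : PM V → ℝ) :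
    ∑ Q, w2 r Q * ∑ x, err r a b Q x ^ 2 ≤ Dlin r a b := by
  simp only [mul_sum]
  rw [sum_comm]
  exact sum_le_sum fun x _ => err_le h a b x

open Classical in
theorem dfc_true (h : Wt r) {κ : ℝ} (hκ : 1 ≤ κ) (a b : PM V → ℝ) (p q : V) :
    ∑ Q, w2 r Q * (if Spl (Gd r κ) Q true p q then dfc (Bv r b) Q true p q ^ 2 else 0)
      ≤ 12 * κ * Fintype.card V * (Dloc r a + Dlin r a b) := by
  set e : Pr V → ℝ := fun Q => ∑ x, err r a b Q x ^ 2 with he
  have e0 : ∀ Q, 0 ≤ e Q := fun Q => sum_nonneg fun _ _ => sq_nonneg _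
  have e1 : ∀ Q x, err r a b Q x ^ 2 ≤ e Q := fun Q x =>
    single_le_sum (f := fun x => err r a b Q x ^ 2) (fun _ _ => sq_nonneg _) (mem_univ x)
  set g : Pr V → ℝ := fun Q =>
    if Mv (Gd r κ) Q false p q then (a (Q false) - a ((Q false).cn p q)) ^ 2 else 0 with hg
  have pt : ∀ Q, (if Spl (Gd r κ) Q true p q then dfc (Bv r b) Q true p q ^ 2 else 0) ≤
      4 * (g (swx Q p) + e Q + (if Mv (Gd r κ) Q true p q then e (cnP Q true p q) else 0)
        + (if Mv (Gd r κ) Q true p q then e (swx (cnP Q true p q) p) else 0)) := by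
    intro Q
    split_ifs with h1 h2 h2
    · have g1 : (swx Q p false).1 p = (Q true).1 p := swP_in (cl_cy _ _) _ (Cy.refl _ _)
      have g2 : (swx Q p false).1 q = (Q true).1 q := swP_in (cl_cy _ _) _ h1.2.1
      have : Mv (Gd r κ) (swx Q p) false p q :=
        ⟨h2.1, g1 ▸ h2.2.1, by have := h2.2.2; simp only [Gd, g1, g2] at this ⊢; exact this⟩
      rw [dfc_eq a b h1, hg]
      simp only [if_pos this]
      refine (sq4 _ _ _ _).trans ?_
      linarith [e1 Q p, e1 (cnP Q true p q) p, e1 (swx (cnP Q true p q) p) ((Q true).1 p)]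
    · exact absurd h1.1 h2
    · have : 0 ≤ g (swx Q p) := by simp only [hg]; split_ifs <;> positivity
      have := e0 Q; have := e0 (cnP Q true p q); have := e0 (swx (cnP Q true p q) p)
      linarith
    · have : 0 ≤ g (swx Q p) := by simp only [hg]; split_ifs <;> positivity
      have := e0 Q
      linarith
  have b1 : ∑ Q, w2 r Q * g (swx Q p) ≤ κ * Dloc r a := by
    rw [sum_swx, sum_pr, Dloc, mul_sum]
    refine sum_le_sum fun T _ => ?_
    have : ∀ C, w2 r (mk2 T C) * g (mk2 T C) = pr r C * (pr r T * g (mk2 T T)) := fun C => by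
      show pr r T * pr r C * g (mk2 T T) = _; ring
    rw [sum_congr rfl fun C _ => this C, ← sum_mul, h.sum_pr T, one_mul]
    have a1 := single_le_sum (s := univ) (fun p _ => sum_nonneg (s := univ) fun q _ => h.dloc0 a T p q)
      (mem_univ p)
    have a2 := single_le_sum (s := univ) (fun q _ => h.dloc0 a T p q) (mem_univ q)
    refine le_trans ?_ (mul_le_mul_of_nonneg_left (a2.trans a1) (by linarith))
    simp only [hg]
    split_ifs with hm
    · rw [← mul_assoc]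
      refine mul_le_mul_of_nonneg_right ?_ (sq_nonneg _)
      rw [mul_min_of_nonneg _ _ (by linarith)]
      exact le_min (le_mul_of_one_le_left (h.pr_pos _).le hκ) (h.le_cn hm.1 hm.2.1 hm.2.2)
    · rw [mul_zero]; exact mul_nonneg (by linarith) (h.dloc0 a T p q)
  have b2 : ∑ Q, w2 r Q * e Q ≤ Dlin r a b := err_sum h a b
  have b3 := flow h (by linarith : 0 ≤ κ) true p q e e0
  have b4 := flow h (by linarith : 0 ≤ κ) true p q (fun Q => e (swx Q p)) (fun Q => e0 _)
  rw [sum_swx] at b4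
  have n1 : (1 : ℝ) ≤ Fintype.card V := by exact_mod_cast Fintype.card_pos_iff.2 ⟨p⟩
  have k1 : 1 ≤ κ * Fintype.card V := one_le_mul_of_one_le_of_one_le hκ n1
  have b5 := mul_le_mul_of_nonneg_left b2 (by linarith : 0 ≤ κ * Fintype.card V)
  have b6 := mul_le_mul_of_nonneg_right k1 (h.Dlin0 a b)
  have b7 := mul_le_mul_of_nonneg_right n1 (mul_nonneg (by linarith : 0 ≤ κ) (h.Dloc0 a))
  have b8 := mul_nonneg (by linarith : 0 ≤ κ) (h.Dloc0 a)
  refine (sum_le_sum fun Q _ => mul_le_mul_of_nonneg_left (pt Q) (h.w2_pos Q).le).trans ?_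
  simp only [mul_left_comm _ (4 : ℝ), ← mul_sum, mul_add, sum_add_distrib]
  nlinarith

def flip (Q : Pr V) : Pr V := fun c => Q (!c)

theorem cy_flip (Q : Pr V) (x : V) : Cy (raw (flip Q)) x = Cy (raw Q) x :=
  cy_eq (fun c _ _ => ⟨!c, rfl⟩) (fun c _ _ => ⟨!c, by simp [raw, flip]⟩)

theorem Bv_flip (b : PM V → ℝ) (Q : Pr V) (x : V) : Bv r b (flip Q) x = -Bv r b Q x := by
  simp only [Bv, cy_flip, neg_sub]; rfl

theorem cnP_flip (Q : Pr V) (p q : V) : cnP (flip Q) true p q = flip (cnP Q false p q) := by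
  funext c; cases c <;> simp [cnP, flip]

open Classical in
noncomputable def Psi (r : V → V → ℝ) (κ : ℝ) (b : PM V → ℝ) (Q : Pr V) : ℝ :=
  ∑ c, ∑ p, ∑ q, if Spl (Gd r κ) Q c p q then dfc (Bv r b) Q c p q ^ 2 else 0

theorem Psi0 (κ : ℝ) (b : PM V → ℝ) (Q : Pr V) : 0 ≤ Psi r κ b Q :=
  sum_nonneg fun _ _ => sum_nonneg fun _ _ => sum_nonneg fun _ _ => by split_ifs <;> positivity

theorem le_Psi {κ : ℝ} (b : PM V → ℝ) {Q : Pr V} {c : Bool} {p q : V} (h : Spl (Gd r κ) Q c p q) :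
    dfc (Bv r b) Q c p q ^ 2 ≤ Psi r κ b Q := by
  classical
  have n0 : ∀ c p q, 0 ≤ if Spl (Gd r κ) Q c p q then dfc (Bv r b) Q c p q ^ 2 else 0 :=
    fun c p q => by split_ifs <;> positivity
  have a1 := single_le_sum (s := univ)
    (fun c _ => sum_nonneg (s := univ) fun p _ => sum_nonneg (s := univ) fun q _ => n0 c p q)
    (mem_univ c)
  have a2 := single_le_sum (s := univ) (fun p _ => sum_nonneg (s := univ) fun q _ => n0 c p q)
    (mem_univ p)
  have a3 := single_le_sum (s := univ) (fun q _ => n0 c p q) (mem_univ q)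
  rw [if_pos h] at a3
  exact a3.trans (a2.trans a1)

theorem sum_Psi (h : Wt r) {κ : ℝ} (hκ : 1 ≤ κ) (a b : PM V → ℝ) :
    ∑ Q, w2 r Q * Psi r κ b Q ≤ 24 * κ * Fintype.card V ^ 3 * (Dloc r a + Dlin r a b) := by
  classical
  refine (sum_w_le _ _ _ fun c => sum_w_le _ _ _ fun p => sum_w_le _ _
    (12 * κ * Fintype.card V * (Dloc r a + Dlin r a b)) fun q => ?_).trans (le_of_eq ?_)
  · cases c
    · refine le_trans (le_of_eq ?_) (dfc_true h hκ a b p q)
      rw [← sum_invol (F := flip) (fun Q => by funext c; simp [flip])]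
      refine sum_congr rfl fun Q _ => ?_
      have e1 : flip (flip Q) = Q := by funext c; simp [flip]
      have e2 := cnP_flip (flip Q) p q
      rw [e1] at e2
      have e3 : Spl (Gd r κ) (flip Q) false p q ↔ Spl (Gd r κ) Q true p q := by
        simp only [Spl, e2, cy_flip]; rfl
      have e4 : dfc (Bv r b) (flip Q) false p q = -dfc (Bv r b) Q true p q := by
        simp only [dfc, e2, Bv_flip]
        show _ - _ - Bv r b _ ((Q true).1 p) = _
        ring
      simp only [e3, e4, neg_sq, show w2 r (flip Q) = w2 r Q from mul_comm _ _]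
    · exact dfc_true h hκ a b p q
  · simp only [Fintype.card_bool]
    push_cast
    ring

noncomputable def Phi (A : Finset V) (Q : Pr V) : Pr V := swP Q fun u => ∃ x ∈ A, Cy (raw Q) x u

theorem cl_Phi (A : Finset V) (Q : Pr V) : Cl (raw Q) fun u => ∃ x ∈ A, Cy (raw Q) x u :=
  fun c _ ⟨x, h1, h2⟩ => ⟨x, h1, h2.step c⟩

theorem Phi_Phi (A : Finset V) (Q : Pr V) : Phi A (Phi A Q) = Q := by
  have : ∀ x, Cy (raw (Phi A Q)) x = Cy (raw Q) x := cy_swP (cl_Phi A Q)
  rw [Phi]; simp only [this]; exact swP_swP (cl_Phi A Q)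

theorem Phi_ins (A : Finset V) (x : V) (Q : Pr V) :
    Phi (insert x A) Q false = Phi A Q false ∨ Phi (insert x A) Q false = swx (Phi A Q) x false := by
  have e : Cy (raw (Phi A Q)) x = Cy (raw Q) x := cy_swP (cl_Phi A Q) x
  by_cases h : ∃ y ∈ A, Cy (raw Q) y x
  · left
    have : (fun u => ∃ y ∈ insert x A, Cy (raw Q) y u) = fun u => ∃ y ∈ A, Cy (raw Q) y u := by
      funext u
      obtain ⟨y, h1, h2⟩ := h
      simp only [mem_insert, exists_eq_or_imp, eq_iff_iff, or_iff_right_iff_imp]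
      exact fun h3 => ⟨y, h1, h2.trans h3⟩
    rw [Phi, this, Phi]
  · right
    apply Subtype.ext; funext u
    by_cases h1 : Cy (raw Q) x u
    · rw [Phi, swP_in (cl_Phi _ _) _ ⟨x, mem_insert_self _ _, h1⟩, swx, swP_in (cl_cy _ _) _ (e ▸ h1),
        Phi, swP_out (cl_Phi _ _) _ fun ⟨y, a1, a2⟩ => h ⟨y, a1, a2.trans (h1.symm (raw_inv _))⟩]
    · rw [swx, swP_out (cl_cy _ _) _ (e ▸ h1)]
      by_cases h2 : ∃ y ∈ A, Cy (raw Q) y u
      · obtain ⟨y, a1, a2⟩ := h2
        rw [Phi, swP_in (cl_Phi _ _) _ ⟨y, mem_insert_of_mem a1, a2⟩, Phi,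
          swP_in (cl_Phi _ _) _ ⟨y, a1, a2⟩]
      · rw [Phi, swP_out (cl_Phi _ _) _ (by simpa [h1] using h2), Phi, swP_out (cl_Phi _ _) _ h2]

open Classical in
theorem tele (h : Wt r) (cl : PM V → Prop) (a : PM V → ℝ) (J : ℝ)
    (hsw : ∀ Q S, Cl (raw Q) S → (∀ c, cl (Q c)) → ∀ c, cl (swP Q S c))
    (hJ : ∀ x, ∑ Q, w2 r Q * (if ∀ c, cl (Q c) then (a (swx Q x false) - a (Q false)) ^ 2 else 0) ≤ J)
    (J0 : 0 ≤ J) (A : Finset V) :
    ∑ Q, w2 r Q * (if ∀ c, cl (Q c) then (a (Phi A Q false) - a (Q false)) ^ 2 else 0)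
      ≤ (A.card + 1) ^ 2 * J := by
  induction A using Finset.induction_on with
  | empty =>
    have : ∀ Q : Pr V, Phi ∅ Q false = Q false := fun Q => by
      apply Subtype.ext; funext u; rw [Phi, swP_out (cl_Phi _ _) _ (by simp)]
    simpa [this] using J0
  | insert x A hx ih =>
    rw [card_insert_of_notMem hx]
    obtain ⟨m, hm⟩ : ∃ m : ℝ, m = A.card + 1 := ⟨_, rfl⟩
    have m0 : 0 < m := by rw [hm]; positivity
    have b := hJ x
    rw [← sum_invol (Phi_Phi A)] at b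
    have pt : ∀ Q : Pr V, w2 r Q * (if ∀ c, cl (Q c) then
        (a (Phi (insert x A) Q false) - a (Q false)) ^ 2 else 0) ≤ (1 + 1 / m) *
        (w2 r Q * (if ∀ c, cl (Q c) then (a (Phi A Q false) - a (Q false)) ^ 2 else 0)) + (m + 1) *
        (w2 r (Phi A Q) * (if ∀ c, cl (Phi A Q c) then
          (a (swx (Phi A Q) x false) - a (Phi A Q false)) ^ 2 else 0)) := by
      intro Q
      rw [show w2 r (Phi A Q) = w2 r Q from w2_swP (cl_Phi A Q), mul_left_comm, mul_left_comm (m + 1),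
        ← mul_add]
      refine mul_le_mul_of_nonneg_left ?_ (h.w2_pos Q).le
      by_cases hc : ∀ c, cl (Q c)
      · rw [if_pos hc, if_pos hc, if_pos (show ∀ c, cl (Phi A Q c) from hsw Q _ (cl_Phi A Q) hc)]
        have key : ∀ u v : ℝ, (u + v) ^ 2 ≤ (1 + 1 / m) * u ^ 2 + (m + 1) * v ^ 2 := by
          intro u v
          have : (1 + 1 / m) * u ^ 2 + (m + 1) * v ^ 2 - (u + v) ^ 2 = (u - m * v) ^ 2 / m := by
            field_simp; ring
          have : 0 ≤ (u - m * v) ^ 2 / m := by positivity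
          linarith
        rcases Phi_ins A x Q with e | e
        · rw [e]
          have := key (a (Phi A Q false) - a (Q false)) 0
          have : 0 ≤ (m + 1) * (a (swx (Phi A Q) x false) - a (Phi A Q false)) ^ 2 := by positivity
          nlinarith
        · rw [e]
          exact le_trans (le_of_eq (by ring)) (key _ _)
      · rw [if_neg hc, if_neg hc, mul_zero, zero_add]
        split_ifs <;> positivity
    refine (sum_le_sum fun Q _ => pt Q).trans ?_
    rw [sum_add_distrib, ← mul_sum, ← mul_sum]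
    rw [← hm] at ih
    have c1 := mul_le_mul_of_nonneg_left ih (by positivity : 0 ≤ 1 + 1 / m)
    have c2 := mul_le_mul_of_nonneg_left b (by positivity : 0 ≤ m + 1)
    have c3 : (1 + 1 / m) * (m ^ 2 * J) + (m + 1) * J = (m + 1) ^ 2 * J := by field_simp
    push_cast
    rw [← hm]
    linarith

theorem clean_sum (h : Wt r) (s : PM V → Prop) [DecidablePred s] (Γ : ℝ) (mv : PM V → V × V)
    (hm : ∀ T, s T → (mv T).1 ≠ (mv T).2 ∧ Γ * pr r T ≤ pr r (T.cn (mv T).1 (mv T).2))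
    (G : PM V → ℝ) (hG : ∀ T, 0 ≤ G T) :
    Γ * ∑ T ∈ univ.filter s, pr r T * G (T.cn (mv T).1 (mv T).2)
      ≤ Fintype.card V ^ 3 * ∑ T, pr r T * G T := by
  have := sum_fib_le (fun T : PM V => T.cn (mv T).1 (mv T).2) (fun T => (mv T, T.1 (mv T).1))
    (univ.filter s) (fun T hT T' hT' e1 e2 => by
      obtain ⟨a1, a2⟩ := Prod.mk.inj e1
      rw [← T.cn_cn (hm T (mem_filter.1 hT).2).1, ← T'.cn_cn (hm T' (mem_filter.1 hT').2).1, e2, a2, a1])
    (fun T => pr r T * G T) (fun T => mul_nonneg (h.pr_pos T).le (hG T))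
  refine le_trans ?_ (this.trans (le_of_eq ?_))
  · rw [mul_sum]
    refine sum_le_sum fun T hT => ?_
    rw [← mul_assoc]
    exact mul_le_mul_of_nonneg_right (hm T (mem_filter.1 hT).2).2 (hG _)
  · simp only [Fintype.card_prod]; push_cast; ring

theorem dirty_le (h : Wt r) (cl ev : PM V → Prop) [DecidablePred cl] [DecidablePred ev] (Γ : ℝ)
    (hm : ∀ T, ¬ cl T → ev T → ∃ p q, p ≠ q ∧ Γ * pr r T ≤ pr r (T.cn p q) ∧ ev (T.cn p q)) :
    Γ * ∑ T ∈ univ.filter (fun T => ¬ cl T ∧ ev T), pr r T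
      ≤ Fintype.card V ^ 3 * ∑ T ∈ univ.filter ev, pr r T := by
  by_cases hV : Nonempty V
  swap
  · have : ∀ T, ¬ (¬ cl T ∧ ev T) := fun T ⟨a, b⟩ => by
      obtain ⟨p, -⟩ := hm T a b; exact hV ⟨p⟩
    rw [filter_false_of_mem fun T _ => this T, sum_empty, mul_zero]
    exact mul_nonneg (by positivity) (sum_nonneg fun T _ => (h.pr_pos T).le)
  obtain ⟨v⟩ := hV
  have : ∀ T, ∃ m : V × V, ¬ cl T ∧ ev T →
      (m.1 ≠ m.2 ∧ Γ * pr r T ≤ pr r (T.cn m.1 m.2)) ∧ ev (T.cn m.1 m.2) := fun T => by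
    by_cases hT : ¬ cl T ∧ ev T
    · obtain ⟨p, q, a1, a2, a3⟩ := hm T hT.1 hT.2
      exact ⟨(p, q), fun _ => ⟨⟨a1, a2⟩, a3⟩⟩
    · exact ⟨(v, v), fun h => absurd h hT⟩
  choose mv hmv using this
  have := clean_sum h _ Γ mv (fun T hT => (hmv T hT).1) (fun T => if ev T then 1 else 0)
    (fun T => by split_ifs <;> norm_num)
  rw [sum_congr rfl fun T hT => by rw [if_pos (hmv T (mem_filter.1 hT).2).2, mul_one]] at this
  simpa only [mul_ite, mul_one, mul_zero, ← sum_filter] using this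

open Classical in
theorem nice_of (h : Wt r) {κ : ℝ} (hκ : 1 ≤ κ) [Nonempty V] (cl : PM V → Prop) (T0 : PM V)
    (hsw : ∀ Q S, Cl (raw Q) S → (∀ c, cl (Q c)) → ∀ c, cl (swP Q S c))
    (hB : ∀ (P : Pr V) (B : Pr V → V → ℝ) (m : ℝ), (∀ c, cl (P c)) → BF B →
      (∀ Q c a b, Rch (Gd r κ) P 3 Q → Spl (Gd r κ) Q c a b → |dfc B Q c a b| ≤ m) → 0 ≤ m →
      ∀ x, |B P x| ≤ 5 * Fintype.card V * m)
    (hg : ∀ T, ¬ cl T → ∃ p q, p ≠ q ∧ 4 * Fintype.card V ^ 3 * pr r T ≤ pr r (T.cn p q)) :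
    Nice r (10 ^ 6 * κ ^ 4 * Fintype.card V ^ 16) := by
  intro a b
  obtain ⟨n, hn⟩ : ∃ n : ℝ, n = Fintype.card V := ⟨_, rfl⟩
  have n1 : 1 ≤ n := by rw [hn]; exact_mod_cast Fintype.card_pos
  rw [← hn] at hB hg ⊢
  obtain ⟨D, hD⟩ : ∃ D, D = Dloc r a + Dlin r a b := ⟨_, rfl⟩
  have l0 := h.Dloc0 a
  have l1 := h.Dlin0 a b
  have D0 : 0 ≤ D := by linarith
  have k3 : 1 ≤ κ * n ^ 3 := one_le_mul_of_one_le_of_one_le hκ (one_le_pow₀ n1)
  have hJ : ∀ x, ∑ Q, w2 r Q * (if ∀ c, cl (Q c) then (a (swx Q x false) - a (Q false)) ^ 2 else 0)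
      ≤ 32402 * (n ^ 2 * (κ * n ^ 3) ^ 4) * D := by
    intro x
    obtain ⟨s0, s1⟩ := sum_Aop h (by linarith : 0 ≤ κ) 3 (Psi r κ b) (Psi0 κ b)
    have s2 := sum_Psi h hκ a b
    rw [← hn] at s1 s2
    rw [← hD] at s2
    have pt : ∀ Q : Pr V, (if ∀ c, cl (Q c) then (a (swx Q x false) - a (Q false)) ^ 2 else 0)
        ≤ 2 * err r a b Q x ^ 2 + 50 * n ^ 2 * (Aop r κ)^[3] (Psi r κ b) Q := by
      intro Q
      have := s0 Q
      split_ifs with hc
      · have a1 := hB Q (Bv r b) (√((Aop r κ)^[3] (Psi r κ b) Q)) hc (bf_Bv b) (fun Q' c p q h1 h2 =>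
          Real.abs_le_sqrt ((le_Psi b h2).trans (rch_le 3 _ (Psi0 κ b) Q' h1))) (Real.sqrt_nonneg _) x
        have a2 := pow_le_pow_left₀ (abs_nonneg _) a1 2
        rw [sq_abs, mul_pow, Real.sq_sqrt this] at a2
        rw [err]
        nlinarith [sq_nonneg (a (swx Q x false) - a (Q false) - 2 * Bv r b Q x)]
      · positivity
    refine (sum_le_sum fun Q _ => mul_le_mul_of_nonneg_left (pt Q) (h.w2_pos Q).le).trans ?_
    simp only [mul_add, sum_add_distrib, mul_left_comm _ (2 : ℝ), mul_left_comm _ (50 * n ^ 2),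
      ← mul_sum]
    have a1 : ∑ Q, w2 r Q * lin a b Q x ^ 2 ≤ Dlin r a b :=
      single_le_sum (f := fun x => ∑ Q, w2 r Q * lin a b Q x ^ 2)
        (fun _ _ => sum_nonneg fun _ _ => mul_nonneg (h.w2_pos _).le (sq_nonneg _)) (mem_univ x)
    have a2 := err_le h a b x
    have a3 : (1 + 2 * κ * n ^ 3) ^ 3 ≤ (3 * (κ * n ^ 3)) ^ 3 :=
      pow_le_pow_left₀ (by positivity) (by linarith) 3
    have a4 := s1.trans (mul_le_mul a3 s2 (sum_nonneg fun Q _ =>
      mul_nonneg (h.w2_pos _).le (Psi0 κ b Q)) (by positivity))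
    have a5 := mul_le_mul_of_nonneg_left a4 (by positivity : 0 ≤ 50 * n ^ 2)
    have a6 : 1 ≤ n ^ 2 * (κ * n ^ 3) ^ 4 :=
      one_le_mul_of_one_le_of_one_le (one_le_pow₀ n1) (one_le_pow₀ k3)
    have a7 := mul_le_mul_of_nonneg_right a6 D0
    nlinarith
  have hE := tele h cl a _ hsw hJ (by positivity) univ
  have e1 : ∀ Q : Pr V, Phi univ Q false = Q true := fun Q => by
    apply Subtype.ext; funext u; rw [Phi, swP_in (cl_Phi _ _) _ ⟨u, mem_univ _, Cy.refl _ _⟩]; rfl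
  simp only [e1, card_univ, ← hn] at hE
  have d1 := dirty_le h cl (fun _ => True) (4 * n ^ 3) fun T hT _ => by
    obtain ⟨p, q, a1, a2⟩ := hg T hT; exact ⟨p, q, a1, a2, trivial⟩
  simp only [and_true, filter_true, h.sum_pr T0, ← hn] at d1
  have d2 := sum_filter_add_sum_filter_not univ cl (pr r)
  rw [h.sum_pr T0] at d2
  have n3 : 0 < n ^ 3 := by positivity
  have d3 : 1 / 2 ≤ ∑ T ∈ univ.filter cl, pr r T := by nlinarith
  set pc := ∑ T ∈ univ.filter cl, pr r T with hpc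
  refine ⟨(∑ T ∈ univ.filter cl, pr r T * a T) / pc, ?_⟩
  set c := (∑ T ∈ univ.filter cl, pr r T * a T) / pc with hc
  have v1 : ∑ T ∈ univ.filter cl, pr r T * (a T - c) ^ 2
      ≤ 2 * ∑ Q, w2 r Q * (if ∀ c, cl (Q c) then (a (Q true) - a (Q false)) ^ 2 else 0) := by
    rw [sum_pr, sum_filter, mul_sum]
    refine sum_le_sum fun T _ => ?_
    have ew : ∀ C, w2 r (mk2 T C) = pr r T * pr r C := fun _ => rfl
    simp only [ew, mul_assoc, ← mul_sum]
    split_ifs with hT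
    · rw [mul_left_comm]
      refine mul_le_mul_of_nonneg_left ?_ (h.pr_pos T).le
      have j := jensen (univ.filter cl) (pr r) (fun C => a C - a T) (fun i => (h.pr_pos i).le)
        (by linarith)
      have e2 : (∑ C ∈ univ.filter cl, pr r C * (a C - a T)) / pc = c - a T := by
        simp only [mul_sub, sum_sub_distrib, ← sum_mul, ← hpc, hc]
        field_simp
      have e3 : ∑ C, pr r C * (if ∀ c, cl (mk2 T C c) then
          (a (mk2 T C true) - a (mk2 T C false)) ^ 2 else 0)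
          = ∑ C ∈ univ.filter cl, pr r C * (a C - a T) ^ 2 := by
        rw [sum_filter]
        refine sum_congr rfl fun C _ => ?_
        have : (∀ c, cl (mk2 T C c)) ↔ cl C := by simp [mk2, hT]
        simp only [this]
        split_ifs
        exacts [rfl, mul_zero _]
      rw [← hpc, e2, le_div_iff₀ (by linarith)] at j
      rw [e3]
      nlinarith [sq_nonneg (c - a T)]
    · refine mul_nonneg (by norm_num) (mul_nonneg (h.pr_pos T).le (sum_nonneg fun C _ =>
        mul_nonneg (h.pr_pos C).le ?_))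
      split_ifs <;> positivity
  obtain ⟨v⟩ := ‹Nonempty V›
  have : ∀ T, ∃ m : V × V, ¬ cl T →
      m.1 ≠ m.2 ∧ 4 * n ^ 3 * pr r T ≤ pr r (T.cn m.1 m.2) := fun T => by
    by_cases hT : cl T
    · exact ⟨(v, v), fun h => absurd hT h⟩
    · obtain ⟨p, q, a1, a2⟩ := hg T hT
      exact ⟨(p, q), fun _ => ⟨a1, a2⟩⟩
  choose mv hmv using this
  have v2 := clean_sum h _ _ mv hmv (fun T => (a T - c) ^ 2) (fun T => sq_nonneg _)
  rw [← hn] at v2
  have v3 : ∑ T ∈ univ.filter (fun T => ¬ cl T), pr r T * (a T - c) ^ 2 ≤ 2 * Dloc r a +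
      2 * ∑ T ∈ univ.filter (fun T => ¬ cl T), pr r T * (a (T.cn (mv T).1 (mv T).2) - c) ^ 2 := by
    have : ∑ T ∈ univ.filter (fun T => ¬ cl T), pr r T * (a T - a (T.cn (mv T).1 (mv T).2)) ^ 2
        ≤ Dloc r a := by
      refine le_trans (sum_le_sum fun T hT => ?_) (sum_le_sum_of_subset_of_nonneg (filter_subset _ _)
        fun T _ _ => sum_nonneg fun p _ => sum_nonneg fun q _ => h.dloc0 a T p q)
      have a1 := single_le_sum (s := univ)
        (fun p _ => sum_nonneg (s := univ) fun q _ => h.dloc0 a T p q) (mem_univ (mv T).1)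
      have a2 := single_le_sum (s := univ) (fun q _ => h.dloc0 a T (mv T).1 q) (mem_univ (mv T).2)
      refine le_trans (le_of_eq ?_) (a2.trans a1)
      have a3 := (hmv T (mem_filter.1 hT).2).2
      have a4 := h.pr_pos T
      have a5 : 1 ≤ n ^ 3 := one_le_pow₀ n1
      rw [min_eq_left (by nlinarith)]
    refine le_trans ?_ (add_le_add (mul_le_mul_of_nonneg_left this (by norm_num : (0 : ℝ) ≤ 2)) le_rfl)
    rw [← mul_add, ← sum_add_distrib, mul_sum]
    refine sum_le_sum fun T _ => ?_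
    rw [← mul_add, mul_left_comm]
    refine mul_le_mul_of_nonneg_left ?_ (h.pr_pos T).le
    nlinarith [sq_nonneg (a T - 2 * a (T.cn (mv T).1 (mv T).2) + c)]
  have v4 := sum_filter_add_sum_filter_not univ cl (fun T => pr r T * (a T - c) ^ 2)
  have v5 : 4 * ∑ T ∈ univ.filter (fun T => ¬ cl T), pr r T * (a (T.cn (mv T).1 (mv T).2) - c) ^ 2
      ≤ ∑ T, pr r T * (a T - c) ^ 2 := by
    refine le_of_mul_le_mul_left ?_ n3
    linarith
  have v6 : (n + 1) ^ 2 ≤ (2 * n) ^ 2 := pow_le_pow_left₀ (by positivity) (by linarith) 2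
  have v7 := hE.trans (mul_le_mul_of_nonneg_right v6 (by positivity))
  have a6 : 1 ≤ κ ^ 4 * n ^ 16 := one_le_mul_of_one_le_of_one_le (one_le_pow₀ hκ) (one_le_pow₀ n1)
  have a7 := mul_le_mul_of_nonneg_right a6 D0
  rw [← hD]
  nlinarith

end Vale.Agent.P308
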