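import Vale.Agent.P308.Exch
import Vale.Agent.P308.Poin2

/-! P308: target weights built from an ultrametric closure; they satisfy the Poincare inequality. -/

namespace Vale.Agent.P308
open Finset Relation
open scoped symmDiff

variable {V : Type} [DecidableEq V] [Fintype V]

noncomputable def e2 (W : V → V → ℕ) (u v : V) : ℝ := 2 ^ W u v

theorem wt_e2 {W : V → V → ℕ} (h : ∀ u v, W u v = W v u) : Wt (e2 W) :=
  ⟨fun _ _ => by unfold e2; positivity, fun u v => by simp only [e2, h u v]⟩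

theorem e2_sq (W : V → V → ℕ) (u v : V) : e2 W u v ^ 2 = 4 ^ W u v := by
  rw [e2, ← pow_mul, mul_comm, pow_mul]; norm_num

theorem sq_e2 (W : V → V → ℕ) (a b c d : V) : (e2 W a b * e2 W c d) ^ 2 = 4 ^ (W a b + W c d) := by
  rw [mul_pow, e2_sq, e2_sq, pow_add]

theorem gd_of {W : V → V → ℕ} {T : PM V} {p q : V} {k : ℕ}
    (h : W p (T.1 p) + W q (T.1 q) ≤ k + (W p q + W (T.1 p) (T.1 q))) : Gd (e2 W) (4 ^ k) T p q := by
  rw [Gd, sq_e2, sq_e2, ← pow_add]; exact pow_le_pow_right₀ (by norm_num) h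

theorem gain_of {W : V → V → ℕ} (hs : ∀ u v, W u v = W v u) {T : PM V} {p q : V} {k : ℕ} (h1 : p ≠ q)
    (h2 : T.1 p ≠ q) (h : W p (T.1 p) + W q (T.1 q) + k ≤ W p q + W (T.1 p) (T.1 q)) :
    4 ^ k * pr (e2 W) T ≤ pr (e2 W) (T.cn p q) := by
  have e := (wt_e2 hs).pr_cn T h1 h2
  rw [sq_e2, sq_e2] at e
  have a : (4 : ℝ) ^ (W p (T.1 p) + W q (T.1 q) + k) ≤ _ := pow_le_pow_right₀ (by norm_num) h
  have b := mul_le_mul_of_nonneg_left a ((wt_e2 hs).pr_pos T).le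
  refine le_of_mul_le_mul_right ?_ (by positivity : (0 : ℝ) < 4 ^ (W p (T.1 p) + W q (T.1 q)))
  rw [pow_add] at b
  linarith

structure IsClo (a U : V → V → ℕ) : Prop where
  ge : ∀ u v, a u v ≤ U u v
  sym : ∀ u v, U u v = U v u
  ult : ∀ u v w, min (U u v) (U v w) ≤ U u w
  rch : ∀ u v, TransGen (fun x y => U u v ≤ a x y) u v

theorem IsClo.lip {a U a' U' : V → V → ℕ} (h : IsClo a U) (h' : IsClo a' U') {d : ℕ}
    (hd : ∀ u v, a u v ≤ a' u v + d) (u v : V) : U u v ≤ U' u v + d := by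
  have := h.rch u v
  generalize U u v = t at this
  induction this with
  | single e => have := h'.ge u; exact e.trans ((hd _ _).trans (Nat.add_le_add_right (h'.ge _ _) _))
  | @tail x y _ e ih =>
    have := h'.ult u x y
    have := hd x y
    have := h'.ge x y
    omega

theorem tg_step {R : V → V → Prop} {u v : V} (h : TransGen R u v) (hne : u ≠ v) :
    (∃ y, u ≠ y ∧ R u y) := by
  induction h using TransGen.head_induction_on with
  | single e => exact ⟨_, hne, e⟩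
  | @head a c e _ ih =>
    by_cases x : a = c
    · subst x; exact ih hne
    · exact ⟨c, x, e⟩

structure Gr (V : Type) [Fintype V] extends Sk V where
  bs : V → V
  ot : V → V
  o : V
  L : ℕ
  ro : re o
  rb : ∀ p, re p → bs p = p ∧ ot p = p
  mb : ∀ z, ¬ re z → bs (mt.1 z) = bs z ∧ ot (mt.1 z) = ot z
  ex : ∀ u v, re u → re v → ∃ z, ¬ re z ∧ bs z = u ∧ ot z = v
  hL : 10 ≤ L
  hn : 2 * Fintype.card V ≤ 2 ^ L

namespace Gr
variable (G : Gr V)

def b : ℕ := 4 ^ G.L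

open Classical in
noncomputable def a0 (ℓ : V → V → ℕ) (σ : V → ℕ) (u v : V) : ℕ :=
  if u = v then 12 * G.b
  else if G.re u ∧ G.re v ∧ u ≠ G.o ∧ v ≠ G.o then ℓ u v + 10 * G.b - σ u - σ v else 0

def Us (U : V → V → ℕ) (p q : V) : ℕ :=
  min (min (U (G.bs p) (G.ot p)) (U (G.bs q) (G.ot q))) (U (G.bs p) (G.bs q))

open Classical in
noncomputable def tg (ℓ U : V → V → ℕ) (σ : V → ℕ) (p q : V) : ℕ :=
  max (ℓ p q) (G.Us U p q + σ p + σ q - (10 * G.b + 100 * G.L))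
    + if ¬ G.re p ∧ q = G.mt.1 p then 100 * G.L else 0

structure St (ℓ : V → V → ℕ) (σ : V → ℕ) (s : ℕ) : Prop where
  sym : ∀ u v, ℓ u v = ℓ v u
  rng : ∀ u v, G.re u → G.re v → u ≠ v → G.b ≤ ℓ u v ∧ ℓ u v ≤ 2 * G.b
  zero : ∀ u v, ¬ (G.re u ∧ G.re v) → ℓ u v = 0
  so : σ G.o = 10 * G.b
  sz : ∀ z, ¬ G.re z → σ z = 12 * G.b
  acc : ∀ v, G.re v → v ≠ G.o → G.Z (e2 ℓ) ∅ ≤ 4 ^ (σ v + s) * G.Z (e2 ℓ) {G.o, v} ∧
    4 ^ σ v * G.Z (e2 ℓ) {G.o, v} ≤ 4 ^ s * G.Z (e2 ℓ) ∅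

def cl (T : PM V) : Prop := ∀ z, ¬ G.re z → T.1 z = G.mt.1 z

noncomputable def K : ℝ := 10 ^ 6 * (4 ^ (300 * G.L)) ^ 4 * Fintype.card V ^ 16

theorem hb : 1000 * G.L ≤ G.b := by
  have := G.hL
  unfold b
  generalize G.L = L at *
  induction L, this using Nat.le_induction with
  | base => norm_num
  | succ L _ ih => rw [pow_succ]; omega

theorem nre {z : V} (h : ¬ G.re z) : ¬ G.re (G.mt.1 z) := fun e => h (by
  have := G.hre _ e; rwa [G.mt.2.1] at this)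

theorem nR : 2 * (Fintype.card V : ℝ) ≤ 2 ^ G.L := by exact_mod_cast G.hn

theorem n4 : 2 * (Fintype.card V : ℝ) ≤ 4 ^ G.L :=
  G.nR.trans (pow_le_pow_left₀ (by norm_num) (by norm_num) _)

theorem n3 : 4 * (Fintype.card V : ℝ) ^ 3 ≤ 4 ^ (2 * G.L) := by
  have a := pow_le_pow_left₀ (by positivity) G.nR 3
  have b : ((2 : ℝ) ^ G.L) ^ 3 ≤ 4 ^ (2 * G.L) := by
    rw [show (4 : ℝ) = 2 ^ 2 by norm_num, ← pow_mul, ← pow_mul]
    exact pow_le_pow_right₀ (by norm_num) (by omega)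
  have : (0 : ℝ) ≤ (Fintype.card V : ℝ) ^ 3 := by positivity
  linarith

theorem Zpos {r : V → V → ℝ} (h : Wt r) : 0 < G.Z r ∅ :=
  sum_pos (fun f _ => Sk.wt_pos h f) ⟨G.mt.1, Sk.mem_Fam.2 ⟨G.mt.2.1, by simp [G.mt.2.2], fun _ _ => rfl⟩⟩

variable {G} {ℓ U W : V → V → ℕ} {σ : V → ℕ} {s : ℕ}

theorem St.mono (h : G.St ℓ σ s) {s' : ℕ} (hs : s ≤ s') : G.St ℓ σ s' :=
  ⟨h.sym, h.rng, h.zero, h.so, h.sz, fun v a b => ⟨(h.acc v a b).1.trans (mul_le_mul_of_nonneg_right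
    (pow_le_pow_right₀ (by norm_num) (by omega)) (Sk.Z0 (wt_e2 h.sym) _)), (h.acc v a b).2.trans
      (mul_le_mul_of_nonneg_right (pow_le_pow_right₀ (by norm_num) hs) (Sk.Z0 (wt_e2 h.sym) _))⟩⟩

theorem St.hpos (h : G.St ℓ σ s) {v : V} (rv : G.re v) (hv : v ≠ G.o) : 0 < G.Z (e2 ℓ) {G.o, v} :=
  pos_of_mul_pos_right ((G.Zpos (wt_e2 h.sym)).trans_le (h.acc v rv hv).1) (by positivity)

theorem pow4_le {a c : ℕ} {x : ℝ} (hx : 0 < x) (h : 4 ^ a * x ≤ 4 ^ c * x) : a ≤ c :=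
  (pow_le_pow_iff_right₀ (by norm_num : (1 : ℝ) < 4)).1 (le_of_mul_le_mul_right h hx)

theorem St.sig (h : G.St ℓ σ s) {v : V} (rv : G.re v) (hv : v ≠ G.o) :
    ℓ G.o v ≤ σ v + s ∧ σ v ≤ s + 3 * G.b + G.L := by
  have w := wt_e2 h.sym
  have p := h.hpos rv hv
  obtain ⟨a1, a2⟩ := h.acc v rv hv
  constructor
  · have := Sk.edge_le (S := G.toSk) w hv.symm G.ro rv (notMem_empty _) (notMem_empty _)
    rw [e2_sq, insert_empty_eq] at this
    exact pow4_le p (this.trans a1)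
  · have := Sk.Z_low (S := G.toSk) w G.ro rv hv.symm (lo := 2 ^ G.b) (hi := 2 ^ (2 * G.b)) (by positivity)
      fun x y rx ry e => ⟨pow_le_pow_right₀ (by norm_num) (h.rng x y rx ry e).1,
        pow_le_pow_right₀ (by norm_num) (h.rng x y rx ry e).2⟩
    have e1 : ((2 : ℝ) ^ G.b) ^ 2 = 4 ^ G.b := by rw [← pow_mul, mul_comm, pow_mul]; norm_num
    have e2 : ((2 : ℝ) ^ (2 * G.b)) ^ 4 = 4 ^ G.b * 4 ^ (3 * G.b) := by
      rw [← pow_add, show (4 : ℝ) = 2 ^ 2 by norm_num, ← pow_mul, ← pow_mul]; congr 1; ring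
    rw [e1, e2, mul_left_comm, mul_assoc] at this
    have a3 := le_of_mul_le_mul_left this (by positivity)
    refine pow4_le p (a2.trans ?_)
    rw [pow_add, pow_add, mul_assoc, mul_assoc]
    refine mul_le_mul_of_nonneg_left (a3.trans ?_) (by positivity)
    rw [mul_comm (Fintype.card V : ℝ), mul_assoc]
    refine mul_le_mul_of_nonneg_left (mul_le_mul_of_nonneg_right ?_ p.le) (by positivity)
    linarith [G.n4, (by positivity : (0 : ℝ) ≤ Fintype.card V)]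

theorem St.sigr (h : G.St ℓ σ s) (v : V) : G.b ≤ σ v + s ∧ σ v ≤ 12 * G.b + s := by
  have := G.hb
  by_cases rv : G.re v
  · by_cases hv : v = G.o
    · rw [hv, h.so]; omega
    · have := h.sig rv hv
      have := h.rng _ _ G.ro rv (Ne.symm hv)
      omega
  · rw [h.sz v rv]; omega

theorem a0_sym (h : ∀ u v, ℓ u v = ℓ v u) (u v : V) : G.a0 ℓ σ u v = G.a0 ℓ σ v u := by
  have := h u v
  simp only [a0]; grind

theorem St.a0_le (h : G.St ℓ σ s) (u v : V) : G.a0 ℓ σ u v ≤ 12 * G.b := by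
  simp only [a0]
  split_ifs with a c
  · rfl
  · have := h.rng u v c.1 c.2.1 a; omega
  · omega

theorem St.U_le (h : G.St ℓ σ s) (hU : IsClo (G.a0 ℓ σ) U) (u v : V) : U u v ≤ 12 * G.b := by
  obtain ⟨x, e, -⟩ := TransGen.head'_iff.1 (hU.rch u v)
  exact e.trans (h.a0_le _ _)

theorem U_o (hU : IsClo (G.a0 ℓ σ) U) {v : V} (hv : G.o ≠ v) : U G.o v = 0 := by
  obtain ⟨x, e, e'⟩ := tg_step (hU.rch _ v) hv
  simpa [a0, e] using e'

theorem St.Us_re (h : G.St ℓ σ s) (hU : IsClo (G.a0 ℓ σ) U) {u v : V} (ru : G.re u) (rv : G.re v) :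
    G.Us U u v = U u v := by
  have a1 := hU.ge u u
  have a2 := hU.ge v v
  have a3 := h.U_le hU u v
  simp only [a0, if_true] at a1 a2
  simp only [Us, G.rb u ru, G.rb v rv]; omega

theorem Us_sym (hU : ∀ u v, U u v = U v u) (p q : V) : G.Us U p q = G.Us U q p := by
  simp only [Us, hU (G.bs p) (G.bs q), min_comm]

theorem Us_ult {a : V → V → ℕ} (hU : IsClo a U) (p q w : V) :
    min (G.Us U p q) (G.Us U q w) ≤ G.Us U p w := by
  have := hU.ult (G.bs p) (G.bs q) (G.bs w)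
  simp only [Us]; omega

theorem tg_sym (h : ∀ u v, ℓ u v = ℓ v u) (hU : ∀ u v, U u v = U v u) (p q : V) :
    G.tg ℓ U σ p q = G.tg ℓ U σ q p := by
  have : (¬ G.re p ∧ q = G.mt.1 p) ↔ (¬ G.re q ∧ p = G.mt.1 q) :=
    ⟨fun ⟨a, e⟩ => ⟨e ▸ G.nre a, by rw [e, G.mt.2.1]⟩, fun ⟨a, e⟩ => ⟨e ▸ G.nre a, by rw [e, G.mt.2.1]⟩⟩
  classical
  rw [tg, tg, if_congr this rfl rfl, h p q, Us_sym hU p q, add_right_comm _ (σ p)]

theorem St.key (h : G.St ℓ σ s) (hs : s ≤ 5 * G.L) (hU : IsClo (G.a0 ℓ σ) U) {p q : V} (hpq : p ≠ q) :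
    G.Us U p q + σ p + σ q ≤ G.tg ℓ U σ p q + (10 * G.b + 100 * G.L) ∧
    G.tg ℓ U σ p q + 10 * G.b ≤ G.Us U p q + σ p + σ q + 5 * G.L ∧
    (¬ G.re p → G.tg ℓ U σ p q + (10 * G.b + 100 * G.L) = G.Us U p q + σ p + σ q
      + if q = G.mt.1 p then 100 * G.L else 0) := by
  have hb := G.hb
  have s1 := h.sigr p
  have s2 := h.sigr q
  by_cases rp : G.re p
  · by_cases rq : G.re q
    · simp only [tg, rp, not_true, false_and, if_false, h.Us_re hU rp rq, false_imp_iff, and_true]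
      have a1 := h.rng p q rp rq hpq
      by_cases e1 : p = G.o
      · subst e1
        have := h.sig rq hpq.symm
        rw [h.so]; omega
      by_cases e2 : q = G.o
      · subst e2
        have := h.sig rp hpq
        rw [h.so, h.sym p]; omega
      have a2 := hU.ge p q
      have := h.sig rp e1
      have := h.sig rq e2
      simp only [a0, if_neg hpq, rp, rq, e1, e2, ne_eq, not_false_iff, and_self, if_true] at a2
      omega
    · simp only [tg, rp, not_true, false_and, if_false, false_imp_iff, and_true, h.zero p q (by tauto),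
        h.sz q rq]
      omega
  · simp only [tg, rp, not_false_iff, true_and, h.zero p q (by tauto), h.sz p rp, true_imp_iff]
    split_ifs <;> omega

theorem St.tg_le (h : G.St ℓ σ s) (hs : s ≤ 5 * G.L) (hU : IsClo (G.a0 ℓ σ) U) {p q : V} (hpq : p ≠ q) :
    G.tg ℓ U σ p q ≤ 27 * G.b := by
  have := (h.key hs hU hpq).2.1
  have := h.sigr p
  have := h.sigr q
  have := h.U_le hU (G.bs p) (G.bs q)
  have := G.hb
  simp only [Us] at *
  omega

theorem St.gain (h : G.St ℓ σ s) (hs : s ≤ 5 * G.L) (hU : IsClo (G.a0 ℓ σ) U) (T : PM V) {z : V}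
    (rz : ¬ G.re z) (hz : T.1 z ≠ G.mt.1 z) :
    G.tg ℓ U σ z (T.1 z) + G.tg ℓ U σ (G.mt.1 z) (T.1 (G.mt.1 z)) + 100 * G.L ≤
      G.tg ℓ U σ z (G.mt.1 z) + G.tg ℓ U σ (T.1 z) (T.1 (G.mt.1 z)) := by
  have n1 := (G.mt.2.2 z).symm
  have a1 := (h.key hs hU (T.2.2 z).symm).2.2 rz
  have a2 := (h.key hs hU (T.2.2 (G.mt.1 z)).symm).2.2 (G.nre rz)
  have a3 := (h.key hs hU n1).2.2 rz
  have a4 := (h.key hs hU (fun e => n1 (T.inj e))).1
  rw [if_neg hz] at a1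
  rw [if_neg (fun e => hz (T.sym (by rw [e, G.mt.2.1])))] at a2
  rw [if_pos rfl] at a3
  have b1 := Us_ult (G := G) hU (T.1 z) z (G.mt.1 z)
  have b2 := Us_ult (G := G) hU (T.1 z) (G.mt.1 z) (T.1 (G.mt.1 z))
  have b3 := Us_sym (G := G) hU.sym (T.1 z) z
  have b4 : ∀ p, G.Us U z p ≤ G.Us U z (G.mt.1 z) ∧ G.Us U (G.mt.1 z) p ≤ G.Us U z (G.mt.1 z) := by
    intro p
    have c1 := hU.ge (G.bs z) (G.bs z)
    have c2 := h.U_le hU (G.bs z) (G.ot z)
    simp only [a0, if_true] at c1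
    simp only [Us, G.mb z rz]; omega
  have := (b4 (T.1 z)).1
  have := (b4 (T.1 (G.mt.1 z))).2
  omega

theorem cl_sw (Q : Pr V) (S : V → Prop) (hS : Cl (raw Q) S) (h : ∀ c, G.cl (Q c)) (c : Bool) :
    G.cl (swP Q S c) := fun z hz => by
  by_cases e : S z
  · rw [swP_in hS c e]; exact h _ z hz
  · rw [swP_out hS c e]; exact h _ z hz

theorem St.nice (h : G.St ℓ σ s) (hs : s ≤ 5 * G.L) (hU : IsClo (G.a0 ℓ σ) U)
    (hW : ∀ u v, W u v = W v u) (hd : ∀ p q, p ≠ q →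
      W p q ≤ G.tg ℓ U σ p q + 22 * G.L ∧ G.tg ℓ U σ p q ≤ W p q + 22 * G.L) : Nice (e2 W) G.K := by
  haveI : Nonempty V := ⟨G.o⟩
  refine nice_of (wt_e2 hW) (one_le_pow₀ (by norm_num)) G.cl G.mt cl_sw ?_ ?_
  · intro P B m hP bf hm m0
    refine cycle_bound (G.Us U) G.re _ B P m (Us_sym hU.sym) (Us_ult hU) ?_ bf hm m0
      (fun c u hu => Sk.re_of (P c).2.1 (hP c) hu) (fun z hz => (hP _ z hz).trans (hP _ z hz).symm) ?_
    · intro T a c hac h1 h2
      have n1 : T.1 a ≠ T.1 c := fun e => hac (T.inj e)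
      have a1 := (h.key hs hU (T.2.2 a).symm).2.1
      have a2 := (h.key hs hU (T.2.2 c).symm).2.1
      have a3 := (h.key hs hU hac).1
      have a4 := (h.key hs hU n1).1
      have b1 := Us_ult (G := G) hU (T.1 a) a c
      have b2 := Us_ult (G := G) hU (T.1 a) c (T.1 c)
      have b3 := Us_sym (G := G) hU.sym (T.1 a) a
      have := hd _ _ (T.2.2 a).symm
      have := hd _ _ (T.2.2 c).symm
      have := hd _ _ hac
      have := hd _ _ n1
      exact gd_of (by omega)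
    · intro u v ru rv
      obtain ⟨z, rz, e1, e2⟩ := G.ex u v ru rv
      have c1 := hU.ge u u
      have c2 := h.U_le hU u v
      simp only [a0, if_true] at c1
      refine ⟨z, rz, ?_⟩
      rw [hP true z rz, h.Us_re hU ru rv]
      simp only [Us, G.mb z rz, e1, e2, G.rb u ru]
      exact ⟨fun p => by omega, fun p => by omega, by omega, by omega⟩
  · intro T hT
    obtain ⟨z, rz, hz⟩ : ∃ z, ¬ G.re z ∧ T.1 z ≠ G.mt.1 z := by simpa [cl] using hT
    have n1 := (G.mt.2.2 z).symm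
    refine ⟨z, G.mt.1 z, n1, le_trans (mul_le_mul_of_nonneg_right G.n3 ((wt_e2 hW).pr_pos T).le)
      (gain_of hW n1 hz ?_)⟩
    have := h.gain hs hU T rz hz
    have := hd _ _ (T.2.2 z).symm
    have := hd _ _ (T.2.2 (G.mt.1 z)).symm
    have := hd _ _ n1
    have := hd _ _ (fun e => n1 (T.inj e))
    omega

theorem nice_one (hW : ∀ u v, W u v = W v u) (hg : ∀ T : PM V, T ≠ G.mt → ∃ p, T.1 p ≠ G.mt.1 p ∧
    W p (T.1 p) + W (G.mt.1 p) (T.1 (G.mt.1 p)) + 2 * G.L ≤ W p (G.mt.1 p) + W (T.1 p) (T.1 (G.mt.1 p))) :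
    Nice (e2 W) G.K := by
  haveI : Nonempty V := ⟨G.o⟩
  refine nice_of (wt_e2 hW) (one_le_pow₀ (by norm_num)) (· = G.mt) G.mt ?_ ?_ ?_
  · intro Q S hS h c
    apply Subtype.ext; funext u
    by_cases e : S u
    · rw [swP_in hS c e, h]
    · rw [swP_out hS c e, h]
  · intro P B m hP bf _ m0 x
    rw [bf.triv P x true (by rw [hP, hP]), abs_zero]; positivity
  · intro T hT
    obtain ⟨p, h1, h2⟩ := hg T hT
    exact ⟨p, G.mt.1 p, (G.mt.2.2 p).symm, le_trans (mul_le_mul_of_nonneg_right G.n3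
      ((wt_e2 hW).pr_pos T).le) (gain_of hW (G.mt.2.2 p).symm h1 h2)⟩

theorem St.close {σ' : V → ℕ} {s' : ℕ} (h : G.St ℓ σ s) (h' : G.St ℓ σ' s') (v : V) :
    σ v ≤ σ' v + (s + s') := by
  by_cases rv : G.re v
  · by_cases hv : v = G.o
    · rw [hv, h.so, h'.so]; omega
    · refine pow4_le (h.hpos rv hv) ((h.acc v rv hv).2.trans ?_)
      rw [show σ' v + (s + s') = s + (σ' v + s') by ring, pow_add, mul_assoc]
      exact mul_le_mul_of_nonneg_left (h'.acc v rv hv).1 (by positivity)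
  · rw [h.sz v rv, h'.sz v rv]; omega

theorem tg_lip {ℓ' U' : V → V → ℕ} {σ' : V → ℕ} {d : ℕ} (hU : IsClo (G.a0 ℓ σ) U)
    (hU' : IsClo (G.a0 ℓ' σ') U') (h1 : ∀ u v, ℓ u v ≤ ℓ' u v + 1) (h2 : ∀ v, σ v ≤ σ' v + d)
    (h3 : ∀ v, σ' v ≤ σ v + d) (p q : V) : G.tg ℓ U σ p q ≤ G.tg ℓ' U' σ' p q + (4 * d + 1) := by
  have a := hU.lip hU' (d := 2 * d + 1) fun u v => by
    have := h1 u v; have := h3 u; have := h3 v
    simp only [a0]; split_ifs <;> omega
  have := a (G.bs p) (G.ot p)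
  have := a (G.bs q) (G.ot q)
  have := a (G.bs p) (G.bs q)
  have := h1 p q; have := h2 p; have := h2 q
  simp only [tg, Us]; omega

end Gr

end Vale.Agent.P308
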