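import Vale.Agent.P308.Comb

/-! P308: gluing of matchings, weights, flows, the cycle value and its error. -/

namespace Vale.Agent.P308
open Finset

theorem sum_fib_le {α β κ : Type} [Fintype α] [Fintype β] [Fintype κ] (f : α → β) (key : α → κ)
    (s : Finset α) (h : ∀ a ∈ s, ∀ a' ∈ s, key a = key a' → f a = f a' → a = a') (G : β → ℝ)
    (hG : ∀ b, 0 ≤ G b) : ∑ a ∈ s, G (f a) ≤ Fintype.card κ * ∑ b, G b := by
  classical
  rw [← sum_fiberwise s key, ← card_univ, ← nsmul_eq_mul]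
  refine sum_le_card_nsmul _ _ _ fun y _ => ?_
  rw [← sum_image (f := G) (g := f) (fun a ha a' ha' e => h a (mem_filter.1 ha).1 a'
    (mem_filter.1 ha').1 ((mem_filter.1 ha).2.trans (mem_filter.1 ha').2.symm) e)]
  exact sum_le_sum_of_subset_of_nonneg (subset_univ _) fun b _ _ => hG b

theorem sum_invol {α : Type} [Fintype α] {F : α → α} (hF : ∀ a, F (F a) = a) (g : α → ℝ) :
    ∑ a, g (F a) = ∑ a, g a := Equiv.sum_comp (Function.Involutive.toPerm F hF) g

theorem sum_w_le {α β : Type} [Fintype α] [Fintype β] (w : α → ℝ) (F : α → β → ℝ) (M : ℝ)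
    (h : ∀ b, ∑ a, w a * F a b ≤ M) : ∑ a, w a * ∑ b, F a b ≤ Fintype.card β * M := by
  simp only [mul_sum]
  rw [sum_comm, ← card_univ, ← nsmul_eq_mul]
  exact sum_le_card_nsmul _ _ _ fun b _ => h b

variable {V : Type} [DecidableEq V] [Fintype V]

def mk2 (T C : PM V) : Pr V := fun c => if c then C else T

theorem sum_pr (F : Pr V → ℝ) : ∑ Q, F Q = ∑ T, ∑ C, F (mk2 T C) := by
  rw [← Fintype.sum_prod_type']
  exact (Fintype.sum_equiv (Equiv.boolArrowEquivProd (PM V)) _ _ fun Q => by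
    congr 1; funext c; cases c <;> rfl)

open Classical in
noncomputable def gl (S : V → Prop) (g f : PM V) : PM V :=
  if h : (∀ u, S u → S (g.1 u)) ∧ ∀ u, S u → S (f.1 u) then
    ⟨glue S g.1 f.1, glue_inv g.2.1 f.2.1 h.1 h.2, fun u => by
      by_cases hu : S u
      · rw [glue_in hu]; exact g.2.2 u
      · rw [glue_out hu]; exact f.2.2 u⟩
  else f

theorem gl_val {S : V → Prop} {g f : PM V} (h1 : ∀ u, S u → S (g.1 u)) (h2 : ∀ u, S u → S (f.1 u)) :
    (gl S g f).1 = glue S g.1 f.1 := by rw [gl, dif_pos ⟨h1, h2⟩]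

noncomputable def swP (Q : Pr V) (S : V → Prop) : Pr V := fun c => gl S (Q (!c)) (Q c)

theorem raw_swP {Q : Pr V} {S : V → Prop} (h : Cl (raw Q) S) : raw (swP Q S) = swS S (raw Q) :=
  funext fun c => gl_val (h _) (h c)

theorem swP_in {Q : Pr V} {S : V → Prop} (h : Cl (raw Q) S) (c : Bool) {u : V} (hu : S u) :
    (swP Q S c).1 u = (Q (!c)).1 u := (congrFun (congrFun (raw_swP h) c) u).trans (glue_in hu)

theorem swP_out {Q : Pr V} {S : V → Prop} (h : Cl (raw Q) S) (c : Bool) {u : V} (hu : ¬ S u) :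
    (swP Q S c).1 u = (Q c).1 u := (congrFun (congrFun (raw_swP h) c) u).trans (glue_out hu)

theorem cy_swP {Q : Pr V} {S : V → Prop} (h : Cl (raw Q) S) (x : V) :
    Cy (raw (swP Q S)) x = Cy (raw Q) x := by rw [raw_swP h, cy_swS]

theorem swP_swP {Q : Pr V} {S : V → Prop} (h : Cl (raw Q) S) : swP (swP Q S) S = Q := by
  have h' : Cl (raw (swP Q S)) S := fun c u hu => by
    show S ((swP Q S c).1 u); rw [swP_in h c hu]; exact h _ u hu
  funext c
  apply Subtype.ext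
  have := raw_swP h'
  rw [raw_swP h, swS_swS] at this
  exact congrFun this c

noncomputable def swx (Q : Pr V) (x : V) : Pr V := swP Q (Cy (raw Q) x)

theorem swx_swx (x : V) (Q : Pr V) : swx (swx Q x) x = Q := by
  rw [swx, swx, cy_swP (cl_cy _ _), swP_swP (cl_cy _ _)]

/-- The Gibbs measure of the edge weights `r ^ 2`. -/
noncomputable def pr (r : V → V → ℝ) (T : PM V) : ℝ := T.wt r / ∑ T' : PM V, T'.wt r

noncomputable def w2 (r : V → V → ℝ) (Q : Pr V) : ℝ := pr r (Q false) * pr r (Q true)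

structure Wt (r : V → V → ℝ) : Prop where
  pos : ∀ u v, 0 < r u v
  sym : ∀ u v, r u v = r v u

variable {r : V → V → ℝ}

theorem Wt.wt_pos (h : Wt r) (T : PM V) : 0 < T.wt r := prod_pos fun _ _ => h.pos _ _

theorem Wt.z_pos (h : Wt r) (T : PM V) : 0 < ∑ T' : PM V, T'.wt r :=
  sum_pos (fun T' _ => h.wt_pos T') ⟨T, mem_univ _⟩

theorem Wt.pr_pos (h : Wt r) (T : PM V) : 0 < pr r T := div_pos (h.wt_pos T) (h.z_pos T)

theorem Wt.sum_pr (h : Wt r) (T : PM V) : ∑ T', pr r T' = 1 := by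
  simp only [pr]; rw [← sum_div, div_self (h.z_pos T).ne']

theorem Wt.w2_pos (h : Wt r) (Q : Pr V) : 0 < w2 r Q := mul_pos (h.pr_pos _) (h.pr_pos _)

theorem w2_swP {Q : Pr V} {S : V → Prop} (h : Cl (raw Q) S) : w2 r (swP Q S) = w2 r Q := by
  have := prod_swS univ r S (raw Q)
  rw [← raw_swP h] at this
  simp only [w2, pr, PM.wt, div_mul_div_comm]
  exact congrArg (· / _) this

theorem sum_swx (x : V) (G : Pr V → ℝ) : ∑ Q, w2 r Q * G (swx Q x) = ∑ Q, w2 r Q * G Q := by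
  rw [← sum_invol (F := fun Q => swx Q x) (swx_swx x) (fun Q => w2 r Q * G Q)]
  exact sum_congr rfl fun Q _ => by rw [swx, w2_swP (cl_cy _ _)]

def Gd (r : V → V → ℝ) (κ : ℝ) (T : PM V) (p q : V) : Prop :=
  (r p (T.1 p) * r q (T.1 q)) ^ 2 ≤ κ * (r p q * r (T.1 p) (T.1 q)) ^ 2

theorem Wt.pr_cn (h : Wt r) (T : PM V) {p q : V} (h1 : p ≠ q) (h2 : T.1 p ≠ q) :
    pr r (T.cn p q) * (r p (T.1 p) * r q (T.1 q)) ^ 2 = pr r T * (r p q * r (T.1 p) (T.1 q)) ^ 2 := by
  have := PM.wt_cn univ h.sym T h1 h2 (mem_univ _) (mem_univ _) (mem_univ _) (mem_univ _)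
  simp only [pr, PM.wt, div_mul_eq_mul_div, this]

theorem Wt.le_cn (h : Wt r) {κ : ℝ} {T : PM V} {p q : V} (h1 : p ≠ q) (h2 : T.1 p ≠ q)
    (h3 : Gd r κ T p q) : pr r T ≤ κ * pr r (T.cn p q) := by
  have e := h.pr_cn T h1 h2
  have p1 : 0 < (r p q * r (T.1 p) (T.1 q)) ^ 2 := pow_pos (mul_pos (h.pos _ _) (h.pos _ _)) _
  refine le_of_mul_le_mul_right ?_ p1
  have := mul_le_mul_of_nonneg_left h3 (h.pr_pos (T.cn p q)).le
  linarith

open Classical in
theorem flow (h : Wt r) {κ : ℝ} (hκ : 0 ≤ κ) (c : Bool) (p q : V) (ψ : Pr V → ℝ)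
    (hψ : ∀ Q, 0 ≤ ψ Q) :
    ∑ Q, w2 r Q * (if Mv (Gd r κ) Q c p q then ψ (cnP Q c p q) else 0)
      ≤ κ * Fintype.card V * ∑ Q, w2 r Q * ψ Q := by
  simp only [mul_ite, mul_zero]
  rw [← sum_filter, mul_assoc]
  refine le_trans ?_ (mul_le_mul_of_nonneg_left (sum_fib_le (fun Q => cnP Q c p q)
    (fun Q => (Q c).1 p) (univ.filter fun Q => Mv (Gd r κ) Q c p q) ?_ (fun Q => w2 r Q * ψ Q)
    fun Q => mul_nonneg (h.w2_pos Q).le (hψ Q)) hκ)
  · rw [mul_sum]
    refine sum_le_sum fun Q hQ => ?_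
    obtain ⟨h1, h2, h3⟩ := (mem_filter.1 hQ).2
    rw [← mul_assoc]
    refine mul_le_mul_of_nonneg_right ?_ (hψ _)
    have := h.le_cn h1 h2 h3
    cases c
    · simp only [w2, cnP_same, cnP_ne Q (show true ≠ false by simp)]
      rw [← mul_assoc]; exact mul_le_mul_of_nonneg_right this (h.pr_pos _).le
    · simp only [w2, cnP_same, cnP_ne Q (show false ≠ true by simp)]
      rw [mul_left_comm]; exact mul_le_mul_of_nonneg_left this (h.pr_pos _).le
  · intro Q hQ Q' _ e1 e2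
    have h1 := (mem_filter.1 hQ).2.1
    funext c'
    by_cases hc : c' = c
    · have := congrFun e2 c
      rw [cnP_same, cnP_same] at this
      rw [hc, ← (Q c).cn_cn h1, ← (Q' c).cn_cn h1, this, e1]
    · have := congrFun e2 c'
      rwa [cnP_ne _ hc, cnP_ne _ hc] at this

open Classical in
noncomputable def Aop (r : V → V → ℝ) (κ : ℝ) (ψ : Pr V → ℝ) (Q : Pr V) : ℝ :=
  ψ Q + ∑ c, ∑ p, ∑ q, if Mv (Gd r κ) Q c p q then ψ (cnP Q c p q) else 0

theorem Aop_ge {κ : ℝ} {ψ : Pr V → ℝ} (hψ : ∀ Q, 0 ≤ ψ Q) (Q : Pr V) : ψ Q ≤ Aop r κ ψ Q :=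
  le_add_of_nonneg_right (sum_nonneg fun _ _ => sum_nonneg fun _ _ => sum_nonneg fun _ _ => by
    split_ifs; exacts [hψ _, le_rfl])

theorem rch_le {κ : ℝ} {P : Pr V} (k : ℕ) : ∀ ψ : Pr V → ℝ, (∀ Q, 0 ≤ ψ Q) → ∀ Q,
    Rch (Gd r κ) P k Q → ψ Q ≤ (Aop r κ)^[k] ψ P := by
  classical
  induction k with
  | zero => rintro ψ _ Q rfl; exact le_rfl
  | succ k ih =>
    intro ψ hψ Q h
    have h0 : ∀ Q, 0 ≤ Aop r κ ψ Q := fun Q => (hψ Q).trans (Aop_ge hψ Q)
    rw [Function.iterate_succ_apply]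
    rcases h with h | ⟨Q', c, p, q, h1, h2, rfl⟩
    · exact (Aop_ge hψ Q).trans (ih _ h0 Q h)
    · refine le_trans ?_ (ih _ h0 Q' h1)
      have n0 : ∀ c p q, 0 ≤ if Mv (Gd r κ) Q' c p q then ψ (cnP Q' c p q) else 0 :=
        fun c p q => by split_ifs; exacts [hψ _, le_rfl]
      have a1 := single_le_sum (s := univ)
        (fun c _ => sum_nonneg (s := univ) fun p _ => sum_nonneg (s := univ) fun q _ => n0 c p q)
        (mem_univ c)
      have a2 := single_le_sum (s := univ) (fun p _ => sum_nonneg (s := univ) fun q _ => n0 c p q)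
        (mem_univ p)
      have a3 := single_le_sum (s := univ) (fun q _ => n0 c p q) (mem_univ q)
      rw [if_pos h2] at a3
      exact le_add_of_nonneg_of_le (hψ _) (a3.trans (a2.trans a1))

theorem sum_Aop (h : Wt r) {κ : ℝ} (hκ : 0 ≤ κ) (k : ℕ) : ∀ ψ : Pr V → ℝ, (∀ Q, 0 ≤ ψ Q) →
    (∀ Q, 0 ≤ (Aop r κ)^[k] ψ Q) ∧ ∑ Q, w2 r Q * (Aop r κ)^[k] ψ Q
      ≤ (1 + 2 * κ * Fintype.card V ^ 3) ^ k * ∑ Q, w2 r Q * ψ Q := by
  classical
  induction k with
  | zero => intro ψ hψ; simpa using hψ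
  | succ k ih =>
    intro ψ hψ
    obtain ⟨i1, i2⟩ := ih _ (fun Q => (hψ Q).trans (Aop_ge (r := r) (κ := κ) hψ Q))
    rw [Function.iterate_succ_apply]
    refine ⟨i1, i2.trans ?_⟩
    rw [pow_succ _ k, mul_assoc _ _ (∑ Q, w2 r Q * ψ Q)]
    refine mul_le_mul_of_nonneg_left ?_ (by positivity)
    rw [add_mul, one_mul]
    simp only [Aop, mul_add, sum_add_distrib]
    refine add_le_add le_rfl ((sum_w_le _ _ _ fun c => sum_w_le _ _ _ fun p => sum_w_le _ _ _
      fun q => flow h hκ c p q ψ hψ).trans (le_of_eq ?_))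
    simp only [Fintype.card_bool]
    push_cast
    ring

open Classical in
noncomputable def cls (S : V → Prop) (g : PM V) : Finset (PM V) :=
  univ.filter fun C => ∀ u, S u → C.1 u = g.1 u

theorem mem_cls {S : V → Prop} {g C : PM V} : C ∈ cls S g ↔ ∀ u, S u → C.1 u = g.1 u := by
  simp [cls]

noncomputable def Gm (r : V → V → ℝ) (b : PM V → ℝ) (S : V → Prop) (g : PM V) : ℝ :=
  (∑ C ∈ cls S g, pr r C * b C) / ∑ C ∈ cls S g, pr r C

/-- The context-free value of the cycle through `x`. -/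
noncomputable def Bv (r : V → V → ℝ) (b : PM V → ℝ) (Q : Pr V) (x : V) : ℝ :=
  Gm r b (Cy (raw Q) x) (Q true) - Gm r b (Cy (raw Q) x) (Q false)

theorem cls_congr {S : V → Prop} {g g' : PM V} (h : ∀ u, S u → g'.1 u = g.1 u) :
    cls S g' = cls S g := by
  ext C; simp only [mem_cls]
  exact ⟨fun a u hu => (a u hu).trans (h u hu), fun a u hu => (a u hu).trans (h u hu).symm⟩

theorem bf_Bv (b : PM V → ℝ) : BF (Bv r b) := by
  refine ⟨fun Q Q' x h => ?_, fun Q x u h => ?_, fun Q x c h => ?_⟩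
  · have e : Cy (raw Q') x = Cy (raw Q) x := cy_congr h
    simp only [Bv, Gm, e, cls_congr (h true), cls_congr (h false)]
  · simp only [Bv, cy_base (raw_inv Q) h]
  · have h' : (Q true).1 x = (Q false).1 x := by cases c; exacts [h.symm, h]
    have : ∀ u, Cy (raw Q) x u → (Q true).1 u = (Q false).1 u := by
      intro u hu
      have := Cy.min (S := fun u => u = x ∨ u = (Q true).1 x) (by
        rintro c' _ (rfl | rfl)
        · right; cases c'; exacts [h'.symm, rfl]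
        · left; cases c'
          · show (Q false).1 _ = _; rw [h', (Q false).2.1]
          · exact (Q true).2.1 _) (Or.inl rfl) hu
      rcases this with rfl | rfl
      · exact h'
      · rw [(Q true).2.1, h', (Q false).2.1]
    simp only [Bv, Gm, cls_congr this, sub_self]

open Classical in
theorem sum_gl {S : V → Prop} {T C : PM V} (hT : ∀ u, S u → S (T.1 u))
    (hC : ∀ u, S u → S (C.1 u)) (F : PM V → ℝ) :
    (∑ T' ∈ cls S T, pr r T' * F T') * ∏ u ∈ univ.filter S, r u (C.1 u) =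
      (∑ C' ∈ cls S C, pr r C' * F (gl S T C')) * ∏ u ∈ univ.filter S, r u (T.1 u) := by
  have cl : ∀ {g C' : PM V}, (∀ u, S u → S (g.1 u)) → C' ∈ cls S g → ∀ u, S u → S (C'.1 u) :=
    fun hg h u hu => by rw [mem_cls.1 h u hu]; exact hg u hu
  have mem : ∀ {g g' C' : PM V}, (∀ u, S u → S (g.1 u)) → (∀ u, S u → S (g'.1 u)) →
      C' ∈ cls S g → gl S g' C' ∈ cls S g' := fun hg hg' h =>
    mem_cls.2 fun u hu => by rw [gl_val hg' (cl hg h), glue_in hu]
  have inv : ∀ {g g' C' : PM V}, (∀ u, S u → S (g.1 u)) → (∀ u, S u → S (g'.1 u)) →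
      C' ∈ cls S g → gl S g (gl S g' C') = C' := fun hg hg' h => by
    apply Subtype.ext
    rw [gl_val hg (cl hg' (mem hg hg' h)), gl_val hg' (cl hg h)]
    funext u
    by_cases hu : S u
    · rw [glue_in hu, mem_cls.1 h u hu]
    · rw [glue_out hu, glue_out hu]
  rw [sum_mul, sum_mul]
  symm
  refine sum_nbij' (gl S T) (gl S C) (fun _ h => mem hC hT h) (fun _ h => mem hT hC h)
    (fun _ h => inv hC hT h) (fun _ h => inv hT hC h) fun C' h => ?_
  have e : C'.wt r * ∏ u ∈ univ.filter S, r u (T.1 u)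
      = (gl S T C').wt r * ∏ u ∈ univ.filter S, r u (C.1 u) := by
    simp only [PM.wt, prod_filter, ← prod_mul_distrib, gl_val hT (cl hC h)]
    refine prod_congr rfl fun u _ => ?_
    by_cases hu : S u
    · rw [glue_in hu, if_pos hu, if_pos hu, mem_cls.1 h u hu, mul_comm]
    · rw [glue_out hu, if_neg hu, if_neg hu]
  simp only [pr]
  rw [mul_right_comm, div_mul_eq_mul_div, e]
  ring

theorem self_cls (S : V → Prop) (g : PM V) : g ∈ cls S g := mem_cls.2 fun _ _ => rfl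

theorem Wt.cls_pos (h : Wt r) (S : V → Prop) (g : PM V) : 0 < ∑ C ∈ cls S g, pr r C :=
  sum_pos (fun C _ => h.pr_pos C) ⟨g, self_cls S g⟩

theorem Gm_gl (h : Wt r) (b : PM V → ℝ) {S : V → Prop} {T C : PM V} (hT : ∀ u, S u → S (T.1 u))
    (hC : ∀ u, S u → S (C.1 u)) :
    Gm r b S T = (∑ C' ∈ cls S C, pr r C' * b (gl S T C')) / ∑ C' ∈ cls S C, pr r C' := by
  classical
  have e1 := sum_gl (r := r) hT hC b
  have e2 := sum_gl (r := r) hT hC (fun _ => 1)
  simp only [mul_one] at e2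
  have p1 : 0 < ∏ u ∈ univ.filter S, r u (C.1 u) := prod_pos fun _ _ => h.pos _ _
  rw [Gm, div_eq_div_iff (h.cls_pos _ _).ne' (h.cls_pos _ _).ne']
  apply mul_right_cancel₀ p1.ne'
  linear_combination (∑ C' ∈ cls S C, pr r C') * e1 -
    (∑ C' ∈ cls S C, pr r C' * b (gl S T C')) * e2

noncomputable def err (r : V → V → ℝ) (a b : PM V → ℝ) (Q : Pr V) (x : V) : ℝ :=
  a (swx Q x false) - a (Q false) - Bv r b Q x

noncomputable def lin (a b : PM V → ℝ) (Q : Pr V) (x : V) : ℝ :=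
  a (swx Q x false) - a (Q false) + b (swx Q x true) - b (Q true)

theorem jensen {α : Type} (s : Finset α) (w y : α → ℝ) (hw : ∀ i, 0 ≤ w i) (hs : 0 < ∑ i ∈ s, w i) :
    ((∑ i ∈ s, w i * y i) / ∑ i ∈ s, w i) ^ 2 ≤ (∑ i ∈ s, w i * y i ^ 2) / ∑ i ∈ s, w i := by
  rw [div_pow, div_le_div_iff₀ (by positivity) hs, sq (∑ i ∈ s, w i), ← mul_assoc]
  refine mul_le_mul_of_nonneg_right ?_ hs.le
  refine sum_sq_le_sum_mul_sum_of_sq_eq_mul s (fun i _ => mul_nonneg (hw i) (sq_nonneg _))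
    (fun i _ => hw i) fun i _ => by ring

noncomputable def KK (T : PM V) (x : V) (C : PM V) : Finset (PM V) :=
  cls (Cy (raw (mk2 T C)) x) C

theorem KK_cy {T C C' : PM V} {x : V} (hC : C' ∈ KK T x C) :
    Cy (raw (mk2 T C')) x = Cy (raw (mk2 T C)) x :=
  cy_congr fun c u hu => by cases c; exacts [rfl, mem_cls.1 hC u hu]

theorem KK_eq {T C C' : PM V} {x : V} (hC : C' ∈ KK T x C) : KK T x C' = KK T x C := by
  rw [KK, KK_cy hC]; exact cls_congr (mem_cls.1 hC)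

theorem KK_symm {T C C' : PM V} {x : V} (hC : C' ∈ KK T x C) : C ∈ KK T x C' := by
  rw [KK_eq hC]; exact self_cls _ _

theorem err_eq (h : Wt r) (a b : PM V → ℝ) (x : V) (T C : PM V) : err r a b (mk2 T C) x
    = (∑ C' ∈ KK T x C, pr r C' * lin a b (mk2 T C') x) / ∑ C' ∈ KK T x C, pr r C' := by
  have c0 := cl_cy (raw (mk2 T C)) x
  have p : ∑ C' ∈ KK T x C, pr r C' ≠ 0 := (h.cls_pos (Cy (raw (mk2 T C)) x) C).ne'
  have e1 : ∀ C' ∈ KK T x C, pr r C' * lin a b (mk2 T C') x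
      = (a (swx (mk2 T C) x false) - a T) * pr r C'
        + pr r C' * b (gl (Cy (raw (mk2 T C)) x) T C') - pr r C' * b C' := by
    intro C' hC
    have : swx (mk2 T C') x false = swx (mk2 T C) x false := by
      apply Subtype.ext; funext u
      by_cases hu : Cy (raw (mk2 T C)) x u
      · rw [swx, swP_in (cl_cy _ _) _ (by rwa [KK_cy hC]), swx, swP_in c0 _ hu]
        exact mem_cls.1 hC u hu
      · rw [swx, swP_out (cl_cy _ _) _ (by rwa [KK_cy hC]), swx, swP_out c0 _ hu]; rfl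
    rw [lin, this, swx, swx, KK_cy hC]
    show _ * (_ - a T + b (gl _ T C') - b C') = _
    ring
  have e2 : Gm r b (Cy (raw (mk2 T C)) x) (mk2 T C true)
      = (∑ C' ∈ KK T x C, pr r C' * b C') / ∑ C' ∈ KK T x C, pr r C' := rfl
  have e3 : Gm r b (Cy (raw (mk2 T C)) x) (mk2 T C false)
      = (∑ C' ∈ KK T x C, pr r C' * b (gl (Cy (raw (mk2 T C)) x) T C'))
        / ∑ C' ∈ KK T x C, pr r C' := Gm_gl h b (T := T) (C := C) (c0 false) (c0 true)
  rw [sum_congr rfl e1, sum_sub_distrib, sum_add_distrib, ← mul_sum, err, Bv, e2, e3,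
    show mk2 T C false = T from rfl]
  field_simp
  ring

theorem cls_avg {α : Type} [Fintype α] [DecidableEq α] (K : α → Finset α) (w g : α → ℝ)
    (h1 : ∀ C C', C' ∈ K C → K C' = K C) (h2 : ∀ C C', C' ∈ K C → C ∈ K C')
    (hp : ∀ C, 0 < ∑ C' ∈ K C, w C') :
    ∑ C, w C * ((∑ C' ∈ K C, w C' * g C') / ∑ C' ∈ K C, w C') = ∑ C, w C * g C := by
  have e : ∀ C, w C * ((∑ C' ∈ K C, w C' * g C') / ∑ C' ∈ K C, w C')
      = ∑ C' ∈ K C, w C / (∑ C'' ∈ K C', w C'') * (w C' * g C') := by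
    intro C
    rw [sum_div, mul_sum]
    exact sum_congr rfl fun C' hC => by rw [h1 C C' hC]; ring
  rw [sum_congr rfl fun C _ => e C, sum_comm' (t' := univ) (s' := K)
    (fun C C' => ⟨fun hh => ⟨h2 _ _ hh.2, mem_univ _⟩, fun hh => ⟨mem_univ _, h2 _ _ hh.1⟩⟩)]
  refine sum_congr rfl fun C _ => ?_
  rw [← sum_mul, ← sum_div, div_self (hp C).ne', one_mul]

theorem err_le (h : Wt r) (a b : PM V → ℝ) (x : V) :
    ∑ Q, w2 r Q * err r a b Q x ^ 2 ≤ ∑ Q, w2 r Q * lin a b Q x ^ 2 := by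
  rw [sum_pr, sum_pr]
  refine sum_le_sum fun T _ => ?_
  have ew : ∀ C, w2 r (mk2 T C) = pr r T * pr r C := fun _ => rfl
  simp only [ew, mul_assoc, ← mul_sum]
  refine mul_le_mul_of_nonneg_left ?_ (h.pr_pos T).le
  rw [← cls_avg (KK T x) (pr r) (fun C => lin a b (mk2 T C) x ^ 2) (fun _ _ => KK_eq)
    (fun _ _ => KK_symm) (fun C => h.cls_pos _ _)]
  refine sum_le_sum fun C _ => mul_le_mul_of_nonneg_left ?_ (h.pr_pos C).le
  rw [err_eq h]
  exact jensen _ _ _ (fun i => (h.pr_pos i).le) (h.cls_pos _ _)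

end Vale.Agent.P308
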