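import Vale.Agent.P308.Logic
import Vale.Agent.P308.Init

/-! P308: the mixing routine implements the population chain. -/

namespace Vale.Agent.P308
open Finset Vale.Agent.P317 Vale.Agent.P328

structure Cf where
  n : ℕ
  ns : ℕ
  G : Gr (Fin ns)
  adj : ℕ → ℕ → Prop
  re_iff : ∀ p, G.re p ↔ p.val < n
  o0 : G.o.val = 0
  nle : n ≤ ns

def SA : List ℕ := [0, 7, 8, 9, 10, 11, 12, 13, 14, 15, 16, 20, 52, 53, 54, 62]
def Sc : List ℕ := [21, 22, 23, 24, 25, 26, 27, 28, 29, 30, 31, 32, 33, 34, 35, 36, 37, 38, 39]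

theorem accum {k0 : ℕ} {O : Bool → Set (Fin k0) → Prop} {r i k m : ℕ} {body : Prog} {C : Mem} (W : List ℕ)
    (F : ℕ → ℕ) (hk : C k 0 = m) (ki : k ≠ i) (ri : r ≠ i) (hi : i ∉ body.wr) (iW : i ∈ W)
    (hW : ∀ x ∈ body.wr, x ∈ W) (h : ∀ s < m, ∀ C', Agree W C C' → C' i 0 = s →
      exec O body C' r 0 = C' r 0 + F s) :
    exec O (forI i k body) C r 0 = C r 0 + ∑ s ∈ range m, F s :=
  (lgD.forI (e := 0) (fun s C' => Agree W C C' ∧ C' r 0 = C r 0 + ∑ s ∈ range s, F s)
    trivial trivial hk ki hi (fun s C' x b => ⟨agree_put' b.1 iW _ _, by simpa [ri] using b.2⟩)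
    ⟨Agree.refl _ _, by simp⟩ (fun s hs C' b1 ⟨b2, b3⟩ =>
      ⟨agree_exec b2 O _ hW, by rw [h s hs C' b2 b1, b3, sum_range_succ, add_assoc]⟩)).2

theorem rnd_ex {k0 : ℕ} {O : Bool → Set (Fin k0) → Prop} {x k c : ℕ} (hxk : k ≠ x) (hx : x ≠ 34) (hk : k ≠ 34)
    {m : Mem} (hm : m k 0 = c) (φ : Mem → ℝ) (ψ : ℕ → ℝ)
    (h : ∀ r < 2 ^ c, ∀ m', m' x 0 = r → Agree [x, 34] m m' → φ m' = ψ r) :
    ex O (rnd x k) φ m = (∑ r ∈ range (2 ^ c), ψ r) / 2 ^ c := by
  have := Impl.loop (O := O) (W := [x, 34]) (V k) c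
    (p := .seq (.coin 34 (.lit 0)) (asg x (.add (.add (V x) (V x)) (V 34))))
    (fun i (r : ℕ) m => m k 0 = c ∧ m x 0 = r ∧ r < 2 ^ i) (T := fun φ r => (φ (r + r) + φ (r + r + 1)) / 2)
    (fun _ _ h => h.1) (by
      intro i _ r m ⟨h1, h2, h3⟩ φ ψ hφ
      have ag : ∀ a b, Agree [x, 34] m ((m.put 34 0 a).put x 0 b) := fun a b =>
        agree_put' (agree_put' (Agree.refl _ _) (by simp) _ _) (by simp) _ _
      simp only [ex, asg, V, Expr.val]
      rw [hφ (r + r) _ (by simp [hxk, hx, hk, h1, h2, pow_succ]; omega) (ag _ _),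
        hφ (r + r + 1) _ (by simp [hxk, hx, hk, h1, h2, pow_succ]; omega) (ag _ _)])
    0 (m.put x 0 0) (by simp [hxk, hm]) φ ψ fun r m' a b =>
      h r a.2.2 m' a.2.1 ((agree_put' (Agree.refl _ _) (by simp) _ _).trans b)
  exact this.trans (by simp [bit_iter])

namespace Cf
variable (D : Cf)

abbrev P : ℕ := 2 ^ D.G.L
abbrev Pop : Type := Fin D.G.N → PM (Fin D.ns)

structure Par (C : Mem) : Prop where
  r0 : C 0 0 = D.n
  r8 : C 8 0 = D.ns
  r9 : C 9 0 = D.G.L
  r10 : C 10 0 = D.P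
  r11 : C 11 0 = D.G.b
  r12 : C 12 0 = D.G.N
  r13 : C 13 0 = D.G.t
  r14 : C 14 0 = D.G.B
  r15 : C 15 0 = 32768 * D.G.L
  r20 : C 20 0 = 4096 * D.G.L + 2
  mp : ∀ u < D.P, C 16 u = u * D.P
  mn : ∀ u < D.P, C 62 u = u * D.n
  bs : ∀ p : Fin D.ns, C 52 p = D.G.bs p
  ot : ∀ p : Fin D.ns, C 53 p = D.G.ot p
  mt : ∀ p : Fin D.ns, C 54 p = D.G.mt.1 p
  adj : ∀ u < D.n, ∀ v < D.n, (C 7 (u * D.n + v) ≠ 0 ↔ D.adj u v)

def om (C : Mem) (i : Fin D.G.N) (p q : Fin D.ns) : ℕ :=
  C 17 ((if i * D.P < C 19 0 then D.G.b else 0) + (p * D.P + q))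

def Pp (x : D.Pop) (M : Mem) : Prop := ∀ (i : Fin D.G.N) (u : Fin D.ns), M 21 (i * D.P + u) = (x i).1 u

def Enc (C : Mem) (x : D.Pop) (M : Mem) : Prop := Agree Sc C M ∧ D.Pp x M

def RQ (Q : Pr (Fin D.ns)) (M : Mem) : Prop :=
  ∀ u : Fin D.ns, M 22 u = (Q false).1 u ∧ M 23 u = (Q true).1 u

def sw (M : Mem) (i j : Fin D.G.N) (Q : Pr (Fin D.ns)) : ℕ :=
  ∑ u, (D.om M i u ((Q false).1 u) + D.om M j u ((Q true).1 u))

theorem nP : 2 * D.ns ≤ D.P := by simpa using D.G.hn

theorem lt (u : Fin D.ns) : u.val < D.P := by have := D.nP; omega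

variable {D} {k0 : ℕ} {O : Bool → Set (Fin k0) → Prop} {C M : Mem}

theorem Par.agree (h : D.Par C) {W : List ℕ} (a : Agree W C M) (hW : ∀ x ∈ SA, x ∉ W) : D.Par M := by
  have e : ∀ x ∈ SA, M x = C x := fun x hx => a x (hW x hx)
  obtain ⟨a0, a1, a2, a3, a4, a5, a6, a7, a8, a9, b0, b1, b2, b3, b4, b5⟩ := h
  constructor <;> rw [e _ (by decide)] <;> assumption

theorem Par.exec (h : D.Par C) (p : Prog) (hW : ∀ x ∈ SA, x ∉ p.wr) : D.Par (exec O p C) :=
  h.agree (exec_agree O p C) hW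

theorem Par.mq (h : D.Par C) (u : Fin D.ns) : C 16 u = u * D.P := h.mp u (D.lt u)

theorem om_agree {W : List ℕ} (a : Agree W C M) (h1 : 17 ∉ W) (h2 : 19 ∉ W) : D.om M = D.om C := by
  funext i p q; simp only [om, a 17 h1, a 19 h2]

theorem wsum_spec (hP : D.Par M) {r : ℕ} (hr : r = 31 ∨ r = 32) {Q : Pr (Fin D.ns)} (hQ : D.RQ Q M)
    {i j : Fin D.G.N} (h1 : M 36 0 = if i * D.P < M 19 0 then D.G.b else 0)
    (h2 : M 37 0 = if j * D.P < M 19 0 then D.G.b else 0) : exec O (wsum r) M r 0 = D.sw M i j Q := by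
  rw [wsum, exec_seq, accum [r, 35] (m := D.ns) (fun s => M 17 (M 36 0 + (M 16 s + M 22 s))
    + M 17 (M 37 0 + (M 16 s + M 23 s)))]
  · rw [sum_range]
    simp only [exec, asg, Expr.val, Mem.put_apply, and_self, if_true, zero_add, sw, om, h1, h2, hP.mq]
    exact sum_congr rfl fun u _ => by rw [(hQ u).1, (hQ u).2]
  · rcases hr with rfl | rfl <;> simp [exec, asg, hP.r8]
  · decide
  · omega
  · rcases hr with rfl | rfl <;> decide
  · simp
  · simp [acc, asg, Prog.wr]
  · intro s _ C' a e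
    have : Agree [r, 35] M C' := (agree_exec (Agree.refl _ _) O _ (by simp [asg, Prog.wr])).trans a
    rcases hr with rfl | rfl <;>
      simp [exec, acc, asg, Expr.val, e, this 17, this 36, this 37, this 16, this 22, this 23]

theorem locP_spec {Q : Pr (Fin D.ns)} (hQ : D.RQ Q M) {a b : Fin D.ns} (ha : M 28 0 = a)
    (hb : M 29 0 = b) : D.RQ (cnP Q false a b) (exec O locP M) := by
  intro u
  rw [cnP_same, cnP_ne _ (by simp), exec_frame _ _ _ 23 (by decide)]
  refine ⟨?_, (hQ u).2⟩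
  simp only [locP, exec, neE_eq, V_val, ha, hb, PM.cn, cn, Fin.val_inj]
  split_ifs <;> simp_all [skip, asg, exec, Expr.val, (hQ _).1, Fin.val_inj]

theorem swap_spec (hP : D.Par M) {Q : Pr (Fin D.ns)} (hQ : D.RQ Q M) {a : Fin D.ns} (ha : M 28 0 = a) :
    D.RQ (swx Q a) (exec O (.seq clr (.seq walk exg)) M) := by
  rw [exec_seq, exec_seq]
  have c1 := fill1 (O := O) (a := 24) (i := 35) (o := 0) (body := .set 24 (V 35) (.lit 0)) [24, 35]
    (fun _ => 0) hP.r8 (by decide) (by decide) (by decide) (by decide) (by decide)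
    (fun s _ C' _ e _ => by funext x; simp [exec, Expr.val, e, Function.update_apply])
  have a1 : Agree [24, 35] M (exec O clr M) := (exec_agree _ _ _).mono (by decide)
  change ∀ x, exec O clr M 24 x = _ at c1
  generalize exec O clr M = M1 at *
  have c2 := (lgD (O := O)).loop (k := 8) (e := 0) (C := M1.put 30 0 a)
    (p := .seq (.set 24 (V 30) (.lit 1)) (.seq (asg 30 (.get 22 (V 30)))
      (.seq (.set 24 (V 30) (.lit 1)) (asg 30 (.get 23 (V 30))))))
    (fun s M' => Agree [24, 30, 35] M M' ∧ M' 30 0 = (wk (raw Q) false a (2 * s)).val ∧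
      ∀ u : Fin D.ns, (M' 24 u ≠ 0 ↔ ∃ k < 2 * s, u = wk (raw Q) false a k)) trivial
    ⟨agree_put' (a1.mono (by decide)) (by decide) _ _, by simp [wk], fun u => by simp [c1]⟩
    (fun s _ M' ⟨b1, b2, b3⟩ => by
      have e0 : col false (2 * s) = false := by simpa [col] using col_two false 0 s
      have e1 : M 22 (wk (raw Q) false a (2 * s)).val = (wk (raw Q) false a (2 * s + 1)).val := by
        rw [wk, e0]; exact (hQ _).1
      have e2 : M 23 (wk (raw Q) false a (2 * s + 1)).val = (wk (raw Q) false a (2 * (s + 1))).val := by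
        rw [show 2 * (s + 1) = 2 * s + 1 + 1 by ring, wk.eq_2 _ _ _ (2 * s + 1), col, e0]; exact (hQ _).2
      refine ⟨agree_exec b1 O _ (by decide), by
        simp [exec, asg, Expr.val, b1 22, b1 23, b2, e1, e2], fun u => ?_⟩
      simp only [exec, asg, Expr.val, V_val, Mem.put_apply, b2, b1 22 (by decide), e1, Fin.val_inj]
      simp only [show 2 * (s + 1) = 2 * s + 1 + 1 by ring, Nat.exists_lt_succ_right, ← b3]
      norm_num
      rw [e1]
      simp only [Fin.val_inj]
      split_ifs <;> simp [*])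
  have e8 : M1.put 30 0 a 8 0 = D.ns := by simp [a1 8, hP.r8]
  rw [e8] at c2
  rw [walk, exec_seq, show exec O (asg 30 (V 28)) M1 = M1.put 30 0 a by simp [exec, asg, Expr.val, a1 28, ha]]
  obtain ⟨d1, -, d3⟩ := c2
  generalize exec O (.loop _ _ _) (M1.put 30 0 a) = M2 at *
  have d4 : ∀ u : Fin D.ns, M2 24 u ≠ 0 ↔ Cy (raw Q) a u := fun u => by
    obtain ⟨l, h1, -, -, -, h5⟩ := cycle_exists (raw_inv Q) (fun c => (Q c).2.2) false a
    rw [Fintype.card_fin] at h1
    exact (d3 u).trans ⟨fun ⟨k, _, e⟩ => e ▸ cy_wk _ _ _ _, fun hu => by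
      obtain ⟨k, hk, e⟩ := h5 u hu; exact ⟨k, by omega, e⟩⟩
  have c3 := (lgD (O := O)).forI (e := 0) (i := 35) (k := 8) (m := D.ns) (C := M2)
    (body := .ite (.get 24 (V 35)) (.seq (asg 38 (.get 22 (V 35)))
      (.seq (.set 22 (V 35) (.get 23 (V 35))) (.set 23 (V 35) (V 38)))) skip)
    (fun s M' => M' 24 = M2 24 ∧ ∀ x, M' 22 x = (if x < s ∧ M2 24 x ≠ 0 then M 23 x else M 22 x) ∧
      M' 23 x = if x < s ∧ M2 24 x ≠ 0 then M 22 x else M 23 x) trivial trivial
    (by rw [d1 8 (by decide), hP.r8]) (by decide) (by decide)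
    (fun s C x b => ⟨by rw [Mem.put_ne _ _ _ (by decide)]; exact b.1, by simpa using b.2⟩)
    ⟨rfl, fun x => by simp [d1 22, d1 23]⟩ (fun s _ M' b1 ⟨b2, b3⟩ => ⟨by
      rw [exec_frame _ _ _ 24 (by decide), b2], fun x => by
        have := b3 x
        have := b3 s
        simp only [exec, asg, skip, Expr.val, V_val, b1, b2]
        split_ifs <;> simp_all <;> grind⟩)
  intro u
  obtain ⟨f1, f2⟩ := c3.2 u
  rw [exg, f1, f2]
  by_cases hu : Cy (raw Q) a u
  · rw [swx, swP_in (cl_cy _ _) _ hu, swP_in (cl_cy _ _) _ hu, if_pos ⟨u.2, (d4 u).2 hu⟩,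
      if_pos ⟨u.2, (d4 u).2 hu⟩]
    exact ⟨(hQ u).2, (hQ u).1⟩
  · rw [swx, swP_out (cl_cy _ _) _ hu, swP_out (cl_cy _ _) _ hu, if_neg fun h => hu ((d4 u).1 h.2),
      if_neg fun h => hu ((d4 u).1 h.2)]
    exact hQ u

theorem store_spec (hP : D.Par M) {x : D.Pop} (hx : D.Pp x M) {Q : Pr (Fin D.ns)} (hQ : D.RQ Q M)
    {i j : Fin D.G.N} (hi : M 25 0 = i * D.P) (hj : M 26 0 = j * D.P) :
    D.Pp (put x i j Q) (exec O store M) := by
  have := (lgD (O := O)).forI (e := 0) (i := 35) (k := 8) (m := D.ns) (C := M)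
    (body := .seq (.set 21 (.add (V 26) (V 35)) (.get 23 (V 35))) (.set 21 (.add (V 25) (V 35)) (.get 22 (V 35))))
    (fun s M' => Agree [21, 35] M M' ∧ ∀ (k : Fin D.G.N) (u : Fin D.ns), M' 21 (k * D.P + u)
      = if u.val < s then ((put x i j Q k).1 u).val else ((x k).1 u).val) trivial trivial hP.r8 (by decide)
    (by decide) (fun s C y b => ⟨agree_put' b.1 (by decide) _ _, by simpa using b.2⟩)
    ⟨Agree.refl _ _, fun k u => by simpa using hx k u⟩ (fun s hs M' b1 ⟨b2, b3⟩ => ⟨agree_exec b2 O _ (by decide),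
      fun k u => by
        have hs' : s < D.P := D.lt ⟨s, hs⟩
        simp only [exec, Expr.val, V_val, Mem.put_apply, b1, b2 25 (by decide), b2 26 (by decide),
          b2 22 (by decide), b2 23 (by decide), hi, hj, b3, true_and, cell_inj (D.lt u) hs', Fin.val_inj]
        norm_num [b1, hi, b2 25, b2 22, cell_inj (D.lt u) hs', Fin.val_inj]
        by_cases e : u.val = s
        · subst e
          simp only [put, Function.update_apply, (hQ u).1, (hQ u).2, Fin.val_inj]
          split_ifs <;> simp_all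
        · simp only [e, and_false, if_false]
          exact if_congr (by omega) rfl rfl⟩)
  intro k u
  rw [store, this.2, if_pos u.2]

theorem prep_spec (hP : D.Par M) {x : D.Pop} (hx : D.Pp x M) {i j : Fin D.G.N} {a b : Fin D.ns} {c : Bool}
    (hi : M 25 0 = i) (hj : M 26 0 = j) (hc : M 27 0 = c.toNat) (ha : M 28 0 = a) (hb : M 29 0 = b) :
    exec O prep M 25 0 = i * D.P ∧ exec O prep M 26 0 = j * D.P ∧
      D.RQ (mvQ (c, a, b) (mk2 (x i) (x j))) (exec O prep M) ∧ exec O prep M 31 0 =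
        D.sw M i j (mk2 (x i) (x j)) - D.sw M i j (mvQ (c, a, b) (mk2 (x i) (x j))) ∧
      exec O prep M 33 0 = 0 := by
  simp only [prep, exec_seq]
  have a1 := exec_agree O (dbl 25 9) M
  have s1 := dbl_spec O 25 9 M
  generalize exec O (dbl 25 9) M = M1 at *
  have a2 := exec_agree O (dbl 26 9) M1
  have s2 := dbl_spec O 26 9 M1
  generalize exec O (dbl 26 9) M1 = M2 at *
  rw [hi, hP.r9] at s1
  rw [a1 26 (by decide), a1 9 (by decide), hj, hP.r9] at s2
  have b2 : Agree [25, 26] M M2 := (a1.mono (by decide)).trans (a2.mono (by decide))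
  rw [← a2 25 (by decide)] at s1
  have s3 : ∀ r k, ∀ M', exec O (offs r k) M' r 0 = if M' k 0 < M' 19 0 then M' 11 0 else 0 := by
    intro r k M'
    simp only [offs, exec, ite_apply, ltE_eq, V_val, asg, Expr.val]
    split_ifs <;> first | omega | simp
  have a3 := exec_agree O (offs 36 25) M2
  have s4 := s3 36 25 M2
  generalize exec O (offs 36 25) M2 = M3 at *
  have a4 := exec_agree O (offs 37 26) M3
  have s5 := s3 37 26 M3
  generalize exec O (offs 37 26) M3 = M4 at *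
  rw [s1, b2 19 (by decide), b2 11 (by decide), hP.r11, ← a4 36 (by decide)] at s4
  rw [a3 26 (by decide), a3 19 (by decide), a3 11 (by decide), s2, b2 19 (by decide), b2 11 (by decide),
    hP.r11] at s5
  have b4 : Agree [36, 37] M2 M4 := (a3.mono (by decide)).trans (a4.mono (by decide))
  have c4 : Agree [25, 26, 36, 37] M M4 := (b2.mono (by decide)).trans (b4.mono (by decide))
  rw [← b4 25 (by decide)] at s1
  rw [← b4 26 (by decide)] at s2
  have a5 := exec_agree O load M4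
  have s6 : D.RQ (mk2 (x i) (x j)) (exec O load M4) := by
    have e8 : M4 8 0 = D.ns := by rw [c4 8 (by decide), hP.r8]
    intro u
    rw [load, fill1 (a := 22) (o := 0) [22, 23, 35] (fun s => M 21 (i * D.P + s)) e8 (by decide) (by decide)
      (by decide) (by decide) (by decide) (fun s _ C' b e _ => by
        funext y; simp [exec, Expr.val, e, Function.update_apply, b 21, b 25, s1, c4 21]),
      fill1 (a := 23) (o := 0) [22, 23, 35] (fun s => M 21 (j * D.P + s)) e8 (by decide) (by decide)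
      (by decide) (by decide) (by decide) (fun s _ C' b e _ => by
        funext y; simp [exec, Expr.val, e, Function.update_apply, b 21, b 26, s2, c4 21])]
    simp [hx i u, hx j u, mk2]
  generalize exec O load M4 = M5 at *
  have c5 : Agree [25, 26, 36, 37, 22, 23, 35] M M5 := (c4.mono (by decide)).trans (a5.mono (by decide))
  have a6 := exec_agree O (wsum 31) M5
  have s7 := wsum_spec (O := O) (hP.agree c5 (by decide)) (Or.inl rfl) s6 (i := i) (j := j)
    (by rw [a5 36 (by decide), s4, c5 19 (by decide)]) (by rw [a5 37 (by decide), s5, c5 19 (by decide)])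
  generalize exec O (wsum 31) M5 = M6 at *
  have c6 : Agree [25, 26, 36, 37, 22, 23, 35, 31] M M6 := (c5.mono (by decide)).trans (a6.mono (by decide))
  have s8 : D.RQ (mk2 (x i) (x j)) M6 := fun u => by rw [a6 22 (by decide), a6 23 (by decide)]; exact s6 u
  have a7 := exec_agree O prop M6
  have s9 : D.RQ (mvQ (c, a, b) (mk2 (x i) (x j))) (exec O prop M6) := by
    have e1 : M6 28 0 = a := by rw [c6 28 (by decide), ha]
    cases c
    · rw [prop, exec_ite_zero _ _ _ (by rw [V_val, c6 27 (by decide), hc]; rfl)]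
      exact locP_spec s8 e1 (by rw [c6 29 (by decide), hb])
    · rw [prop, exec_ite_ne _ _ _ (by rw [V_val, c6 27 (by decide), hc]; simp)]
      exact swap_spec (hP.agree c6 (by decide)) s8 e1
  generalize exec O prop M6 = M7 at *
  have b7 : Agree [22, 23, 35, 31, 24, 30, 38, 39, 34] M4 M7 :=
    ((a5.mono (by decide)).trans (a6.mono (by decide))).trans (a7.mono (by decide))
  have c7 : Agree Sc M M7 := (c4.mono (by decide)).trans (b7.mono (by decide))
  have a8 := exec_agree O (wsum 32) M7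
  have t1 := wsum_spec (O := O) (hP.agree c7 (by decide)) (Or.inr rfl) s9 (i := i) (j := j)
    (by rw [b7 36 (by decide), s4, c7 19 (by decide)]) (by rw [b7 37 (by decide), s5, c7 19 (by decide)])
  generalize exec O (wsum 32) M7 = M8 at *
  simp only [sw, om_agree c5 (by decide) (by decide)] at s7
  simp only [sw, om_agree c7 (by decide) (by decide)] at t1
  refine ⟨?_, ?_, fun u => ?_, ?_, ?_⟩
  · simp [exec, asg, a8 25 (by decide), b7 25, s1]
  · simp [exec, asg, a8 26 (by decide), b7 26, s2]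
  · simpa [exec, asg, a8 22 (by decide), a8 23 (by decide)] using s9 u
  · simp [exec, asg, Expr.val, a8 31 (by decide), a7 31 (by decide), s7, t1, sw]
  · simp [exec, asg, Expr.val]

theorem flips_ex {k : ℕ} (h1 : M 31 0 = k) (h2 : k ≤ M 13 0) (h3 : M 33 0 = 0) (φ : Mem → ℝ) (A B : ℝ)
    (hφ : ∀ M', Agree [31, 33, 34] M M' → φ M' = if M' 33 0 = 0 then A else B) :
    ex O flips φ M = (1 / 2) ^ k * A + (1 - (1 / 2) ^ k) * B := by
  have := Impl.loopG (O := O) (W := [31, 33, 34]) (V 13) (V 31) (M 13 0) k h2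
    (p := .seq (.seq (.coin 34 (.lit 0)) (acc 33 (V 34))) (asg 31 (.sub (V 31) (.lit 1))))
    (fun i (f : ℕ) m => m 13 0 = M 13 0 ∧ m 31 0 = k - i ∧ m 33 0 = f)
    (T := fun ψ f => (ψ f + ψ (f + 1)) / 2) (fun _ _ h => h.1) (fun i hi _ _ h => by rw [V_val, h.2.1]; omega)
    (fun _ _ h => by rw [V_val, h.2.1]; omega) (by
      intro i _ f m ⟨a1, a2, a3⟩ φ ψ H
      have ag : ∀ a b c, Agree [31, 33, 34] m (((m.put 34 0 a).put 33 0 b).put 31 0 c) := fun a b c =>
        agree_put' (agree_put' (agree_put' (Agree.refl _ _) (by decide) _ _) (by decide) _ _) (by decide) _ _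
      simp only [ex, acc, asg, Expr.val, V_val]
      rw [H f _ (by simp [a1, a2, a3]; omega) (ag _ _ _), H (f + 1) _ (by simp [a1, a2, a3]; omega) (ag _ _ _)])
    0 M ⟨rfl, h1, h3⟩ φ (fun f => if f = 0 then A else B) (fun f m' h a => by rw [hφ m' a, h.2.2])
  rw [flips, rept, this]
  have key : ∀ k f, (fun (ψ : ℕ → ℝ) f => (ψ f + ψ (f + 1)) / 2)^[k] (fun f => if f = 0 then A else B) f
      = if f = 0 then (1 / 2) ^ k * A + (1 - (1 / 2) ^ k) * B else B := by
    intro k
    induction k with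
    | zero => intro f; simp
    | succ k ih =>
      intro f
      rw [Function.iterate_succ_apply', ih, ih]
      by_cases e : f = 0 <;> simp only [e, if_true, if_false, Nat.succ_ne_zero] <;> ring
  exact (key k 0).trans (if_pos rfl)

theorem acQ_eq {i j : Fin D.G.N} (hi : D.G.Good (D.om M i)) (hj : D.G.Good (D.om M j))
    (Q Q' : Pr (Fin D.ns)) :
    acQ (e2 (D.om M i)) (e2 (D.om M j)) Q Q' = (1 / 2) ^ (D.sw M i j Q - D.sw M i j Q') := by
  have e : ∀ Q, wQ (e2 (D.om M i)) (e2 (D.om M j)) Q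
      = 2 ^ D.sw M i j Q / (Zs (e2 (D.om M i)) * Zs (e2 (D.om M j))) := fun Q => by
    simp only [wQ, pr, PM.wt, e2, sw, div_mul_div_comm, prod_pow_eq_pow_sum, sum_add_distrib, pow_add, Zs]
  have z : 0 < Zs _ * Zs _ := mul_pos ((wt_e2 hi.sym).z_pos (Q true)) ((wt_e2 hj.sym).z_pos (Q true))
  rw [acQ, e, e, div_div_div_cancel_right₀ z.ne']
  rcases le_total (D.sw M i j Q) (D.sw M i j Q') with h | h
  · rw [Nat.sub_eq_zero_of_le h, pow_zero, min_eq_left (by rw [one_le_div (by positivity)]; exact pw2 h)]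
  · rw [min_eq_right (by rw [div_le_one (by positivity)]; exact pw2 h), one_div, inv_pow,
      pow_sub₀ _ (by norm_num) h]
    field_simp

theorem tbig (D : Cf) (k : ℕ) (hk : k ≤ 1024) : k * D.P * D.G.b ≤ D.G.t ∧ k * D.G.B ≤ D.G.t ∧
    D.G.B + D.G.N + 1 ≤ D.G.t := by
  have hL := D.G.hL
  have p : ∀ a b, a ≤ b → 2 ^ a ≤ 2 ^ b := fun a b h => Nat.pow_le_pow_right (by norm_num) h
  have h1 := hk.trans D.G.P1024
  refine ⟨?_, ?_, ?_⟩
  · refine (Nat.mul_le_mul_right _ (Nat.mul_le_mul_right _ h1)).trans ?_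
    rw [D.G.b_eq, ← pow_add, ← pow_add]; exact p _ _ (by omega)
  · refine (Nat.mul_le_mul_right _ h1).trans ?_
    rw [Gr.B, ← pow_add]; exact p _ _ (by omega)
  · have a1 := p (4096 * D.G.L) (32768 * D.G.L) (by omega)
    have a2 := p (32768 * D.G.L + 2) (40960 * D.G.L) (by omega)
    have a3 := Nat.one_le_two_pow (n := 32768 * D.G.L)
    rw [pow_add] at a2
    unfold Gr.B Gr.N Gr.t
    omega

theorem one_impl (hP : D.Par C) (hg : ∀ i, D.G.Good (D.om C i)) :
    Impl O Sc one (D.Enc C) (D.Enc C) (Rop D.G.th fun i => e2 (D.om C i)) := by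
  intro x M ⟨hM, hx⟩ φ ψ H
  have H' : ∀ y M', Agree Sc M M' → D.Pp y M' → φ M' = ψ y := fun y M' a b => H y M' ⟨hM.trans a, b⟩ a
  have pM := hP.agree hM (by decide)
  let g : Fin D.G.N → Fin D.G.N → Bool × Fin D.ns × Fin D.ns → ℝ := fun i j k =>
    acQ (e2 (D.om C i)) (e2 (D.om C j)) (mk2 (x i) (x j)) (mvQ k (mk2 (x i) (x j)))
      * (ψ (put x i j (mvQ k (mk2 (x i) (x j)))) - ψ x)
  let F : Fin D.G.N → Fin D.G.N → Bool → ℕ → ℕ → ℝ := fun i j c a b => ψ x +
    if ha : a < D.ns then if hb : b < D.ns then if i = j then 0 else g i j (c, ⟨a, ha⟩, ⟨b, hb⟩) else 0 else 0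
  have last : ∀ (i j : Fin D.G.N) (c : Bool) a b M', Agree [25, 26, 27, 28, 29, 34] M M' → M' 25 0 = i →
      M' 26 0 = j → M' 27 0 = c.toNat → M' 28 0 = a → M' 29 0 = b → ex O (.ite (mn (neE (V 25) (V 26))
        (mn (ltE (V 28) (V 8)) (ltE (V 29) (V 8)))) move skip) φ M' = F i j c a b := by
    intro i j c a b M' ag h1 h2 h3 h4 h5
    have x' : D.Pp x M' := fun i u => by rw [ag 21 (by decide)]; exact hx i u
    have p' := pM.agree ag (by decide)
    simp only [ex, mn_val, Nat.min_eq_zero_iff, neE_eq, ltE_eq, V_val, h1, h2, h4, h5, p'.r8, Fin.val_inj, F]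
    split_ifs with c1 c2 c3 c4 c2 c3 c4
    any_goals (exfalso; omega)
    any_goals
      rw [add_zero]
      exact H' x _ (agree_put' (ag.mono (by decide)) (by decide) _ _) fun i u => by simpa using x' i u
    obtain ⟨s1, s2, s3, s4, s5⟩ := prep_spec (O := O) p' x' h1 h2 h3 (a := ⟨a, c2⟩) (b := ⟨b, c3⟩) h4 h5
    have a1 : Agree Sc M (exec O prep M') := agree_exec (ag.mono (by decide)) O _ (by decide)
    have x1 : D.Pp x (exec O prep M') := fun i u => by rw [exec_frame _ _ _ 21 (by decide)]; exact x' i u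
    have eo : D.om M' = D.om C := (om_agree ag (by decide) (by decide)).trans (om_agree hM (by decide) (by decide))
    simp only [move, ex]
    rw [ex_det _ prep (by decide)]
    generalize exec O prep M' = M2 at *
    rw [flips_ex s4 ?_ s5 _ (ψ (put x i j (mvQ (c, ⟨a, c2⟩, ⟨b, c3⟩) (mk2 (x i) (x j))))) (ψ x) ?_]
    · rw [← acQ_eq (eo ▸ hg i) (eo ▸ hg j), eo]; simp only [g]; ring
    · rw [(pM.agree a1 (by decide)).r13]
      refine (Nat.sub_le _ _).trans ((sum_le_card_nsmul _ _ (56 * D.G.b) fun u _ => ?_).trans ?_)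
      · have := (hg i).bd _ _ ((x i).2.2 u).symm
        have := (hg j).bd _ _ ((x j).2.2 u).symm
        rw [eo]; simp only [mk2, if_true, Bool.false_eq_true, if_false]; omega
      · have := (D.tbig 28 (by norm_num)).1
        have := Nat.mul_le_mul_right (28 * D.G.b) D.nP
        simp only [card_univ, Fintype.card_fin, smul_eq_mul]
        nlinarith
    · intro M3 a3
      have a4 : Agree Sc M M3 := a1.trans (a3.mono (by decide))
      have x3 : D.Pp x M3 := fun i u => by rw [a3 21 (by decide)]; exact x1 i u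
      rw [V_val]
      split_ifs
      · rw [ex_det _ store (by decide)]
        exact H' _ _ (agree_exec a4 O _ (by decide)) (store_spec (pM.agree a4 (by decide)) x3
          (fun u => by rw [a3 22 (by decide), a3 23 (by decide)]; exact s3 u)
          (by rw [a3 25 (by decide), s1]) (by rw [a3 26 (by decide), s2]))
      · exact H' x _ (agree_put' a4 (by decide) _ _) fun i u => by simpa using x3 i u
  have e : Rop D.G.th (fun i => e2 (D.om C i)) ψ x = (∑ i ∈ range (2 ^ (32768 * D.G.L)),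
      (∑ j ∈ range (2 ^ (32768 * D.G.L)), if hi : i < D.G.N then if hj : j < D.G.N then
        ((∑ a ∈ range D.P, (∑ b ∈ range D.P, F ⟨i, hi⟩ ⟨j, hj⟩ false a b) / 2 ^ D.G.L) / 2 ^ D.G.L
        + (∑ a ∈ range D.P, (∑ b ∈ range D.P, F ⟨i, hi⟩ ⟨j, hj⟩ true a b) / 2 ^ D.G.L) / 2 ^ D.G.L) / 2
        else 0 else 0) / 2 ^ (32768 * D.G.L)) / 2 ^ (32768 * D.G.L) := by
    have hle : D.ns ≤ D.P := by have := D.nP; omega
    have e1 : ∀ i j c, (∑ a ∈ range D.P, (∑ b ∈ range D.P, F i j c a b) / 2 ^ D.G.L) / 2 ^ D.G.L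
        = ψ x + (∑ a, ∑ b, if i = j then 0 else g i j (c, a, b)) / 4 ^ D.G.L := by
      intro i j c
      have e2 := fun a => sum_range_dite hle (fun b => if i = j then 0 else g i j (c, a, b))
      simp only [F, sum_add_distrib, sum_dite_irrel, sum_const_zero, e2, add_div, ← sum_div,
        sum_range_dite hle (fun a => ∑ b, if i = j then 0 else g i j (c, a, b)), sum_const, card_range,
        nsmul_eq_mul]
      push_cast
      rw [show (4 : ℝ) ^ D.G.L = 2 ^ D.G.L * 2 ^ D.G.L by rw [← mul_pow]; norm_num]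
      field_simp
    simp only [e1]
    simp only [← sum_div]
    rw [show 2 ^ (32768 * D.G.L) = D.G.N from rfl, sum_range]
    simp only [sum_range, Fin.is_lt, dif_pos, Fin.eta, Rop, Fintype.sum_prod_type, Fintype.card_fin]
    rw [div_div, ← sq, one_div_mul_eq_div, show (D.G.N : ℝ) = 2 ^ (32768 * D.G.L) by simp [Gr.N]]
    congr 1
    refine sum_congr rfl fun i _ => sum_congr rfl fun j _ => ?_
    simp only [Pij, stp, put_mk2, Fintype.sum_prod_type, Fintype.sum_bool, Gr.th, g]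
    split_ifs
    · simp
    · field_simp; ring
  rw [e]
  refine rnd_ex (by decide) (by decide) (by decide) pM.r15 _ _ fun i hi M1 h1 a1 => ?_
  refine rnd_ex (by decide) (by decide) (by decide) (by rw [a1 15 (by decide), pM.r15]) _ _
    fun j hj M2 h2 a2 => ?_
  have b2 : Agree [25, 26, 27, 28, 29, 34] M M2 := (a1.mono (by decide)).trans (a2.mono (by decide))
  have key : ∀ c : Bool, ex O (.seq (rnd 28 9) (.seq (rnd 29 9) (.ite (mn (neE (V 25) (V 26))
      (mn (ltE (V 28) (V 8)) (ltE (V 29) (V 8)))) move skip))) φ (M2.put 27 0 c.toNat)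
      = (∑ a ∈ range D.P, (∑ b ∈ range D.P, F ⟨i, hi⟩ ⟨j, hj⟩ c a b) / 2 ^ D.G.L) / 2 ^ D.G.L := fun c =>
    rnd_ex (by decide) (by decide) (by decide) (by simp [b2 9, pM.r9]) _ _ fun a _ M3 h3 a3 =>
      rnd_ex (by decide) (by decide) (by decide) (by simp [a3 9, b2 9, pM.r9]) _ _ fun b _ M4 h4 a4 =>
        last _ _ c a b M4 (((agree_put' b2 (by decide) _ _).trans (a3.mono (by decide))).trans
          (a4.mono (by decide))) (by simp [a4 25, a3 25, a2 25, h1]) (by simp [a4 26, a3 26, h2])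
          (by simp [a4 27, a3 27]) (by rw [a4 28 (by decide), h3]) h4
  rw [dif_pos (show i < D.G.N from hi), dif_pos (show j < D.G.N from hj), ← key, ← key]
  rfl

theorem remix_impl (hP : D.Par C) (hg : ∀ i, D.G.Good (D.om C i)) :
    Impl O Sc remix (D.Enc C) (D.Enc C) (Rop D.G.th fun i => e2 (D.om C i))^[D.G.t] :=
  Impl.loop (V 13) D.G.t (fun _ => D.Enc C) (fun _ _ h => (hP.agree h.1 (by decide)).r13)
    fun _ _ => one_impl hP hg

end Cf

end Vale.Agent.P308
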