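import Vale.Agent.P308.RefMix

/-! P308: a judgement for control programs run on top of a nearly stationary population. -/

namespace Vale.Agent.P308
open Finset Function Vale.Agent.P317 Vale.Agent.P328
attribute [-instance] Nat.decidableForallFin

theorem mu_change {V ι : Type} [DecidableEq V] [Fintype V] [Fintype ι] [DecidableEq ι]
    {ω ω' : ι → V → V → ℝ} {i : ι} (h : Wt (ω' i)) (e : ∀ j, j ≠ i → ω j = ω' j) (F : (ι → PM V) → ℝ) :
    ∑ x, mu ω x * F x = ∑ m, pr (ω i) m * ∑ x, mu ω' x * F (update x i m) := by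
  simp only [mul_sum]
  rw [sum_comm, ← Fintype.sum_prod_type',
    ← sum_invol (F := fun z : (ι → PM V) × PM V => (update z.1 i z.2, z.1 i)) (fun z => by simp),
    Fintype.sum_prod_type]
  refine sum_congr rfl fun x _ => ?_
  have : ∀ m, pr (ω i) (x i) * mu ω' (update x i m) = mu ω x * pr (ω' i) m := fun m => by
    simp only [mu]
    rw [← mul_prod_erase _ _ (mem_univ i), ← mul_prod_erase _ _ (mem_univ i), update_self,
      prod_congr rfl fun k hk => by rw [update_of_ne (mem_erase.1 hk).1, ← e k (mem_erase.1 hk).1]]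
    ring
  simp only [update_idem, update_eq_self, ← mul_assoc, this, ← sum_mul, ← mul_sum, h.sum_pr (x i), mul_one]

variable {k0 : ℕ} {O : Bool → Set (Fin k0) → Prop}

theorem ex_nonneg (p : Prog) : ∀ φ : Mem → ℝ, (∀ m, 0 ≤ φ m) → ∀ m, 0 ≤ ex O p φ m := by
  induction p with
  | set a i e => intro φ h m; exact h _
  | coin a i => intro φ h m; exact div_nonneg (add_nonneg (h _) (h _)) (by norm_num)
  | ask w b a i => intro φ h m; exact h _
  | seq p q ihp ihq => intro φ h m; exact ihp _ (ihq _ h) m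
  | ite c p q ihp ihq =>
    intro φ h m; simp only [ex]; split_ifs
    exacts [ihq _ h m, ihp _ h m]
  | loop k c p ih =>
    intro φ h m
    simp only [ex]
    generalize k.val m = j
    induction j generalizing m with
    | zero => exact h m
    | succ j ihj =>
      simp only [exLoop]; split_ifs
      exacts [h m, ih _ ihj m]

namespace Cf
variable (D : Cf)

def Jge (C : Mem) (φ : Mem → ℝ) (c : ℝ) : Prop := ∃ ψ : D.Pop → ℝ, (∀ x, 0 ≤ ψ x) ∧ (∀ x, ψ x ≤ 1) ∧
  (∀ x M, D.Enc C x M → ψ x ≤ φ M) ∧ c ≤ ∑ x, mu (fun i => e2 (D.om C i)) x * ψ x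

def TR (O : Bool → Set (Fin k0) → Prop) (p : Prog) (C : Mem) (Q : Mem → Prop) (k : ℕ) : Prop :=
  ∀ φ : Mem → ℝ, (∀ m, 0 ≤ φ m) → ∀ c ≤ (1 : ℝ), (∀ C', Q C' → Agree p.wr C C' → D.Jge C' φ c) →
    D.Jge C (ex O p φ) (c - k * D.G.e0)

def okR (a : ℕ) : Prop := a ∉ Sc ∧ a ≠ 17 ∧ a ≠ 19

instance (a : ℕ) : Decidable (okR a) := by unfold okR; infer_instance

variable {D} {C C' : Mem} {φ φ' : Mem → ℝ} {c c' : ℝ}

theorem e0_pos : 0 < D.G.e0 := by unfold Gr.e0; positivity

theorem Jge.step (h : D.Jge C' φ c) (e : D.om C' = D.om C) (hc : c' ≤ c)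
    (hs : ∀ x M, D.Enc C x M → ∃ M', D.Enc C' x M' ∧ φ M' ≤ φ' M) : D.Jge C φ' c' := by
  obtain ⟨ψ, a0, a1, a2, a3⟩ := h
  exact ⟨ψ, a0, a1, fun x M hM => by obtain ⟨M', b1, b2⟩ := hs x M hM; exact (a2 x M' b1).trans b2,
    e ▸ hc.trans a3⟩

theorem Jge.low (h : D.Jge C φ c) (hc : c' ≤ c) : D.Jge C φ c' :=
  h.step rfl hc fun _ M hM => ⟨M, hM, le_rfl⟩

theorem jge0 (h : ∀ m, 0 ≤ φ m) (hc : c ≤ 0) : D.Jge C φ c :=
  ⟨fun _ => 0, fun _ => le_rfl, fun _ => zero_le_one, fun _ M _ => h M, by simpa using hc⟩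

theorem enc_exec {x : D.Pop} {M : Mem} (h : D.Enc C x M) (p : Prog) (h1 : ∀ a ∈ rdP p, a ∉ Sc)
    (h2 : 21 ∉ p.wr) : D.Enc (exec O p C) x (exec O p M) :=
  ⟨exec_ni p h1 _ _ h.1, fun i u => by rw [exec_frame _ _ _ _ h2]; exact h.2 i u⟩

theorem TR.det {p : Prog} {Q : Mem → Prop} (hd : p.det = true) (h1 : ∀ a ∈ rdP p, a ∉ Sc) (h2 : 21 ∉ p.wr)
    (e : D.om (exec O p C) = D.om C) (hQ : Q (exec O p C)) : D.TR O p C Q 0 := fun _ _ _ _ H =>
  (H _ hQ (exec_agree _ _ _)).step e (by simp) fun _ M hM => ⟨_, enc_exec hM p h1 h2, (ex_det O p hd _ M).ge⟩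

theorem TR.det' {p : Prog} {Q : Mem → Prop} (h : p.det = true ∧ (∀ a ∈ rdP p, a ∉ Sc) ∧ 21 ∉ p.wr ∧
    17 ∉ p.wr ∧ 19 ∉ p.wr) (hQ : Q (exec O p C)) : D.TR O p C Q 0 :=
  TR.det h.1 h.2.1 h.2.2.1 (om_agree (exec_agree _ _ _) h.2.2.2.1 h.2.2.2.2) hQ

theorem lgT : Lg okR (D.TR O) := by
  have e0 := (e0_pos (D := D)).le
  refine ⟨fun {p C Q Q' e e'} h h' he φ φ0 c c1 H => (h φ φ0 c c1 fun C' a b => H C' (h' C' a b) b).low
      (sub_le_sub_left (mul_le_mul_of_nonneg_right (by exact_mod_cast he) e0) _),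
    fun {p q C Q Q' e e'} h h' φ φ0 c c1 H => (h _ (ex_nonneg q φ φ0) (c - e' * D.G.e0)
      (by have := mul_nonneg (Nat.cast_nonneg (α := ℝ) e') e0; linarith) fun C' a b =>
        h' C' a φ φ0 c c1 fun C'' a' b' => H C'' a' ((b.mono (by simp +contextual [Prog.wr])).trans
          (b'.mono (by simp +contextual [Prog.wr])))).low (by push_cast; linarith),
    fun {i} C ⟨a, b, c⟩ => TR.det' ⟨rfl, by simp [asg, rdP, rdE], fun e => a (by
      simp only [asg, Prog.wr, List.mem_singleton] at e; rw [← e]; decide), by simpa [asg, Prog.wr] using b.symm,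
      by simpa [asg, Prog.wr] using c.symm⟩ rfl,
    fun {i} C ⟨a, b, c⟩ => TR.det' ⟨rfl, by simpa [inc, asg, rdP, rdE, V] using a, fun e => a (by
      simp only [inc, asg, Prog.wr, List.mem_singleton] at e; rw [← e]; decide),
      by simpa [inc, asg, Prog.wr] using b.symm, by simpa [inc, asg, Prog.wr] using c.symm⟩ rfl,
    fun {k p C e} I ok h0 h φ φ0 c c1 H => ?_⟩
  have key : ∀ j i, i + j = C k 0 → ∀ C', I i C' → Agree p.wr C C' →
      D.Jge C' (ex O (.loop (.lit j) (.lit 1) p) φ) (c - (j * e : ℕ) * D.G.e0) := by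
    intro j
    induction j with
    | zero => intro i hi C' a b; exact (H C' (hi ▸ a) b).low (by simp)
    | succ j ih =>
      intro i hi C' a b
      exact (h i (by omega) C' a _ (ex_nonneg _ φ φ0) _
        (by have := mul_nonneg (Nat.cast_nonneg (α := ℝ) (j * e)) e0; linarith)
        fun C'' a' b' => ih (i + 1) (by omega) C'' a' (b.trans b')).low (by push_cast; linarith)
  exact (key _ 0 (zero_add _) C h0 (Agree.refl _ _)).step rfl le_rfl fun x M hM =>
    ⟨M, hM, by simp only [ex, V_val, hM.1 k ok.1]; exact le_rfl⟩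

theorem TR.ite {g : Expr} {p q : Prog} {Q : Mem → Prop} {e : ℕ} (hg : ∀ a ∈ rdE g, a ∉ Sc)
    (h1 : g.val C ≠ 0 → D.TR O p C Q e) (h2 : g.val C = 0 → D.TR O q C Q e) : D.TR O (.ite g p q) C Q e := by
  intro φ φ0 c c1 H
  by_cases z : g.val C = 0
  · exact (h2 z φ φ0 c c1 fun C' a b => H C' a (b.mono (by simp +contextual [Prog.wr]))).step rfl le_rfl
      fun x M hM => ⟨M, hM, by simp only [ex, val_agree hM.1 g hg, z, if_true, le_refl]⟩
  · exact (h1 z φ φ0 c c1 fun C' a b => H C' a (b.mono (by simp +contextual [Prog.wr]))).step rfl le_rfl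
      fun x M hM => ⟨M, hM, by simp only [ex, val_agree hM.1 g hg, z, if_false, le_refl]⟩

theorem TR.skip {Q : Mem → Prop} {e : ℕ} (h : Q (C.put 34 0 0)) : D.TR O skip C Q e :=
  lgT.mono (TR.det' (by decide) h) (fun _ a _ => a) (Nat.zero_le _)

/-- After mixing, the population has forgotten the value of one coordinate. -/
theorem jge_remix {ω : Fin D.G.N → Fin D.ns → Fin D.ns → ℕ} (hg : ∀ i, D.G.Good (ω i))
    (hn : ∀ i j T, pr (e2 (ω i)) T ≤ 4 * pr (e2 (ω j)) T) (i : Fin D.G.N) (hi : Wt (e2 (D.om C i)))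
    (e : ∀ j, j ≠ i → D.om C j = ω j) (F : PM (Fin D.ns) → Mem) (v : PM (Fin D.ns) → ℝ)
    (h1 : ∀ m, D.Par (F m)) (h2 : ∀ m, D.om (F m) = ω) (h3 : ∀ m, D.Jge (F m) φ (v m))
    (hs : ∀ x M, D.Enc C x M → ∃ M', D.Enc (F (x i)) x M' ∧ ex O remix φ M' ≤ φ' M) :
    D.Jge C φ' (∑ m, pr (e2 (D.om C i)) m * v m - D.G.e0) := by
  haveI : Nonempty (Fin D.G.N) := ⟨i⟩
  choose ψ a0 a1 a2 a3 using h3
  have mk := (Gr.ty_of hg hn).mR.iterate D.G.t
  refine ⟨fun x => (Rop D.G.th fun i => e2 (ω i))^[D.G.t] (ψ (x i)) x,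
    fun x => (mk.const 0 x).ge.trans (mk.mono _ _ (a0 _) x), fun x => (mk.mono _ _ (a1 _) x).trans (mk.one x).le,
    fun x M hM => ?_, ?_⟩
  · obtain ⟨M', b1, b2⟩ := hs x M hM
    have := Impl.le (remix_impl (O := O) (h1 (x i)) (by rw [h2]; exact hg)) (fun y y' m hy hy' =>
      funext fun k => Subtype.ext (funext fun u => Fin.ext ((hy.2 k u).symm.trans (hy'.2 k u)))) b1 φ _ (a2 _)
    rw [h2] at this
    exact this.trans b2
  · rw [mu_change (ω := fun i => e2 (D.om C i)) (ω' := fun i => e2 (ω i)) (wt_e2 (hg i).sym)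
      fun j hj => by rw [e j hj],
      ← one_mul D.G.e0, ← hi.sum_pr D.G.mt, sum_mul, ← sum_sub_distrib]
    refine sum_le_sum fun m _ => ?_
    rw [← mul_sub]
    refine mul_le_mul_of_nonneg_left ?_ (hi.pr_pos m).le
    have := a3 m
    rw [h2] at this
    simp only [update_self]
    exact (sub_le_sub_right this _).trans (Gr.mixes hg hn i m _ (a0 m) (a1 m))

theorem N_pos (D : Cf) : 0 < D.G.N := Nat.two_pow_pos _

theorem batch_tr (hP : D.Par C) {W : Fin D.ns → Fin D.ns → ℕ} (hW : ∀ i, D.om C i = W) (hg : D.G.Good W)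
    {p q : Fin D.ns} (hp : C 44 0 = p) (hq : C 45 0 = q) : D.TR O batch C (fun C' => ∃ c : ℕ,
      C' = C.put 46 0 c ∧ |(c : ℝ) - pe (e2 W) p q * D.G.B| ≤ D.G.al * D.G.B) (D.G.B + 1) := by
  intro φ φ0 c c1 H
  have w := wt_e2 hg.sym
  have eo : ∀ k, D.om (C.put 46 0 k) = fun _ => W := fun k =>
    (om_agree (agree_put _ _ _ _) (by decide) (by decide)).trans (funext hW)
  have p0 : 0 ≤ pe (e2 W) p q := sum_nonneg fun T _ => (w.pr_pos T).le
  have p1 : pe (e2 W) p q ≤ 1 := (sum_le_sum_of_subset_of_nonneg (filter_subset _ _)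
    fun T _ _ => (w.pr_pos T).le).trans (w.sum_pr D.G.mt).le
  let S : (ℕ → ℝ) → ℕ → ℝ := fun ψ k => pe (e2 W) p q * ψ (k + 1) + (1 - pe (e2 W) p q) * ψ k
  have mS : Markov S := ⟨fun f g a => by simp only [S]; ring, fun c f a => by simp only [S]; ring,
    fun f g h a => add_le_add (mul_le_mul_of_nonneg_left (h _) p0) (mul_le_mul_of_nonneg_left (h _)
      (by linarith)), fun a => by simp [S]⟩
  have ch := (chernoff mS id _ p0 p1 (fun _ _ => rfl) 0 rfl D.G.B D.G.al D.G.al_le.1.le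
    (by linarith [D.G.al_le.2])).trans D.G.cher
  simp only [id] at ch
  generalize hb : (fun k : ℕ => if D.G.al * D.G.B < |(k : ℝ) - pe (e2 W) p q * D.G.B| then (1 : ℝ) else 0)
    = bad at ch
  have key : ∀ j k, D.Jge (C.put 46 0 k) (ex O (.loop (.lit j) (.lit 1) sample) φ)
      (c - S^[j] bad k - j * D.G.e0) := by
    intro j
    induction j with
    | zero =>
      intro k
      subst hb
      by_cases z : D.G.al * D.G.B < |(k : ℝ) - pe (e2 W) p q * D.G.B|
      · exact jge0 φ0 (by simp [z, c1])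
      · exact (H _ ⟨k, rfl, not_lt.1 z⟩ (agree_put' (Agree.refl _ _) (by decide) _ _)).low (by simp [z])
    | succ j ih =>
      intro k
      refine (jge_remix (O := O) (ω := fun _ => W) (fun _ => hg) (fun _ _ T => by linarith [w.pr_pos T])
        ⟨0, D.N_pos⟩ (by rw [eo]; exact w) (fun _ _ => by rw [eo])
        (fun m => C.put 46 0 (if m.1 p = q then k + 1 else k)) _
        (fun _ => hP.agree (agree_put _ _ _ _) (by decide)) (fun _ => eo _) (fun m => ih _)
        fun x M hM => ⟨exec O (.ite (neE (.get 21 (V 44)) (V 45)) skip (inc 46)) M, ?_,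
          (ex_det O _ (by decide) _ M).ge⟩).low (le_of_eq ?_)
      · have a1 := hM.2 ⟨0, D.N_pos⟩ p
        have a2 : ∀ a, a ∉ Sc → M a = C.put 46 0 k a := hM.1
        simp only [zero_mul, zero_add] at a1
        refine ⟨?_, fun i u => by rw [exec_frame _ _ _ _ (by decide)]; exact hM.2 i u⟩
        simp only [exec, neE_eq, Expr.val, V_val, a2 44 (by decide), a2 45 (by decide), Mem.put_apply, hp, hq,
          a1, Fin.val_inj, inc, skip, asg, a2 46 (by decide)]
        norm_num [hp, hq, a1, Fin.val_inj]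
        split_ifs
        · intro a ha; funext y; simp only [Mem.put_apply, a2 a ha]; split_ifs <;> rfl
        · exact agree_put' hM.1 (by decide) _ _
      · rw [eo, iterate_succ_apply']
        have : ∀ m : PM (Fin D.ns), pr (e2 W) m * (c - S^[j] bad (if m.1 p = q then k + 1 else k) - j * D.G.e0)
            = pr (e2 W) m * (c - S^[j] bad k - j * D.G.e0)
              + (if m.1 p = q then pr (e2 W) m else 0) * (S^[j] bad k - S^[j] bad (k + 1)) := fun m => by
          split_ifs <;> ring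
        simp only [this, sum_add_distrib, ← sum_mul, w.sum_pr D.G.mt, ← sum_filter]
        generalize S^[j] bad = f
        simp only [S, pe]; push_cast; ring
  exact (key D.G.B 0).step ((eo 0).trans (funext hW).symm) (by push_cast; linarith) fun x M hM =>
    ⟨M.put 46 0 0, ⟨put_agree hM.1 _ _ _, fun i u => by simpa using hM.2 i u⟩, by
      simp only [batch, ex, asg, Expr.val, V_val, Mem.put_apply, (hP.agree hM.1 (by decide)).r14]
      norm_num⟩

theorem conv_tr (hP : D.Par C) {W W' : Fin D.ns → Fin D.ns → ℕ} (hg : D.G.Good W) (hg' : D.G.Good W')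
    (hn : ∀ T, pr (e2 W) T ≤ 4 * pr (e2 W') T ∧ pr (e2 W') T ≤ 4 * pr (e2 W) T)
    (h0 : ∀ p q : Fin D.ns, C 17 (p * D.P + q) = W p q)
    (h1 : ∀ p q : Fin D.ns, C 17 (D.G.b + (p * D.P + q)) = W' p q) (h19 : C 19 0 = 0) :
    D.TR O conv C (· = C.put 19 0 (D.G.N * D.P)) D.G.N := by
  have eo : ∀ s, D.om (C.put 19 0 (s * D.P)) = fun i => if i.val < s then W' else W := fun s => by
    funext i p q
    simp only [om, Mem.put_apply, and_self, if_true, Nat.mul_lt_mul_right (Nat.two_pow_pos D.G.L)]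
    norm_num
    split_ifs
    exacts [h1 p q, by rw [zero_add, h0]]
  have := (lgT (D := D) (O := O)).loop (k := 12) (p := .seq (acc 19 (V 10)) remix) (C := C) (e := 1)
    (fun s C' => C' = C.put 19 0 (s * D.P)) (by decide) (by funext a y; simp; rintro rfl rfl; exact h19) (by
      rw [hP.r12]
      rintro s hs _ rfl φ φ0 c c1 H
      have w := wt_e2 hg.sym
      have w' := wt_e2 hg'.sym
      refine (jge_remix (O := O) (ω := fun i => if i.val < s + 1 then W' else W)
        (fun i => by split_ifs <;> assumption) (fun i j T => ?_) ⟨s, hs⟩ (by rw [eo]; simpa using w)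
        (fun j hj => ?_) (fun _ => C.put 19 0 ((s + 1) * D.P)) (fun _ => c)
        (fun _ => hP.agree (agree_put _ _ _ _) (by decide)) (fun _ => eo _)
        (fun _ => H _ rfl fun a ha => ?_)
        fun x M hM => ⟨exec O (acc 19 (V 10)) M, ?_, le_rfl⟩).low (le_of_eq ?_)
      · have := hn T; have := w.pr_pos T; have := w'.pr_pos T
        split_ifs <;> linarith
      · rw [eo]; exact if_congr (by have := Fin.val_ne_of_ne hj; simp only at this; omega) rfl rfl
      · rw [Mem.put_ne _ _ _ (by rintro rfl; exact ha (by decide)),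
          Mem.put_ne _ _ _ (by rintro rfl; exact ha (by decide))]
      · convert enc_exec (O := O) hM (acc 19 (V 10)) (by decide) (by decide) using 1
        funext a y; simp [exec, acc, asg, Expr.val, hP.r10, add_mul]; split_ifs <;> rfl
      · rw [← sum_mul, eo, Wt.sum_pr (by simpa using w) D.G.mt]; simp)
  rwa [hP.r12, mul_one] at this

theorem jge_init {W : Fin D.ns → Fin D.ns → ℕ} (hW : ∀ i, D.om C i = W) (hs : ∀ u v, W u v = W v u)
    (hm : 1 - D.G.e0 ≤ pr (e2 W) D.G.mt) (hx : D.Pp (fun _ => D.G.mt) C) (h : D.Jge C φ c) :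
    c - D.G.N * D.G.e0 ≤ φ C := by
  obtain ⟨ψ, a0, a1, a2, a3⟩ := h
  have w : ∀ i, Wt (e2 (D.om C i)) := fun i => by rw [hW]; exact wt_e2 hs
  have s1 : ∑ x, mu (fun i => e2 (D.om C i)) x = 1 := by
    simp only [mu]
    rw [← Fintype.piFinset_univ, ← prod_univ_sum]
    exact prod_eq_one fun i _ => (w i).sum_pr D.G.mt
  have b1 : 1 - D.G.N * D.G.e0 ≤ mu (fun i => e2 (D.om C i)) fun _ => D.G.mt := by
    have e1 : D.G.e0 ≤ 1 := by unfold Gr.e0; exact div_le_one_of_le₀ (one_le_pow₀ (by norm_num)) (by positivity)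
    simp only [mu, hW, prod_const, card_univ, Fintype.card_fin]
    exact (by simpa [sub_eq_add_neg] using one_add_mul_le_pow (a := -D.G.e0) (by linarith) D.G.N :
      _ ≤ (1 - D.G.e0) ^ D.G.N).trans (pow_le_pow_left₀ (by linarith) hm _)
  have b2 := a2 _ C ⟨Agree.refl _ _, hx⟩
  have b3 := mu_pos w
  rw [← add_sum_erase _ _ (mem_univ fun _ => D.G.mt)] at a3 s1
  have b4 : ∑ x ∈ univ.erase fun _ => D.G.mt, mu (fun i => e2 (D.om C i)) x * ψ x ≤ _ :=
    sum_le_sum fun x _ => mul_le_of_le_one_right (b3 x).le (a1 x)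
  have b5 := sum_nonneg (s := univ.erase fun _ => D.G.mt) fun x _ => (b3 x).le
  nlinarith [a0 fun _ => D.G.mt]

end Cf

end Vale.Agent.P308
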